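import Vale.Agent.Lib.P154.Poly

noncomputable section

namespace Vale.Agent.Lib.P154.Cert1

open Vale.Agent.Lib.P154

def psi_0_1_6 (A C : ℝ) : ℝ := (-3/4)*C + (-3/4)*C^2 + (3/4)*A + (3)*A*C + (-3/2)*A^2 + (3/4)*A^2*C + (-9/4)*A^3

theorem psi_0_1_6_nonneg (s0 s1 s2 : ℝ) (h0 : 0 ≤ s0) (h1 : 0 ≤ s1) (h2 : 0 ≤ s2) (hs : s0 + s1 + s2 = 1) :
    0 ≤ psi_0_1_6 ((9/16)*achi s1 s2) ((27/64)*cchi s1 s2) := by
  have key : psi_0_1_6 ((9/16)*achi s1 s2) ((27/64)*cchi s1 s2) = (135/32768)*s2^7 + (7587/131072)*s1*s2^6 + (99549/262144)*s1^2*s2^5 + (723033/524288)*s1^3*s2^4 + (2368575/1048576)*s1^4*s2^3 + (3714579/2097152)*s1^5*s2^2 + (2767149/4194304)*s1^6*s2 + (395307/4194304)*s1^7 + (1107/16384)*s0*s2^6 + (24057/32768)*s0*s1*s2^5 + (228987/65536)*s0*s1^2*s2^4 + (1092663/131072)*s0*s1^3*s2^3 + (2253339/262144)*s0*s1^4*s2^2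 + (2048409/524288)*s0*s1^5*s2 + (682803/1048576)*s0*s1^6 + (27/64)*s0^2*s2^5 + (6669/2048)*s0^2*s1*s2^4 + (10071/1024)*s0^2*s1^2*s2^3 + (51543/4096)*s0^2*s1^3*s2^2 + (114345/16384)*s0^2*s1^4*s2 + (22869/16384)*s0^2*s1^5 + (621/512)*s0^3*s2^4 + (2889/512)*s0^3*s1*s2^3 + (16767/2048)*s0^3*s1^2*s2^2 + (10989/2048)*s0^3*s1^3*s2 + (10989/8192)*s0^3*s1^4 + (189/128)*s0^4*s2^3 + (1377/512)*s0^4*s1*s2^2 + (1863/1024)*s0^4*s1^2*s2 + (621/1024)*s0^4*s1^3 + (27/64)*s0^5*s2^2 + (27/128)*s0^5*s1*s2 + (27/256)*s0^5*s1^2 := by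
    have e : s0 = 1 - s1 - s2 := by linarith
    subst e; unfold psi_0_1_6 achi cchi; ring
  rw [key]; positivity

def psi_0_2_5 (A C : ℝ) : ℝ := (-3)*C + (-21/16)*C^2 + (51/8)*A + (165/16)*A*C + (-129/8)*A^2 + (-33/16)*A^2*C + (9/2)*A^3

theorem psi_0_2_5_nonneg (s0 s1 s2 : ℝ) (h0 : 0 ≤ s0) (h1 : 0 ≤ s1) (h2 : 0 ≤ s2) (hs : s0 + s1 + s2 = 1) :
    0 ≤ psi_0_2_5 ((9/16)*achi s1 s2) ((27/64)*cchi s1 s2) := by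
  have key : psi_0_2_5 ((9/16)*achi s1 s2) ((27/64)*cchi s1 s2) = (21357/131072)*s2^7 + (996435/524288)*s1*s2^6 + (8766873/1048576)*s1^2*s2^5 + (38427561/2097152)*s1^3*s2^4 + (92519955/4194304)*s1^4*s2^3 + (124298955/8388608)*s1^5*s2^2 + (87290973/16777216)*s1^6*s2 + (12470139/16777216)*s1^7 + (35289/16384)*s0*s2^6 + (610173/32768)*s0*s1*s2^5 + (15000471/262144)*s0*s1^2*s2^4 + (21962205/262144)*s0*s1^3*s2^3 + (68974335/1048576)*s0*s1^4*s2^2 + (14103639/524288)*s0*s1^5*s2 + (4701213/1048576)*s0*s1^6 + (84051/8192)*s0^2*s2^5 + (1941435/32768)*s0^2*s1*s2^4 + (3686283/32768)*s0^2*s1^2*s2^3 + (6718977/65536)*s0^2*s1^3*s2^2 + (12784365/262144)*s0^2*s1^4*s2 + (2556873/262144)*s0^2*s1^5 + (42255/2048)*s0^3*s2^4 + (136863/2048)*s0^3*s1*s2^3 + (598509/8192)*s0^3*s1^2*s2^2 + (324783/8192)*s0^3*s1^3*s2 + (324783/32768)*s0^3*s1^4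 + (1971/128)*s0^4*s2^3 + (6399/256)*s0^4*s1*s2^2 + (7371/512)*s0^4*s1^2*s2 + (2457/512)*s0^4*s1^3 + (459/128)*s0^5*s2^2 + (459/256)*s0^5*s1*s2 + (459/512)*s0^5*s1^2 := by
    have e : s0 = 1 - s1 - s2 := by linarith
    subst e; unfold psi_0_2_5 achi cchi; ring
  rw [key]; positivity

def psi_0_3_4 (A C : ℝ) : ℝ := (-51/16)*C + (-21/32)*C^2 + (93/8)*A + (177/16)*A*C + (-30)*A^2 + (-21/4)*A^2*C + (63/4)*A^3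

theorem psi_0_3_4_nonneg (s0 s1 s2 : ℝ) (h0 : 0 ≤ s0) (h1 : 0 ≤ s1) (h2 : 0 ≤ s2) (hs : s0 + s1 + s2 = 1) :
    0 ≤ psi_0_3_4 ((9/16)*achi s1 s2) ((27/64)*cchi s1 s2) := by
  have key : psi_0_3_4 ((9/16)*achi s1 s2) ((27/64)*cchi s1 s2) = (8883/16384)*s2^7 + (743445/131072)*s1*s2^6 + (11540961/524288)*s1^2*s2^5 + (21647385/524288)*s1^3*s2^4 + (90426105/2097152)*s1^4*s2^3 + (13777533/524288)*s1^5*s2^2 + (37024911/4194304)*s1^6*s2 + (5289273/4194304)*s1^7 + (206361/32768)*s0*s2^6 + (3177711/65536)*s0*s1*s2^5 + (68444919/524288)*s0*s1^2*s2^4 + (86969565/524288)*s0*s1^3*s2^3 + (243147015/2097152)*s0*s1^4*s2^2 + (46853235/1048576)*s0*s1^5*s2 + (15617745/2097152)*s0*s1^6 + (213219/8192)*s0^2*s2^5 + (4394223/32768)*s0^2*s1*s2^4 + (7464339/32768)*s0^2*s1^2*s2^3 + (12150621/65536)*s0^2*s1^3*s2^2 + (21523185/262144)*s0^2*s1^4*s2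 + (4304637/262144)*s0^2*s1^5 + (2889/64)*s0^3*s2^4 + (69201/512)*s0^3*s1*s2^3 + (139239/1024)*s0^3*s1^2*s2^2 + (35019/512)*s0^3*s1^3*s2 + (35019/2048)*s0^3*s1^4 + (15363/512)*s0^4*s2^3 + (96309/2048)*s0^4*s1*s2^2 + (104571/4096)*s0^4*s1^2*s2 + (34857/4096)*s0^4*s1^3 + (837/128)*s0^5*s2^2 + (837/256)*s0^5*s1*s2 + (837/512)*s0^5*s1^2 := by
    have e : s0 = 1 - s1 - s2 := by linarith
    subst e; unfold psi_0_3_4 achi cchi; ring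
  rw [key]; positivity

def psi_0_4_3 (A C : ℝ) : ℝ := (135/16)*A + (135/64)*A*C + (-675/32)*A^2 + (-135/64)*A^2*C + (405/32)*A^3

theorem psi_0_4_3_nonneg (s0 s1 s2 : ℝ) (h0 : 0 ≤ s0) (h1 : 0 ≤ s1) (h2 : 0 ≤ s2) (hs : s0 + s1 + s2 = 1) :
    0 ≤ psi_0_4_3 ((9/16)*achi s1 s2) ((27/64)*cchi s1 s2) := by
  have key : psi_0_4_3 ((9/16)*achi s1 s2) ((27/64)*cchi s1 s2) = (399735/524288)*s2^7 + (15322365/2097152)*s1*s2^6 + (106284555/4194304)*s1^2*s2^5 + (340094295/8388608)*s1^3*s2^4 + (586523025/16777216)*s1^4*s2^3 + (599941485/33554432)*s1^5*s2^2 + (365332275/67108864)*s1^6*s2 + (52190325/67108864)*s1^7 + (1043685/131072)*s0*s2^6 + (14313915/262144)*s0*s1*s2^5 + (33311655/262144)*s0*s1^2*s2^4 + (143657955/1048576)*s0*s1^3*s2^3 + (84713445/1048576)*s0*s1^4*s2^2 + (117117495/4194304)*s0*s1^5*s2 + (39039165/8388608)*s0*s1^6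 + (931905/32768)*s0^2*s2^5 + (16688025/131072)*s0^2*s1*s2^4 + (24988905/131072)*s0^2*s1^2*s2^3 + (35153595/262144)*s0^2*s1^3*s2^2 + (55482975/1048576)*s0^2*s1^4*s2 + (11096595/1048576)*s0^2*s1^5 + (334125/8192)*s0^3*s2^4 + (917325/8192)*s0^3*s1*s2^3 + (3335175/32768)*s0^3*s1^2*s2^2 + (1500525/32768)*s0^3*s1^3*s2 + (1500525/131072)*s0^3*s1^4 + (6075/256)*s0^4*s2^3 + (18225/512)*s0^4*s1*s2^2 + (18225/1024)*s0^4*s1^2*s2 + (6075/1024)*s0^4*s1^3 + (1215/256)*s0^5*s2^2 + (1215/512)*s0^5*s1*s2 + (1215/1024)*s0^5*s1^2 := by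
    have e : s0 = 1 - s1 - s2 := by linarith
    subst e; unfold psi_0_4_3 achi cchi; ring
  rw [key]; positivity

def psi_0_5_2 (A C : ℝ) : ℝ := (105/64)*C + (21/128)*C^2 + (3)*A + (-51/16)*A*C + (-219/32)*A^2 + (57/64)*A^2*C + (9/2)*A^3

theorem psi_0_5_2_nonneg (s0 s1 s2 : ℝ) (h0 : 0 ≤ s0) (h1 : 0 ≤ s1) (h2 : 0 ≤ s2) (hs : s0 + s1 + s2 = 1) :
    0 ≤ psi_0_5_2 ((9/16)*achi s1 s2) ((27/64)*cchi s1 s2) := by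
  have key : psi_0_5_2 ((9/16)*achi s1 s2) ((27/64)*cchi s1 s2) = (287847/524288)*s2^7 + (10461933/2097152)*s1*s2^6 + (67062573/4194304)*s1^2*s2^5 + (186772095/8388608)*s1^3*s2^4 + (253790955/16777216)*s1^4*s2^3 + (182907153/33554432)*s1^5*s2^2 + (81390771/67108864)*s1^6*s2 + (11627253/67108864)*s1^7 + (703917/131072)*s0*s2^6 + (8863911/262144)*s0*s1*s2^5 + (144458073/2097152)*s0*s1^2*s2^4 + (127794807/2097152)*s0*s1^3*s2^3 + (221756697/8388608)*s0*s1^4*s2^2 + (28188567/4194304)*s0*s1^5*s2 + (9396189/8388608)*s0*s1^6 + (70335/4096)*s0^2*s2^5 + (2196099/32768)*s0^2*s1*s2^4 + (704997/8192)*s0^2*s1^2*s2^3 + (3112857/65536)*s0^2*s1^3*s2^2 + (3698595/262144)*s0^2*s1^4*s2 + (739719/262144)*s0^2*s1^5 + (165861/8192)*s0^3*s2^4 + (407241/8192)*s0^3*s1*s2^3 + (1258983/32768)*s0^3*s1^2*s2^2 + (444501/32768)*s0^3*s1^3*s2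 + (444501/131072)*s0^3*s1^4 + (20115/2048)*s0^4*s2^3 + (112185/8192)*s0^4*s1*s2^2 + (95175/16384)*s0^4*s1^2*s2 + (31725/16384)*s0^4*s1^3 + (27/16)*s0^5*s2^2 + (27/32)*s0^5*s1*s2 + (27/64)*s0^5*s1^2 := by
    have e : s0 = 1 - s1 - s2 := by linarith
    subst e; unfold psi_0_5_2 achi cchi; ring
  rw [key]; positivity

def psi_0_6_1 (A C : ℝ) : ℝ := (105/128)*C + (21/256)*C^2 + (21/32)*A + (-231/128)*A*C + (-21/16)*A^2 + (21/32)*A^2*C + (63/64)*A^3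

theorem psi_0_6_1_nonneg (s0 s1 s2 : ℝ) (h0 : 0 ≤ s0) (h1 : 0 ≤ s1) (h2 : 0 ≤ s2) (hs : s0 + s1 + s2 = 1) :
    0 ≤ psi_0_6_1 ((9/16)*achi s1 s2) ((27/64)*cchi s1 s2) := by
  have key : psi_0_6_1 ((9/16)*achi s1 s2) ((27/64)*cchi s1 s2) = (51975/262144)*s2^7 + (1849365/1048576)*s1*s2^6 + (22902831/4194304)*s1^2*s2^5 + (29688309/4194304)*s1^3*s2^4 + (68243175/16777216)*s1^4*s2^3 + (7864857/8388608)*s1^5*s2^2 + (2081079/33554432)*s1^6*s2 + (297297/33554432)*s1^7 + (123795/65536)*s0*s2^6 + (750141/65536)*s0*s1*s2^5 + (91159425/4194304)*s0*s1^2*s2^4 + (70331625/4194304)*s0*s1^3*s2^3 + (86215185/16777216)*s0*s1^4*s2^2 + (1191267/2097152)*s0*s1^5*s2 + (397089/4194304)*s0*s1^6 + (376299/65536)*s0^2*s2^5 + (5446791/262144)*s0^2*s1*s2^4 + (6282171/262144)*s0^2*s1^2*s2^3 + (5420709/524288)*s0^2*s1^3*s2^2 + (3697785/2097152)*s0^2*s1^4*s2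 + (739557/2097152)*s0^2*s1^5 + (24759/4096)*s0^3*s2^4 + (6993/512)*s0^3*s1*s2^3 + (147987/16384)*s0^3*s1^2*s2^2 + (36099/16384)*s0^3*s1^3*s2 + (36099/65536)*s0^3*s1^4 + (10395/4096)*s0^4*s2^3 + (53865/16384)*s0^4*s1*s2^2 + (36855/32768)*s0^4*s1^2*s2 + (12285/32768)*s0^4*s1^3 + (189/512)*s0^5*s2^2 + (189/1024)*s0^5*s1*s2 + (189/2048)*s0^5*s1^2 := by
    have e : s0 = 1 - s1 - s2 := by linarith
    subst e; unfold psi_0_6_1 achi cchi; ring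
  rw [key]; positivity

def psi_0_7_0 (A C : ℝ) : ℝ := (15/128)*C + (3/256)*C^2 + (3/32)*A + (-33/128)*A*C + (-3/16)*A^2 + (3/32)*A^2*C + (9/64)*A^3

theorem psi_0_7_0_nonneg (s0 s1 s2 : ℝ) (h0 : 0 ≤ s0) (h1 : 0 ≤ s1) (h2 : 0 ≤ s2) (hs : s0 + s1 + s2 = 1) :
    0 ≤ psi_0_7_0 ((9/16)*achi s1 s2) ((27/64)*cchi s1 s2) := by
  have key : psi_0_7_0 ((9/16)*achi s1 s2) ((27/64)*cchi s1 s2) = (7425/262144)*s2^7 + (264195/1048576)*s1*s2^6 + (3271833/4194304)*s1^2*s2^5 + (4241187/4194304)*s1^3*s2^4 + (9749025/16777216)*s1^4*s2^3 + (1123551/8388608)*s1^5*s2^2 + (297297/33554432)*s1^6*s2 + (42471/33554432)*s1^7 + (17685/65536)*s0*s2^6 + (107163/65536)*s0*s1*s2^5 + (13022775/4194304)*s0*s1^2*s2^4 + (10047375/4194304)*s0*s1^3*s2^3 + (12316455/16777216)*s0*s1^4*s2^2 + (170181/2097152)*s0*s1^5*s2 + (56727/4194304)*s0*s1^6 +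 (53757/65536)*s0^2*s2^5 + (778113/262144)*s0^2*s1*s2^4 + (897453/262144)*s0^2*s1^2*s2^3 + (774387/524288)*s0^2*s1^3*s2^2 + (528255/2097152)*s0^2*s1^4*s2 + (105651/2097152)*s0^2*s1^5 + (3537/4096)*s0^3*s2^4 + (999/512)*s0^3*s1*s2^3 + (21141/16384)*s0^3*s1^2*s2^2 + (5157/16384)*s0^3*s1^3*s2 + (5157/65536)*s0^3*s1^4 + (1485/4096)*s0^4*s2^3 + (7695/16384)*s0^4*s1*s2^2 + (5265/32768)*s0^4*s1^2*s2 + (1755/32768)*s0^4*s1^3 + (27/512)*s0^5*s2^2 + (27/1024)*s0^5*s1*s2 + (27/2048)*s0^5*s1^2 := by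
    have e : s0 = 1 - s1 - s2 := by linarith
    subst e; unfold psi_0_7_0 achi cchi; ring
  rw [key]; positivity

def psi_1_0_6 (A C : ℝ) : ℝ := (-1)*C + (-1)*C^2 + (1)*A + (4)*A*C + (-2)*A^2 + (1)*A^2*C + (-3)*A^3

theorem psi_1_0_6_nonneg (s0 s1 s2 : ℝ) (h0 : 0 ≤ s0) (h1 : 0 ≤ s1) (h2 : 0 ≤ s2) (hs : s0 + s1 + s2 = 1) :
    0 ≤ psi_1_0_6 ((9/16)*achi s1 s2) ((27/64)*cchi s1 s2) := by
  have key : psi_1_0_6 ((9/16)*achi s1 s2) ((27/64)*cchi s1 s2) = (45/8192)*s2^7 + (2529/32768)*s1*s2^6 + (33183/65536)*s1^2*s2^5 + (241011/131072)*s1^3*s2^4 + (789525/262144)*s1^4*s2^3 + (1238193/524288)*s1^5*s2^2 + (922383/1048576)*s1^6*s2 + (131769/1048576)*s1^7 + (369/4096)*s0*s2^6 + (8019/8192)*s0*s1*s2^5 + (76329/16384)*s0*s1^2*s2^4 + (364221/32768)*s0*s1^3*s2^3 + (751113/65536)*s0*s1^4*s2^2 + (682803/131072)*s0*s1^5*s2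 + (227601/262144)*s0*s1^6 + (9/16)*s0^2*s2^5 + (2223/512)*s0^2*s1*s2^4 + (3357/256)*s0^2*s1^2*s2^3 + (17181/1024)*s0^2*s1^3*s2^2 + (38115/4096)*s0^2*s1^4*s2 + (7623/4096)*s0^2*s1^5 + (207/128)*s0^3*s2^4 + (963/128)*s0^3*s1*s2^3 + (5589/512)*s0^3*s1^2*s2^2 + (3663/512)*s0^3*s1^3*s2 + (3663/2048)*s0^3*s1^4 + (63/32)*s0^4*s2^3 + (459/128)*s0^4*s1*s2^2 + (621/256)*s0^4*s1^2*s2 + (207/256)*s0^4*s1^3 + (9/16)*s0^5*s2^2 + (9/32)*s0^5*s1*s2 + (9/64)*s0^5*s1^2 := by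
    have e : s0 = 1 - s1 - s2 := by linarith
    subst e; unfold psi_1_0_6 achi cchi; ring
  rw [key]; positivity

def psi_1_1_5 (A C : ℝ) : ℝ := (-27/4)*C + (-9/4)*C^2 + (27/2)*A + (81/4)*A*C + (-63/2)*A^2 + (-9/2)*A^2*C + (9)*A^3

theorem psi_1_1_5_nonneg (s0 s1 s2 : ℝ) (h0 : 0 ≤ s0) (h1 : 0 ≤ s1) (h2 : 0 ≤ s2) (hs : s0 + s1 + s2 = 1) :
    0 ≤ psi_1_1_5 ((9/16)*achi s1 s2) ((27/64)*cchi s1 s2) := by
  have key : psi_1_1_5 ((9/16)*achi s1 s2) ((27/64)*cchi s1 s2) = (5589/16384)*s2^7 + (260739/65536)*s1*s2^6 + (2334987/131072)*s1^2*s2^5 + (10513881/262144)*s1^3*s2^4 + (25888005/524288)*s1^4*s2^3 + (35259543/1048576)*s1^5*s2^2 + (24904341/2097152)*s1^6*s2 + (3557763/2097152)*s1^7 + (4617/1024)*s0*s2^6 + (159651/4096)*s0*s1*s2^5 + (7968699/65536)*s0*s1^2*s2^4 + (11866419/65536)*s0*s1^3*s2^3 + (37741059/262144)*s0*s1^4*s2^2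 + (970299/16384)*s0*s1^5*s2 + (323433/32768)*s0*s1^6 + (43983/2048)*s0^2*s2^5 + (1015983/8192)*s0^2*s1*s2^4 + (1951047/8192)*s0^2*s1^2*s2^3 + (3603933/16384)*s0^2*s1^3*s2^2 + (6909705/65536)*s0^2*s1^4*s2 + (1381941/65536)*s0^2*s1^5 + (22113/512)*s0^3*s2^4 + (71685/512)*s0^3*s1*s2^3 + (317115/2048)*s0^3*s1^2*s2^2 + (173745/2048)*s0^3*s1^3*s2 + (173745/8192)*s0^3*s1^4 + (4131/128)*s0^4*s2^3 + (26973/512)*s0^4*s1*s2^2 + (31347/1024)*s0^4*s1^2*s2 + (10449/1024)*s0^4*s1^3 + (243/32)*s0^5*s2^2 + (243/64)*s0^5*s1*s2 + (243/128)*s0^5*s1^2 := by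
    have e : s0 = 1 - s1 - s2 := by linarith
    subst e; unfold psi_1_1_5 achi cchi; ring
  rw [key]; positivity

def psi_1_2_4 (A C : ℝ) : ℝ := (-33/4)*C + (-3/2)*C^2 + (141/4)*A + (393/16)*A*C + (-84)*A^2 + (-219/16)*A^2*C + (99/2)*A^3

theorem psi_1_2_4_nonneg (s0 s1 s2 : ℝ) (h0 : 0 ≤ s0) (h1 : 0 ≤ s1) (h2 : 0 ≤ s2) (hs : s0 + s1 + s2 = 1) :
    0 ≤ psi_1_2_4 ((9/16)*achi s1 s2) ((27/64)*cchi s1 s2) := by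
  have key : psi_1_2_4 ((9/16)*achi s1 s2) ((27/64)*cchi s1 s2) = (266679/131072)*s2^7 + (10761201/524288)*s1*s2^6 + (81790479/1048576)*s1^2*s2^5 + (296507763/2097152)*s1^3*s2^4 + (594988605/4194304)*s1^4*s2^3 + (702030321/8388608)*s1^5*s2^2 + (464034879/16777216)*s1^6*s2 + (66290697/16777216)*s1^7 + (185301/8192)*s0*s2^6 + (85293/512)*s0*s1*s2^5 + (14141223/32768)*s0*s1^2*s2^4 + (34711713/65536)*s0*s1^3*s2^3 + (735561/2048)*s0*s1^4*s2^2 + (35664057/262144)*s0*s1^5*s2 + (11888019/524288)*s0*s1^6 + (724491/8192)*s0^2*s2^5 + (14228919/32768)*s0^2*s1*s2^4 + (23477067/32768)*s0^2*s1^2*s2^3 + (37253493/65536)*s0^2*s1^3*s2^2 + (64806345/262144)*s0^2*s1^4*s2 + (12961269/262144)*s0^2*s1^5 + (9207/64)*s0^3*s2^4 + (53811/128)*s0^3*s1*s2^3 + (53217/128)*s0^3*s1^2*s2^2 + (52623/256)*s0^3*s1^3*s2 + (52623/1024)*s0^3*s1^4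 + (11799/128)*s0^4*s2^3 + (73467/512)*s0^4*s1*s2^2 + (78813/1024)*s0^4*s1^2*s2 + (26271/1024)*s0^4*s1^3 + (1269/64)*s0^5*s2^2 + (1269/128)*s0^5*s1*s2 + (1269/256)*s0^5*s1^2 := by
    have e : s0 = 1 - s1 - s2 := by linarith
    subst e; unfold psi_1_2_4 achi cchi; ring
  rw [key]; positivity

def psi_1_3_3 (A C : ℝ) : ℝ := (1)*C + (-1/8)*C^2 + (131/4)*A + (11/4)*A*C + (-149/2)*A^2 + (-133/16)*A^2*C + (411/8)*A^3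

theorem psi_1_3_3_nonneg (s0 s1 s2 : ℝ) (h0 : 0 ≤ s0) (h1 : 0 ≤ s1) (h2 : 0 ≤ s2) (hs : s0 + s1 + s2 = 1) :
    0 ≤ psi_1_3_3 ((9/16)*achi s1 s2) ((27/64)*cchi s1 s2) := by
  have key : psi_1_3_3 ((9/16)*achi s1 s2) ((27/64)*cchi s1 s2) = (502533/131072)*s2^7 + (17843607/524288)*s1*s2^6 + (118232649/1048576)*s1^2*s2^5 + (367356213/2097152)*s1^3*s2^4 + (617462955/4194304)*s1^4*s2^3 + (616307751/8388608)*s1^5*s2^2 + (369322569/16777216)*s1^6*s2 + (52760367/16777216)*s1^7 + (1193823/32768)*s0*s2^6 + (15365133/65536)*s0*s1*s2^5 + (69312861/131072)*s0*s1^2*s2^4 + (146159199/262144)*s0*s1^3*s2^3 + (168738957/524288)*s0*s1^4*s2^2 + (114791229/1048576)*s0*s1^5*s2 + (38263743/2097152)*s0*s1^6 + (245493/2048)*s0^2*s2^5 + (4250709/8192)*s0^2*s1*s2^4 + (6245325/8192)*s0^2*s1^2*s2^3 + (8637615/16384)*s0^2*s1^3*s2^2 + (13422195/65536)*s0^2*s1^4*s2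 + (2684439/65536)*s0^2*s1^5 + (83979/512)*s0^3*s2^4 + (226755/512)*s0^3*s1*s2^3 + (815265/2048)*s0^3*s1^2*s2^2 + (361755/2048)*s0^3*s1^3*s2 + (361755/8192)*s0^3*s1^4 + (5949/64)*s0^4*s2^3 + (8883/64)*s0^4*s1*s2^2 + (4401/64)*s0^4*s1^2*s2 + (1467/64)*s0^4*s1^3 + (1179/64)*s0^5*s2^2 + (1179/128)*s0^5*s1*s2 + (1179/256)*s0^5*s1^2 := by
    have e : s0 = 1 - s1 - s2 := by linarith
    subst e; unfold psi_1_3_3 achi cchi; ring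
  rw [key]; positivity

def psi_1_4_2 (A C : ℝ) : ℝ := (243/32)*C + (9/32)*C^2 + (27/2)*A + (-891/64)*A*C + (-423/16)*A^2 + (117/64)*A^2*C + (333/16)*A^3

theorem psi_1_4_2_nonneg (s0 s1 s2 : ℝ) (h0 : 0 ≤ s0) (h1 : 0 ≤ s1) (h2 : 0 ≤ s2) (hs : s0 + s1 + s2 = 1) :
    0 ≤ psi_1_4_2 ((9/16)*achi s1 s2) ((27/64)*cchi s1 s2) := by
  have key : psi_1_4_2 ((9/16)*achi s1 s2) ((27/64)*cchi s1 s2) = (1793583/524288)*s2^7 + (58470417/2097152)*s1*s2^6 + (347143239/4194304)*s1^2*s2^5 + (931876083/8388608)*s1^3*s2^4 + (1247594805/16777216)*s1^4*s2^3 + (892885761/33554432)*s1^5*s2^2 + (393847839/67108864)*s1^6*s2 + (56263977/67108864)*s1^7 + (1913139/65536)*s0*s2^6 + (21994659/131072)*s0*s1*s2^5 + (172896201/524288)*s0*s1^2*s2^4 + (75346281/262144)*s0*s1^3*s2^3 + (259620957/2097152)*s0*s1^4*s2^2 + (65357037/2097152)*s0*s1^5*s2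 + (21785679/4194304)*s0*s1^6 + (2709207/32768)*s0^2*s2^5 + (41032251/131072)*s0^2*s1*s2^4 + (52012935/131072)*s0^2*s1^2*s2^3 + (57074625/262144)*s0^2*s1^3*s2^2 + (67198005/1048576)*s0^2*s1^4*s2 + (13439601/1048576)*s0^2*s1^5 + (381753/4096)*s0^3*s2^4 + (927045/4096)*s0^3*s1*s2^3 + (2854035/16384)*s0^3*s1^2*s2^2 + (999945/16384)*s0^3*s1^3*s2 + (999945/65536)*s0^3*s1^4 + (45441/1024)*s0^4*s2^3 + (252963/4096)*s0^4*s1*s2^2 + (213597/8192)*s0^4*s1^2*s2 + (71199/8192)*s0^4*s1^3 + (243/32)*s0^5*s2^2 + (243/64)*s0^5*s1*s2 + (243/128)*s0^5*s1^2 := by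
    have e : s0 = 1 - s1 - s2 := by linarith
    subst e; unfold psi_1_4_2 achi cchi; ring
  rw [key]; positivity

def psi_1_5_1 (A C : ℝ) : ℝ := (141/32)*C + (3/16)*C^2 + (51/16)*A + (-561/64)*A*C + (-75/16)*A^2 + (75/32)*A^2*C + (153/32)*A^3

theorem psi_1_5_1_nonneg (s0 s1 s2 : ℝ) (h0 : 0 ≤ s0) (h1 : 0 ≤ s1) (h2 : 0 ≤ s2) (hs : s0 + s1 + s2 = 1) :
    0 ≤ psi_1_5_1 ((9/16)*achi s1 s2) ((27/64)*cchi s1 s2) := by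
  have key : psi_1_5_1 ((9/16)*achi s1 s2) ((27/64)*cchi s1 s2) = (387315/262144)*s2^7 + (12188043/1048576)*s1*s2^6 + (68673177/2097152)*s1^2*s2^5 + (169355961/4194304)*s1^3*s2^4 + (189039555/8388608)*s1^4*s2^3 + (82973403/16777216)*s1^5*s2^2 + (7357581/33554432)*s1^6*s2 + (1051083/33554432)*s1^7 + (1579473/131072)*s0*s2^6 + (17174511/262144)*s0*s1*s2^5 + (15537501/131072)*s0*s1^2*s2^4 + (93135555/1048576)*s0*s1^3*s2^3 + (3408075/131072)*s0*s1^4*s2^2 + (9553707/4194304)*s0*s1^5*s2 + (3184569/8388608)*s0*s1^6 + (1036341/32768)*s0^2*s2^5 + (14417649/131072)*s0^2*s1*s2^4 + (16218981/131072)*s0^2*s1^2*s2^3 + (13514499/262144)*s0^2*s1^3*s2^2 + (8105535/1048576)*s0^2*s1^4*s2 + (1621107/1048576)*s0^2*s1^5 + (128277/4096)*s0^3*s2^4 + (284121/4096)*s0^3*s1*s2^3 + (734103/16384)*s0^3*s1^2*s2^2 + (165861/16384)*s0^3*s1^3*s2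 + (165861/65536)*s0^3*s1^4 + (12987/1024)*s0^4*s2^3 + (66501/4096)*s0^4*s1*s2^2 + (43659/8192)*s0^4*s1^2*s2 + (14553/8192)*s0^4*s1^3 + (459/256)*s0^5*s2^2 + (459/512)*s0^5*s1*s2 + (459/1024)*s0^5*s1^2 := by
    have e : s0 = 1 - s1 - s2 := by linarith
    subst e; unfold psi_1_5_1 achi cchi; ring
  rw [key]; positivity

def psi_1_6_0 (A C : ℝ) : ℝ := (47/64)*C + (1/32)*C^2 + (17/32)*A + (-187/128)*A*C + (-25/32)*A^2 + (25/64)*A^2*C + (51/64)*A^3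

theorem psi_1_6_0_nonneg (s0 s1 s2 : ℝ) (h0 : 0 ≤ s0) (h1 : 0 ≤ s1) (h2 : 0 ≤ s2) (hs : s0 + s1 + s2 = 1) :
    0 ≤ psi_1_6_0 ((9/16)*achi s1 s2) ((27/64)*cchi s1 s2) := by
  have key : psi_1_6_0 ((9/16)*achi s1 s2) ((27/64)*cchi s1 s2) = (129105/524288)*s2^7 + (4062681/2097152)*s1*s2^6 + (22891059/4194304)*s1^2*s2^5 + (56451987/8388608)*s1^3*s2^4 + (63013185/16777216)*s1^4*s2^3 + (27657801/33554432)*s1^5*s2^2 + (2452527/67108864)*s1^6*s2 + (350361/67108864)*s1^7 + (526491/262144)*s0*s2^6 + (5724837/524288)*s0*s1*s2^5 + (5179167/262144)*s0*s1^2*s2^4 + (31045185/2097152)*s0*s1^3*s2^3 + (1136025/262144)*s0*s1^4*s2^2 + (3184569/8388608)*s0*s1^5*s2 + (1061523/16777216)*s0*s1^6 + (345447/65536)*s0^2*s2^5 + (4805883/262144)*s0^2*s1*s2^4 + (5406327/262144)*s0^2*s1^2*s2^3 + (4504833/524288)*s0^2*s1^3*s2^2 + (2701845/2097152)*s0^2*s1^4*s2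 + (540369/2097152)*s0^2*s1^5 + (42759/8192)*s0^3*s2^4 + (94707/8192)*s0^3*s1*s2^3 + (244701/32768)*s0^3*s1^2*s2^2 + (55287/32768)*s0^3*s1^3*s2 + (55287/131072)*s0^3*s1^4 + (4329/2048)*s0^4*s2^3 + (22167/8192)*s0^4*s1*s2^2 + (14553/16384)*s0^4*s1^2*s2 + (4851/16384)*s0^4*s1^3 + (153/512)*s0^5*s2^2 + (153/1024)*s0^5*s1*s2 + (153/2048)*s0^5*s1^2 := by
    have e : s0 = 1 - s1 - s2 := by linarith
    subst e; unfold psi_1_6_0 achi cchi; ring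
  rw [key]; positivity

def psi_2_0_5 (A C : ℝ) : ℝ := (-7/2)*C + (-1/2)*C^2 + (8)*A + (19/2)*A*C + (-19)*A^2 + (-4)*A^2*C + (9)*A^3

theorem psi_2_0_5_nonneg (s0 s1 s2 : ℝ) (h0 : 0 ≤ s0) (h1 : 0 ≤ s1) (h2 : 0 ≤ s2) (hs : s0 + s1 + s2 = 1) :
    0 ≤ psi_2_0_5 ((9/16)*achi s1 s2) ((27/64)*cchi s1 s2) := by
  have key : psi_2_0_5 ((9/16)*achi s1 s2) ((27/64)*cchi s1 s2) = (909/4096)*s2^7 + (2637/1024)*s1*s2^6 + (372573/32768)*s1^2*s2^5 + (25497/1024)*s1^3*s2^4 + (3919905/131072)*s1^4*s2^3 + (2628747/131072)*s1^5*s2^2 + (922383/131072)*s1^6*s2 + (131769/131072)*s1^7 + (11943/4096)*s0*s2^6 + (204849/8192)*s0*s1*s2^5 + (2503575/32768)*s0*s1^2*s2^4 + (897813/8192)*s0*s1^3*s2^3 + (11078127/131072)*s0*s1^4*s2^2 + (4492125/131072)*s0*s1^5*s2 + (1497375/262144)*s0*s1^6 + (14085/1024)*s0^2*s2^5 + (320877/4096)*s0^2*s1*s2^4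 + (596637/4096)*s0^2*s1^2*s2^3 + (1063863/8192)*s0^2*s1^3*s2^2 + (1998315/32768)*s0^2*s1^4*s2 + (399663/32768)*s0^2*s1^5 + (6957/256)*s0^3*s2^4 + (21969/256)*s0^3*s1*s2^3 + (94527/1024)*s0^3*s1^2*s2^2 + (50589/1024)*s0^3*s1^3*s2 + (50589/4096)*s0^3*s1^4 + (1251/64)*s0^4*s2^3 + (8073/256)*s0^4*s1*s2^2 + (9207/512)*s0^4*s1^2*s2 + (3069/512)*s0^4*s1^3 + (9/2)*s0^5*s2^2 + (9/4)*s0^5*s1*s2 + (9/8)*s0^5*s1^2 := by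
    have e : s0 = 1 - s1 - s2 := by linarith
    subst e; unfold psi_2_0_5 achi cchi; ring
  rw [key]; positivity

def psi_2_1_4 (A C : ℝ) : ℝ := (-11/2)*C + (-5/8)*C^2 + (37)*A + (61/4)*A*C + (-347/4)*A^2 + (-14)*A^2*C + (243/4)*A^3

theorem psi_2_1_4_nonneg (s0 s1 s2 : ℝ) (h0 : 0 ≤ s0) (h1 : 0 ≤ s1) (h2 : 0 ≤ s2) (hs : s0 + s1 + s2 = 1) :
    0 ≤ psi_2_1_4 ((9/16)*achi s1 s2) ((27/64)*cchi s1 s2) := by
  have key : psi_2_1_4 ((9/16)*achi s1 s2) ((27/64)*cchi s1 s2) = (42453/16384)*s2^7 + (836667/32768)*s1*s2^6 + (12431907/131072)*s1^2*s2^5 + (21574791/131072)*s1^3*s2^4 + (81892575/524288)*s1^4*s2^3 + (44901/512)*s1^5*s2^2 + (29600109/1048576)*s1^6*s2 + (4228587/1048576)*s1^7 + (458721/16384)*s0*s2^6 + (6545691/32768)*s0*s1*s2^5 + (65175003/131072)*s0*s1^2*s2^4 + (38047491/65536)*s0*s1^3*s2^3 + (196151787/524288)*s0*s1^4*s2^2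 + (72034083/524288)*s0*s1^5*s2 + (24011361/1048576)*s0*s1^6 + (215397/2048)*s0^2*s2^5 + (4065075/8192)*s0^2*s1*s2^4 + (6448185/8192)*s0^2*s1^2*s2^3 + (9775305/16384)*s0^2*s1^3*s2^2 + (16429545/65536)*s0^2*s1^4*s2 + (3285909/65536)*s0^2*s1^5 + (166005/1024)*s0^3*s2^4 + (471429/1024)*s0^3*s1*s2^3 + (1805247/4096)*s0^3*s1^2*s2^2 + (862389/4096)*s0^3*s1^3*s2 + (862389/16384)*s0^3*s1^4 + (6363/64)*s0^4*s2^3 + (39069/256)*s0^4*s1*s2^2 + (40851/512)*s0^4*s1^2*s2 + (13617/512)*s0^4*s1^3 + (333/16)*s0^5*s2^2 + (333/32)*s0^5*s1*s2 + (333/64)*s0^5*s1^2 := by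
    have e : s0 = 1 - s1 - s2 := by linarith
    subst e; unfold psi_2_1_4 achi cchi; ring
  rw [key]; positivity

def psi_2_2_3 (A C : ℝ) : ℝ := (29/8)*C + (-1/8)*C^2 + (197/4)*A + (-35/8)*A*C + (-221/2)*A^2 + (-49/4)*A^2*C + (351/4)*A^3

theorem psi_2_2_3_nonneg (s0 s1 s2 : ℝ) (h0 : 0 ≤ s0) (h1 : 0 ≤ s1) (h2 : 0 ≤ s2) (hs : s0 + s1 + s2 = 1) :
    0 ≤ psi_2_2_3 ((9/16)*achi s1 s2) ((27/64)*cchi s1 s2) := by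
  have key : psi_2_2_3 ((9/16)*achi s1 s2) ((27/64)*cchi s1 s2) = (195975/32768)*s2^7 + (6998463/131072)*s1*s2^6 + (46888659/262144)*s1^2*s2^5 + (145085949/524288)*s1^3*s2^4 + (239609565/1048576)*s1^4*s2^3 + (233582427/2097152)*s1^5*s2^2 + (137738601/4194304)*s1^6*s2 + (19676943/4194304)*s1^7 + (937773/16384)*s0*s2^6 + (12074427/32768)*s0*s1*s2^5 + (108301887/131072)*s0*s1^2*s2^4 + (56188503/65536)*s0*s1^3*s2^3 + (253496871/524288)*s0*s1^4*s2^2 + (84671919/524288)*s0*s1^5*s2 + (28223973/1048576)*s0*s1^6 + (771759/4096)*s0^2*s2^5 + (13233411/16384)*s0^2*s1*s2^4 + (19182735/16384)*s0^2*s1^2*s2^3 + (25999065/32768)*s0^2*s1^3*s2^2 + (39631725/131072)*s0^2*s1^4*s2 + (7926345/131072)*s0^2*s1^5 + (130203/512)*s0^3*s2^4 + (347661/512)*s0^3*s1*s2^3 + (1232253/2048)*s0^3*s1^2*s2^2 + (536931/2048)*s0^3*s1^3*s2 + (536931/8192)*s0^3*s1^4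 + (36243/256)*s0^4*s2^3 + (215109/1024)*s0^4*s1*s2^2 + (210411/2048)*s0^4*s1^2*s2 + (70137/2048)*s0^4*s1^3 + (1773/64)*s0^5*s2^2 + (1773/128)*s0^5*s1*s2 + (1773/256)*s0^5*s1^2 := by
    have e : s0 = 1 - s1 - s2 := by linarith
    subst e; unfold psi_2_2_3 achi cchi; ring
  rw [key]; positivity

def psi_2_3_2 (A C : ℝ) : ℝ := (49/4)*C + (1/16)*C^2 + (26)*A + (-185/8)*A*C + (-413/8)*A^2 + (1/2)*A^2*C + (369/8)*A^3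

theorem psi_2_3_2_nonneg (s0 s1 s2 : ℝ) (h0 : 0 ≤ s0) (h1 : 0 ≤ s1) (h2 : 0 ≤ s2) (hs : s0 + s1 + s2 = 1) :
    0 ≤ psi_2_3_2 ((9/16)*achi s1 s2) ((27/64)*cchi s1 s2) := by
  have key : psi_2_3_2 ((9/16)*achi s1 s2) ((27/64)*cchi s1 s2) = (197865/32768)*s2^7 + (404631/8192)*s1*s2^6 + (39069243/262144)*s1^2*s2^5 + (26765037/131072)*s1^3*s2^4 + (148154355/1048576)*s1^4*s2^3 + (56264247/1048576)*s1^5*s2^2 + (832293/65536)*s1^6*s2 + (118899/65536)*s1^7 + (1696347/32768)*s0*s2^6 + (19666233/65536)*s0*s1*s2^5 + (157404033/262144)*s0*s1^2*s2^4 + (70429077/131072)*s0*s1^3*s2^3 + (254791089/1048576)*s0*s1^4*s2^2 + (68359761/1048576)*s0*s1^5*s2 + (22786587/2097152)*s0*s1^6 + (607383/4096)*s0^2*s2^5 + (9350217/16384)*s0^2*s1*s2^4 + (12090915/16384)*s0^2*s1^2*s2^3 + (13760235/32768)*s0^2*s1^3*s2^2 + (17098875/131072)*s0^2*s1^4*s2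 + (3419775/131072)*s0^2*s1^5 + (350739/2048)*s0^3*s2^4 + (863523/2048)*s0^3*s1*s2^3 + (2722329/8192)*s0^3*s1^2*s2^2 + (995283/8192)*s0^3*s1^3*s2 + (995283/32768)*s0^3*s1^4 + (10683/128)*s0^4*s2^3 + (60129/512)*s0^4*s1*s2^2 + (52191/1024)*s0^4*s1^2*s2 + (17397/1024)*s0^4*s1^3 + (117/8)*s0^5*s2^2 + (117/16)*s0^5*s1*s2 + (117/32)*s0^5*s1^2 := by
    have e : s0 = 1 - s1 - s2 := by linarith
    subst e; unfold psi_2_3_2 achi cchi; ring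
  rw [key]; positivity

def psi_2_4_1 (A C : ℝ) : ℝ := (265/32)*C + (5/64)*C^2 + (115/16)*A + (-65/4)*A*C + (-355/32)*A^2 + (55/16)*A^2*C + (405/32)*A^3

theorem psi_2_4_1_nonneg (s0 s1 s2 : ℝ) (h0 : 0 ≤ s0) (h1 : 0 ≤ s1) (h2 : 0 ≤ s2) (hs : s0 + s1 + s2 = 1) :
    0 ≤ psi_2_4_1 ((9/16)*achi s1 s2) ((27/64)*cchi s1 s2) := by
  have key : psi_2_4_1 ((9/16)*achi s1 s2) ((27/64)*cchi s1 s2) = (99405/32768)*s2^7 + (12423825/524288)*s1*s2^6 + (35159535/524288)*s1^2*s2^5 + (176094495/2097152)*s1^3*s2^4 + (51213375/1048576)*s1^4*s2^3 + (104003055/8388608)*s1^5*s2^2 + (22061655/16777216)*s1^6*s2 + (3151665/16777216)*s1^7 + (3213495/131072)*s0*s2^6 + (34849845/262144)*s0*s1*s2^5 + (255608325/1048576)*s0*s1^2*s2^4 + (98910225/524288)*s0*s1^3*s2^3 + (257379525/4194304)*s0*s1^4*s2^2 + (35735445/4194304)*s0*s1^5*s2 + (11911815/8388608)*s0*s1^6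 + (525195/8192)*s0^2*s2^5 + (1852155/8192)*s0^2*s1*s2^4 + (8545005/32768)*s0^2*s1^2*s2^3 + (1910205/16384)*s0^2*s1^3*s2^2 + (2916225/131072)*s0^2*s1^4*s2 + (583245/131072)*s0^2*s1^5 + (531405/8192)*s0^3*s2^4 + (1199925/8192)*s0^3*s1*s2^3 + (3237975/32768)*s0^3*s1^2*s2^2 + (838125/32768)*s0^3*s1^3*s2 + (838125/131072)*s0^3*s1^4 + (27855/1024)*s0^4*s2^3 + (145665/4096)*s0^4*s1*s2^2 + (102735/8192)*s0^4*s1^2*s2 + (34245/8192)*s0^4*s1^3 + (1035/256)*s0^5*s2^2 + (1035/512)*s0^5*s1*s2 + (1035/1024)*s0^5*s1^2 := by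
    have e : s0 = 1 - s1 - s2 := by linarith
    subst e; unfold psi_2_4_1 achi cchi; ring
  rw [key]; positivity

def psi_2_5_0 (A C : ℝ) : ℝ := (53/32)*C + (1/64)*C^2 + (23/16)*A + (-13/4)*A*C + (-71/32)*A^2 + (11/16)*A^2*C + (81/32)*A^3

theorem psi_2_5_0_nonneg (s0 s1 s2 : ℝ) (h0 : 0 ≤ s0) (h1 : 0 ≤ s1) (h2 : 0 ≤ s2) (hs : s0 + s1 + s2 = 1) :
    0 ≤ psi_2_5_0 ((9/16)*achi s1 s2) ((27/64)*cchi s1 s2) := by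
  have key : psi_2_5_0 ((9/16)*achi s1 s2) ((27/64)*cchi s1 s2) = (19881/32768)*s2^7 + (2484765/524288)*s1*s2^6 + (7031907/524288)*s1^2*s2^5 + (35218899/2097152)*s1^3*s2^4 + (10242675/1048576)*s1^4*s2^3 + (20800611/8388608)*s1^5*s2^2 + (4412331/16777216)*s1^6*s2 + (630333/16777216)*s1^7 + (642699/131072)*s0*s2^6 + (6969969/262144)*s0*s1*s2^5 + (51121665/1048576)*s0*s1^2*s2^4 + (19782045/524288)*s0*s1^3*s2^3 + (51475905/4194304)*s0*s1^4*s2^2 + (7147089/4194304)*s0*s1^5*s2 + (2382363/8388608)*s0*s1^6 + (105039/8192)*s0^2*s2^5 + (370431/8192)*s0^2*s1*s2^4 + (1709001/32768)*s0^2*s1^2*s2^3 + (382041/16384)*s0^2*s1^3*s2^2 + (583245/131072)*s0^2*s1^4*s2 + (116649/131072)*s0^2*s1^5 + (106281/8192)*s0^3*s2^4 + (239985/8192)*s0^3*s1*s2^3 + (647595/32768)*s0^3*s1^2*s2^2 + (167625/32768)*s0^3*s1^3*s2 + (167625/131072)*s0^3*s1^4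 + (5571/1024)*s0^4*s2^3 + (29133/4096)*s0^4*s1*s2^2 + (20547/8192)*s0^4*s1^2*s2 + (6849/8192)*s0^4*s1^3 + (207/256)*s0^5*s2^2 + (207/512)*s0^5*s1*s2 + (207/1024)*s0^5*s1^2 := by
    have e : s0 = 1 - s1 - s2 := by linarith
    subst e; unfold psi_2_5_0 achi cchi; ring
  rw [key]; positivity

def psi_3_0_4 (A C : ℝ) : ℝ := (-1/2)*C + (12)*A + (3/2)*A*C + (-28)*A^2 + (-4)*A^2*C + (22)*A^3

theorem psi_3_0_4_nonneg (s0 s1 s2 : ℝ) (h0 : 0 ≤ s0) (h1 : 0 ≤ s1) (h2 : 0 ≤ s2) (hs : s0 + s1 + s2 = 1) :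
    0 ≤ psi_3_0_4 ((9/16)*achi s1 s2) ((27/64)*cchi s1 s2) := by
  have key : psi_3_0_4 ((9/16)*achi s1 s2) ((27/64)*cchi s1 s2) = (1053/1024)*s2^7 + (81243/8192)*s1*s2^6 + (587169/16384)*s1^2*s2^5 + (1943919/32768)*s1^3*s2^4 + (3460725/65536)*s1^4*s2^3 + (3648321/131072)*s1^5*s2^2 + (2264031/262144)*s1^6*s2 + (323433/262144)*s1^7 + (22167/2048)*s0*s2^6 + (306747/4096)*s0*s1*s2^5 + (731349/4096)*s0*s1^2*s2^4 + (3229929/16384)*s0*s1^3*s2^3 + (244377/2048)*s0*s1^4*s2^2 + (2754081/65536)*s0*s1^5*s2 + (918027/131072)*s0*s1^6 + (40041/1024)*s0^2*s2^5 + (725085/4096)*s0^2*s1*s2^4 + (1101465/4096)*s0^2*s1^2*s2^3 + (1581255/8192)*s0^2*s1^3*s2^2 + (2540835/32768)*s0^2*s1^4*s2 + (508167/32768)*s0^2*s1^5 + (3645/64)*s0^3*s2^4 + (2511/16)*s0^3*s1*s2^3 + (37017/256)*s0^3*s1^2*s2^2 + (16929/256)*s0^3*s1^3*s2 + (16929/1024)*s0^3*s1^4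 + (2133/64)*s0^4*s2^3 + (12879/256)*s0^4*s1*s2^2 + (13041/512)*s0^4*s1^2*s2 + (4347/512)*s0^4*s1^3 + (27/4)*s0^5*s2^2 + (27/8)*s0^5*s1*s2 + (27/16)*s0^5*s1^2 := by
    have e : s0 = 1 - s1 - s2 := by linarith
    subst e; unfold psi_3_0_4 achi cchi; ring
  rw [key]; positivity

def psi_3_1_3 (A C : ℝ) : ℝ := (4)*C + (30)*A + (-15/2)*A*C + (-67)*A^2 + (-7)*A^2*C + (58)*A^3

theorem psi_3_1_3_nonneg (s0 s1 s2 : ℝ) (h0 : 0 ≤ s0) (h1 : 0 ≤ s1) (h2 : 0 ≤ s2) (hs : s0 + s1 + s2 = 1) :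
    0 ≤ psi_3_1_3 ((9/16)*achi s1 s2) ((27/64)*cchi s1 s2) := by
  have key : psi_3_1_3 ((9/16)*achi s1 s2) ((27/64)*cchi s1 s2) = (32319/8192)*s2^7 + (1147365/32768)*s1*s2^6 + (7647291/65536)*s1^2*s2^5 + (23301351/131072)*s1^3*s2^4 + (37430505/262144)*s1^4*s2^3 + (35223741/524288)*s1^5*s2^2 + (20251539/1048576)*s1^6*s2 + (2893077/1048576)*s1^7 + (76761/2048)*s0*s2^6 + (978885/4096)*s0*s1*s2^5 + (2163591/4096)*s0*s1^2*s2^4 + (8769519/16384)*s0*s1^3*s2^3 + (298971/1024)*s0*s1^4*s2^2 + (6218775/65536)*s0*s1^5*s2 + (2072925/131072)*s0*s1^6 + (124767/1024)*s0^2*s2^5 + (2108079/4096)*s0^2*s1*s2^4 + (2999943/4096)*s0^2*s1^2*s2^3 + (3954717/8192)*s0^2*s1^3*s2^2 + (5864265/32768)*s0^2*s1^4*s2 + (1172853/32768)*s0^2*s1^5 + (41229/256)*s0^3*s2^4 + (108621/256)*s0^3*s1*s2^3 + (377703/1024)*s0^3*s1^2*s2^2 + (160461/1024)*s0^3*s1^3*s2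 + (160461/4096)*s0^3*s1^4 + (351/4)*s0^4*s2^3 + (4131/32)*s0^4*s1*s2^2 + (3969/64)*s0^4*s1^2*s2 + (1323/64)*s0^4*s1^3 + (135/8)*s0^5*s2^2 + (135/16)*s0^5*s1*s2 + (135/32)*s0^5*s1^2 := by
    have e : s0 = 1 - s1 - s2 := by linarith
    subst e; unfold psi_3_1_3 achi cchi; ring
  rw [key]; positivity

def psi_3_2_2 (A C : ℝ) : ℝ := (69/8)*C + (45/2)*A + (-135/8)*A*C + (-93/2)*A^2 + (-3/2)*A^2*C + (87/2)*A^3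

theorem psi_3_2_2_nonneg (s0 s1 s2 : ℝ) (h0 : 0 ≤ s0) (h1 : 0 ≤ s1) (h2 : 0 ≤ s2) (hs : s0 + s1 + s2 = 1) :
    0 ≤ psi_3_2_2 ((9/16)*achi s1 s2) ((27/64)*cchi s1 s2) := by
  have key : psi_3_2_2 ((9/16)*achi s1 s2) ((27/64)*cchi s1 s2) = (74601/16384)*s2^7 + (2487105/65536)*s1*s2^6 + (15409359/131072)*s1^2*s2^5 + (43334919/262144)*s1^3*s2^4 + (62138745/524288)*s1^4*s2^3 + (49946949/1048576)*s1^5*s2^2 + (25091451/2097152)*s1^6*s2 + (3584493/2097152)*s1^7 + (327483/8192)*s0*s2^6 + (3884355/16384)*s0*s1*s2^5 + (7963353/16384)*s0*s1^2*s2^4 + (29350917/65536)*s0*s1^3*s2^3 + (6960249/32768)*s0*s1^4*s2^2 + (15798645/262144)*s0*s1^5*s2 + (5266215/524288)*s0*s1^6 + (483651/4096)*s0^2*s2^5 + (7614567/16384)*s0^2*s1*s2^4 + (10071459/16384)*s0^2*s1^2*s2^3 + (11886021/32768)*s0^2*s1^3*s2^2 + (15515145/131072)*s0^2*s1^4*s2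 + (3103029/131072)*s0^2*s1^5 + (72171/512)*s0^3*s2^4 + (180549/512)*s0^3*s1*s2^3 + (582957/2048)*s0^3*s1^2*s2^2 + (221859/2048)*s0^3*s1^3*s2 + (221859/8192)*s0^3*s1^4 + (18063/256)*s0^4*s2^3 + (102789/1024)*s0^4*s1*s2^2 + (91611/2048)*s0^4*s1^2*s2 + (30537/2048)*s0^4*s1^3 + (405/32)*s0^5*s2^2 + (405/64)*s0^5*s1*s2 + (405/128)*s0^5*s1^2 := by
    have e : s0 = 1 - s1 - s2 := by linarith
    subst e; unfold psi_3_2_2 achi cchi; ring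
  rw [key]; positivity

def psi_3_3_1 (A C : ℝ) : ℝ := (53/8)*C + (15/2)*A + (-105/8)*A*C + (-13)*A^2 + (2)*A^2*C + (29/2)*A^3

theorem psi_3_3_1_nonneg (s0 s1 s2 : ℝ) (h0 : 0 ≤ s0) (h1 : 0 ≤ s1) (h2 : 0 ≤ s2) (hs : s0 + s1 + s2 = 1) :
    0 ≤ psi_3_3_1 ((9/16)*achi s1 s2) ((27/64)*cchi s1 s2) := by
  have key : psi_3_3_1 ((9/16)*achi s1 s2) ((27/64)*cchi s1 s2) = (21141/8192)*s2^7 + (334935/16384)*s1*s2^6 + (1940517/32768)*s1^2*s2^5 + (626049/8192)*s1^3*s2^4 + (1544265/32768)*s1^4*s2^3 + (1840401/131072)*s1^5*s2^2 + (604989/262144)*s1^6*s2 + (86427/262144)*s1^7 + (173961/8192)*s0*s2^6 + (1926585/16384)*s0*s1*s2^5 + (3636171/16384)*s0*s1^2*s2^4 + (11811879/65536)*s0*s1^3*s2^3 + (2176713/32768)*s0*s1^4*s2^2 + (3361095/262144)*s0*s1^5*s2 + (1120365/524288)*s0*s1^6 + (234117/4096)*s0^2*s2^5 + (3398409/16384)*s0^2*s1*s2^4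 + (4071573/16384)*s0^2*s1^2*s2^3 + (3976587/32768)*s0^2*s1^3*s2^2 + (3786615/131072)*s0^2*s1^4*s2 + (757323/131072)*s0^2*s1^5 + (15471/256)*s0^3*s2^4 + (8991/64)*s0^3*s1*s2^3 + (102627/1024)*s0^3*s1^2*s2^2 + (30699/1024)*s0^3*s1^3*s2 + (30699/4096)*s0^3*s1^4 + (6831/256)*s0^4*s2^3 + (36693/1024)*s0^4*s1*s2^2 + (28107/2048)*s0^4*s1^2*s2 + (9369/2048)*s0^4*s1^3 + (135/32)*s0^5*s2^2 + (135/64)*s0^5*s1*s2 + (135/128)*s0^5*s1^2 := by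
    have e : s0 = 1 - s1 - s2 := by linarith
    subst e; unfold psi_3_3_1 achi cchi; ring
  rw [key]; positivity

def psi_3_4_0 (A C : ℝ) : ℝ := (53/32)*C + (15/8)*A + (-105/32)*A*C + (-13/4)*A^2 + (1/2)*A^2*C + (29/8)*A^3

theorem psi_3_4_0_nonneg (s0 s1 s2 : ℝ) (h0 : 0 ≤ s0) (h1 : 0 ≤ s1) (h2 : 0 ≤ s2) (hs : s0 + s1 + s2 = 1) :
    0 ≤ psi_3_4_0 ((9/16)*achi s1 s2) ((27/64)*cchi s1 s2) := by
  have key : psi_3_4_0 ((9/16)*achi s1 s2) ((27/64)*cchi s1 s2) = (21141/32768)*s2^7 + (334935/65536)*s1*s2^6 + (1940517/131072)*s1^2*s2^5 + (626049/32768)*s1^3*s2^4 + (1544265/131072)*s1^4*s2^3 + (1840401/524288)*s1^5*s2^2 + (604989/1048576)*s1^6*s2 + (86427/1048576)*s1^7 + (173961/32768)*s0*s2^6 + (1926585/65536)*s0*s1*s2^5 + (3636171/65536)*s0*s1^2*s2^4 + (11811879/262144)*s0*s1^3*s2^3 + (2176713/131072)*s0*s1^4*s2^2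 + (3361095/1048576)*s0*s1^5*s2 + (1120365/2097152)*s0*s1^6 + (234117/16384)*s0^2*s2^5 + (3398409/65536)*s0^2*s1*s2^4 + (4071573/65536)*s0^2*s1^2*s2^3 + (3976587/131072)*s0^2*s1^3*s2^2 + (3786615/524288)*s0^2*s1^4*s2 + (757323/524288)*s0^2*s1^5 + (15471/1024)*s0^3*s2^4 + (8991/256)*s0^3*s1*s2^3 + (102627/4096)*s0^3*s1^2*s2^2 + (30699/4096)*s0^3*s1^3*s2 + (30699/16384)*s0^3*s1^4 + (6831/1024)*s0^4*s2^3 + (36693/4096)*s0^4*s1*s2^2 + (28107/8192)*s0^4*s1^2*s2 + (9369/8192)*s0^4*s1^3 + (135/128)*s0^5*s2^2 + (135/256)*s0^5*s1*s2 + (135/512)*s0^5*s1^2 := by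
    have e : s0 = 1 - s1 - s2 := by linarith
    subst e; unfold psi_3_4_0 achi cchi; ring
  rw [key]; positivity

def psi_4_0_3 (A C : ℝ) : ℝ := (3/2)*C + (6)*A + (-3)*A*C + (-13)*A^2 + (-1)*A^2*C + (12)*A^3

theorem psi_4_0_3_nonneg (s0 s1 s2 : ℝ) (h0 : 0 ≤ s0) (h1 : 0 ≤ s1) (h2 : 0 ≤ s2) (hs : s0 + s1 + s2 = 1) :
    0 ≤ psi_4_0_3 ((9/16)*achi s1 s2) ((27/64)*cchi s1 s2) := by
  have key : psi_4_0_3 ((9/16)*achi s1 s2) ((27/64)*cchi s1 s2) = (7965/8192)*s2^7 + (274131/32768)*s1*s2^6 + (1766205/65536)*s1^2*s2^5 + (5175225/131072)*s1^3*s2^4 + (7862535/262144)*s1^4*s2^3 + (6876819/524288)*s1^5*s2^2 + (3731805/1048576)*s1^6*s2 + (533115/1048576)*s1^7 + (9099/1024)*s0*s2^6 + (112023/2048)*s0*s1*s2^5 + (238707/2048)*s0*s1^2*s2^4 + (923265/8192)*s0*s1^3*s2^3 + (117855/2048)*s0*s1^4*s2^2 + (577449/32768)*s0*s1^5*s2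 + (192483/65536)*s0*s1^6 + (14121/512)*s0^2*s2^5 + (230499/2048)*s0^2*s1*s2^4 + (316413/2048)*s0^2*s1^2*s2^3 + (395577/4096)*s0^2*s1^3*s2^2 + (553905/16384)*s0^2*s1^4*s2 + (110781/16384)*s0^2*s1^5 + (8883/256)*s0^3*s2^4 + (22815/256)*s0^3*s1*s2^3 + (76545/1024)*s0^3*s1^2*s2^2 + (30915/1024)*s0^3*s1^3*s2 + (30915/4096)*s0^3*s1^4 + (1161/64)*s0^4*s2^3 + (6723/256)*s0^4*s1*s2^2 + (6237/512)*s0^4*s1^2*s2 + (2079/512)*s0^4*s1^3 + (27/8)*s0^5*s2^2 + (27/16)*s0^5*s1*s2 + (27/32)*s0^5*s1^2 := by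
    have e : s0 = 1 - s1 - s2 := by linarith
    subst e; unfold psi_4_0_3 achi cchi; ring
  rw [key]; positivity

def psi_4_1_2 (A C : ℝ) : ℝ := (3)*C + (33/4)*A + (-6)*A*C + (-69/4)*A^2 + (-3/4)*A^2*C + (33/2)*A^3

theorem psi_4_1_2_nonneg (s0 s1 s2 : ℝ) (h0 : 0 ≤ s0) (h1 : 0 ≤ s1) (h2 : 0 ≤ s2) (hs : s0 + s1 + s2 = 1) :
    0 ≤ psi_4_1_2 ((9/16)*achi s1 s2) ((27/64)*cchi s1 s2) := by
  have key : psi_4_1_2 ((9/16)*achi s1 s2) ((27/64)*cchi s1 s2) = (52515/32768)*s2^7 + (1763073/131072)*s1*s2^6 + (11026935/262144)*s1^2*s2^5 + (31258035/524288)*s1^3*s2^4 + (45241605/1048576)*s1^4*s2^3 + (36859617/2097152)*s1^5*s2^2 + (18762975/4194304)*s1^6*s2 + (2680425/4194304)*s1^7 + (116289/8192)*s0*s2^6 + (1390203/16384)*s0*s1*s2^5 + (2871207/16384)*s0*s1^2*s2^4 + (10662975/65536)*s0*s1^3*s2^3 + (5113935/65536)*s0*s1^4*s2^2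 + (5875659/262144)*s0*s1^5*s2 + (1958553/524288)*s0*s1^6 + (43389/1024)*s0^2*s2^5 + (171909/1024)*s0^2*s1*s2^4 + (914787/4096)*s0^2*s1^2*s2^3 + (272187/2048)*s0^2*s1^3*s2^2 + (718335/16384)*s0^2*s1^4*s2 + (143667/16384)*s0^2*s1^5 + (52299/1024)*s0^3*s2^4 + (131355/1024)*s0^3*s1*s2^3 + (426465/4096)*s0^3*s1^2*s2^2 + (163755/4096)*s0^3*s1^3*s2 + (163755/16384)*s0^3*s1^4 + (1647/64)*s0^4*s2^3 + (2349/64)*s0^4*s1*s2^2 + (1053/64)*s0^4*s1^2*s2 + (351/64)*s0^4*s1^3 + (297/64)*s0^5*s2^2 + (297/128)*s0^5*s1*s2 + (297/256)*s0^5*s1^2 := by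
    have e : s0 = 1 - s1 - s2 := by linarith
    subst e; unfold psi_4_1_2 achi cchi; ring
  rw [key]; positivity

def psi_4_2_1 (A C : ℝ) : ℝ := (9/4)*C + (27/8)*A + (-9/2)*A*C + (-51/8)*A^2 + (3/8)*A^2*C + (27/4)*A^3

theorem psi_4_2_1_nonneg (s0 s1 s2 : ℝ) (h0 : 0 ≤ s0) (h1 : 0 ≤ s1) (h2 : 0 ≤ s2) (hs : s0 + s1 + s2 = 1) :
    0 ≤ psi_4_2_1 ((9/16)*achi s1 s2) ((27/64)*cchi s1 s2) := by
  have key : psi_4_2_1 ((9/16)*achi s1 s2) ((27/64)*cchi s1 s2) = (61965/65536)*s2^7 + (1999647/262144)*s1*s2^6 + (11886345/524288)*s1^2*s2^5 + (31671405/1048576)*s1^3*s2^4 + (41374395/2097152)*s1^4*s2^3 + (28057023/4194304)*s1^5*s2^2 + (11507265/8388608)*s1^6*s2 + (1643895/8388608)*s1^7 + (130491/16384)*s0*s2^6 + (1482057/32768)*s0*s1*s2^5 + (2884653/32768)*s0*s1^2*s2^4 + (9830565/131072)*s0*s1^3*s2^3 + (4027725/131072)*s0*s1^4*s2^2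 + (3768201/524288)*s0*s1^5*s2 + (1256067/1048576)*s0*s1^6 + (45441/2048)*s0^2*s2^5 + (339957/4096)*s0^2*s1*s2^4 + (845883/8192)*s0^2*s1^2*s2^3 + (446391/8192)*s0^2*s1^3*s2^2 + (246645/16384)*s0^2*s1^4*s2 + (49329/16384)*s0^2*s1^5 + (50301/2048)*s0^3*s2^4 + (120285/2048)*s0^3*s1*s2^3 + (360855/8192)*s0^3*s1^2*s2^2 + (120285/8192)*s0^3*s1^3*s2 + (120285/32768)*s0^3*s1^4 + (729/64)*s0^4*s2^3 + (8019/512)*s0^4*s1*s2^2 + (6561/1024)*s0^4*s1^2*s2 + (2187/1024)*s0^4*s1^3 + (243/128)*s0^5*s2^2 + (243/256)*s0^5*s1*s2 + (243/512)*s0^5*s1^2 := by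
    have e : s0 = 1 - s1 - s2 := by linarith
    subst e; unfold psi_4_2_1 achi cchi; ring
  rw [key]; positivity

def psi_4_3_0 (A C : ℝ) : ℝ := (3/4)*C + (9/8)*A + (-3/2)*A*C + (-17/8)*A^2 + (1/8)*A^2*C + (9/4)*A^3

theorem psi_4_3_0_nonneg (s0 s1 s2 : ℝ) (h0 : 0 ≤ s0) (h1 : 0 ≤ s1) (h2 : 0 ≤ s2) (hs : s0 + s1 + s2 = 1) :
    0 ≤ psi_4_3_0 ((9/16)*achi s1 s2) ((27/64)*cchi s1 s2) := by
  have key : psi_4_3_0 ((9/16)*achi s1 s2) ((27/64)*cchi s1 s2) = (20655/65536)*s2^7 + (666549/262144)*s1*s2^6 + (3962115/524288)*s1^2*s2^5 + (10557135/1048576)*s1^3*s2^4 + (13791465/2097152)*s1^4*s2^3 + (9352341/4194304)*s1^5*s2^2 + (3835755/8388608)*s1^6*s2 + (547965/8388608)*s1^7 + (43497/16384)*s0*s2^6 + (494019/32768)*s0*s1*s2^5 + (961551/32768)*s0*s1^2*s2^4 + (3276855/131072)*s0*s1^3*s2^3 + (1342575/131072)*s0*s1^4*s2^2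 + (1256067/524288)*s0*s1^5*s2 + (418689/1048576)*s0*s1^6 + (15147/2048)*s0^2*s2^5 + (113319/4096)*s0^2*s1*s2^4 + (281961/8192)*s0^2*s1^2*s2^3 + (148797/8192)*s0^2*s1^3*s2^2 + (82215/16384)*s0^2*s1^4*s2 + (16443/16384)*s0^2*s1^5 + (16767/2048)*s0^3*s2^4 + (40095/2048)*s0^3*s1*s2^3 + (120285/8192)*s0^3*s1^2*s2^2 + (40095/8192)*s0^3*s1^3*s2 + (40095/32768)*s0^3*s1^4 + (243/64)*s0^4*s2^3 + (2673/512)*s0^4*s1*s2^2 + (2187/1024)*s0^4*s1^2*s2 + (729/1024)*s0^4*s1^3 + (81/128)*s0^5*s2^2 + (81/256)*s0^5*s1*s2 + (81/512)*s0^5*s1^2 := by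
    have e : s0 = 1 - s1 - s2 := by linarith
    subst e; unfold psi_4_3_0 achi cchi; ring
  rw [key]; positivity

def psi_5_0_2 (A C : ℝ) : ℝ := (1/2)*C + (1)*A + (-1)*A*C + (-2)*A^2 + (2)*A^3

theorem psi_5_0_2_nonneg (s0 s1 s2 : ℝ) (h0 : 0 ≤ s0) (h1 : 0 ≤ s1) (h2 : 0 ≤ s2) (hs : s0 + s1 + s2 = 1) :
    0 ≤ psi_5_0_2 ((9/16)*achi s1 s2) ((27/64)*cchi s1 s2) := by
  have key : psi_5_0_2 ((9/16)*achi s1 s2) ((27/64)*cchi s1 s2) = (477/2048)*s2^7 + (7839/4096)*s1*s2^6 + (5967/1024)*s1^2*s2^5 + (131103/16384)*s1^3*s2^4 + (90225/16384)*s1^4*s2^3 + (135243/65536)*s1^5*s2^2 + (63063/131072)*s1^6*s2 + (9009/131072)*s1^7 + (4113/2048)*s0*s2^6 + (47871/4096)*s0*s1*s2^5 + (95931/4096)*s0*s1^2*s2^4 + (341559/16384)*s0*s1^3*s2^3 + (152361/16384)*s0*s1^4*s2^2 + (160731/65536)*s0*s1^5*s2 + (53577/131072)*s0*s1^6 + (2961/512)*s0^2*s2^5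 + (45585/2048)*s0^2*s1*s2^4 + (58689/2048)*s0^2*s1^2*s2^3 + (66051/4096)*s0^2*s1^3*s2^2 + (80775/16384)*s0^2*s1^4*s2 + (16155/16384)*s0^2*s1^5 + (855/128)*s0^3*s2^4 + (2097/128)*s0^3*s1*s2^3 + (6561/512)*s0^3*s1^2*s2^2 + (2367/512)*s0^3*s1^3*s2 + (2367/2048)*s0^3*s1^4 + (207/64)*s0^4*s2^3 + (1161/256)*s0^4*s1*s2^2 + (999/512)*s0^4*s1^2*s2 + (333/512)*s0^4*s1^3 + (9/16)*s0^5*s2^2 + (9/32)*s0^5*s1*s2 + (9/64)*s0^5*s1^2 := by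
    have e : s0 = 1 - s1 - s2 := by linarith
    subst e; unfold psi_5_0_2 achi cchi; ring
  rw [key]; positivity

def psi_5_1_1 (A C : ℝ) : ℝ := (1/4)*C + (1/2)*A + (-1/2)*A*C + (-1)*A^2 + (1)*A^3

theorem psi_5_1_1_nonneg (s0 s1 s2 : ℝ) (h0 : 0 ≤ s0) (h1 : 0 ≤ s1) (h2 : 0 ≤ s2) (hs : s0 + s1 + s2 = 1) :
    0 ≤ psi_5_1_1 ((9/16)*achi s1 s2) ((27/64)*cchi s1 s2) := by
  have key : psi_5_1_1 ((9/16)*achi s1 s2) ((27/64)*cchi s1 s2) = (477/4096)*s2^7 + (7839/8192)*s1*s2^6 + (5967/2048)*s1^2*s2^5 + (131103/32768)*s1^3*s2^4 + (90225/32768)*s1^4*s2^3 + (135243/131072)*s1^5*s2^2 + (63063/262144)*s1^6*s2 + (9009/262144)*s1^7 + (4113/4096)*s0*s2^6 + (47871/8192)*s0*s1*s2^5 + (95931/8192)*s0*s1^2*s2^4 + (341559/32768)*s0*s1^3*s2^3 + (152361/32768)*s0*s1^4*s2^2 + (160731/131072)*s0*s1^5*s2 + (53577/262144)*s0*s1^6 + (2961/1024)*s0^2*s2^5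 + (45585/4096)*s0^2*s1*s2^4 + (58689/4096)*s0^2*s1^2*s2^3 + (66051/8192)*s0^2*s1^3*s2^2 + (80775/32768)*s0^2*s1^4*s2 + (16155/32768)*s0^2*s1^5 + (855/256)*s0^3*s2^4 + (2097/256)*s0^3*s1*s2^3 + (6561/1024)*s0^3*s1^2*s2^2 + (2367/1024)*s0^3*s1^3*s2 + (2367/4096)*s0^3*s1^4 + (207/128)*s0^4*s2^3 + (1161/512)*s0^4*s1*s2^2 + (999/1024)*s0^4*s1^2*s2 + (333/1024)*s0^4*s1^3 + (9/32)*s0^5*s2^2 + (9/64)*s0^5*s1*s2 + (9/128)*s0^5*s1^2 := by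
    have e : s0 = 1 - s1 - s2 := by linarith
    subst e; unfold psi_5_1_1 achi cchi; ring
  rw [key]; positivity

def psi_5_2_0 (A C : ℝ) : ℝ := (1/8)*C + (1/4)*A + (-1/4)*A*C + (-1/2)*A^2 + (1/2)*A^3

theorem psi_5_2_0_nonneg (s0 s1 s2 : ℝ) (h0 : 0 ≤ s0) (h1 : 0 ≤ s1) (h2 : 0 ≤ s2) (hs : s0 + s1 + s2 = 1) :
    0 ≤ psi_5_2_0 ((9/16)*achi s1 s2) ((27/64)*cchi s1 s2) := by
  have key : psi_5_2_0 ((9/16)*achi s1 s2) ((27/64)*cchi s1 s2) = (477/8192)*s2^7 + (7839/16384)*s1*s2^6 + (5967/4096)*s1^2*s2^5 + (131103/65536)*s1^3*s2^4 + (90225/65536)*s1^4*s2^3 + (135243/262144)*s1^5*s2^2 + (63063/524288)*s1^6*s2 + (9009/524288)*s1^7 + (4113/8192)*s0*s2^6 + (47871/16384)*s0*s1*s2^5 + (95931/16384)*s0*s1^2*s2^4 + (341559/65536)*s0*s1^3*s2^3 + (152361/65536)*s0*s1^4*s2^2 + (160731/262144)*s0*s1^5*s2 + (53577/524288)*s0*s1^6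 + (2961/2048)*s0^2*s2^5 + (45585/8192)*s0^2*s1*s2^4 + (58689/8192)*s0^2*s1^2*s2^3 + (66051/16384)*s0^2*s1^3*s2^2 + (80775/65536)*s0^2*s1^4*s2 + (16155/65536)*s0^2*s1^5 + (855/512)*s0^3*s2^4 + (2097/512)*s0^3*s1*s2^3 + (6561/2048)*s0^3*s1^2*s2^2 + (2367/2048)*s0^3*s1^3*s2 + (2367/8192)*s0^3*s1^4 + (207/256)*s0^4*s2^3 + (1161/1024)*s0^4*s1*s2^2 + (999/2048)*s0^4*s1^2*s2 + (333/2048)*s0^4*s1^3 + (9/64)*s0^5*s2^2 + (9/128)*s0^5*s1*s2 + (9/256)*s0^5*s1^2 := by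
    have e : s0 = 1 - s1 - s2 := by linarith
    subst e; unfold psi_5_2_0 achi cchi; ring
  rw [key]; positivity

theorem main_id (t0 t1 t2 A C : ℝ) (ht : t0 + t1 + t2 = 1) :
    polyR ((1)*achi t1 t2) ((1)*cchi t1 t2) A C = t1*t2^6 * psi_0_1_6 A C + t1^2*t2^5 * psi_0_2_5 A C + t1^3*t2^4 * psi_0_3_4 A C + t1^4*t2^3 * psi_0_4_3 A C + t1^5*t2^2 * psi_0_5_2 A C + t1^6*t2 * psi_0_6_1 A C + t1^7 * psi_0_7_0 A C + t0*t2^6 * psi_1_0_6 A C + t0*t1*t2^5 * psi_1_1_5 A C + t0*t1^2*t2^4 * psi_1_2_4 A C + t0*t1^3*t2^3 * psi_1_3_3 A C + t0*t1^4*t2^2 * psi_1_4_2 A C + t0*t1^5*t2 * psi_1_5_1 A C + t0*t1^6 * psi_1_6_0 A C + t0^2*t2^5 * psi_2_0_5 A C + t0^2*t1*t2^4 * psi_2_1_4 A C + t0^2*t1^2*t2^3 * psi_2_2_3 A C + t0^2*t1^3*t2^2 * psi_2_3_2 A C + t0^2*t1^4*t2 * psi_2_4_1 A C + t0^2*t1^5 * psi_2_5_0 A C + t0^3*t2^4 * psi_3_0_4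 A C + t0^3*t1*t2^3 * psi_3_1_3 A C + t0^3*t1^2*t2^2 * psi_3_2_2 A C + t0^3*t1^3*t2 * psi_3_3_1 A C + t0^3*t1^4 * psi_3_4_0 A C + t0^4*t2^3 * psi_4_0_3 A C + t0^4*t1*t2^2 * psi_4_1_2 A C + t0^4*t1^2*t2 * psi_4_2_1 A C + t0^4*t1^3 * psi_4_3_0 A C + t0^5*t2^2 * psi_5_0_2 A C + t0^5*t1*t2 * psi_5_1_1 A C + t0^5*t1^2 * psi_5_2_0 A C := by
  have e : t0 = 1 - t1 - t2 := by linarith
  subst e; unfold polyR polyJ polyX polyY psi_0_1_6 psi_0_2_5 psi_0_3_4 psi_0_4_3 psi_0_5_2 psi_0_6_1 psi_0_7_0 psi_1_0_6 psi_1_1_5 psi_1_2_4 psi_1_3_3 psi_1_4_2 psi_1_5_1 psi_1_6_0 psi_2_0_5 psi_2_1_4 psi_2_2_3 psi_2_3_2 psi_2_4_1 psi_2_5_0 psi_3_0_4 psi_3_1_3 psi_3_2_2 psi_3_3_1 psi_3_4_0 psi_4_0_3 psi_4_1_2 psi_4_2_1 psi_4_3_0 psi_5_0_2 psi_5_1_1 psi_5_2_0 achi cchi; ring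

theorem nonneg (t0 t1 t2 s0 s1 s2 : ℝ) (ht0 : 0 ≤ t0) (ht1 : 0 ≤ t1) (ht2 : 0 ≤ t2) (ht : t0 + t1 + t2 = 1)
    (h0 : 0 ≤ s0) (h1 : 0 ≤ s1) (h2 : 0 ≤ s2) (hs : s0 + s1 + s2 = 1) :
    0 ≤ polyR ((1)*achi t1 t2) ((1)*cchi t1 t2) ((9/16)*achi s1 s2) ((27/64)*cchi s1 s2) := by
  rw [main_id t0 t1 t2 _ _ ht]
  have p_0_1_6 := psi_0_1_6_nonneg s0 s1 s2 h0 h1 h2 hs
  have p_0_2_5 := psi_0_2_5_nonneg s0 s1 s2 h0 h1 h2 hs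
  have p_0_3_4 := psi_0_3_4_nonneg s0 s1 s2 h0 h1 h2 hs
  have p_0_4_3 := psi_0_4_3_nonneg s0 s1 s2 h0 h1 h2 hs
  have p_0_5_2 := psi_0_5_2_nonneg s0 s1 s2 h0 h1 h2 hs
  have p_0_6_1 := psi_0_6_1_nonneg s0 s1 s2 h0 h1 h2 hs
  have p_0_7_0 := psi_0_7_0_nonneg s0 s1 s2 h0 h1 h2 hs
  have p_1_0_6 := psi_1_0_6_nonneg s0 s1 s2 h0 h1 h2 hs
  have p_1_1_5 := psi_1_1_5_nonneg s0 s1 s2 h0 h1 h2 hs
  have p_1_2_4 := psi_1_2_4_nonneg s0 s1 s2 h0 h1 h2 hs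
  have p_1_3_3 := psi_1_3_3_nonneg s0 s1 s2 h0 h1 h2 hs
  have p_1_4_2 := psi_1_4_2_nonneg s0 s1 s2 h0 h1 h2 hs
  have p_1_5_1 := psi_1_5_1_nonneg s0 s1 s2 h0 h1 h2 hs
  have p_1_6_0 := psi_1_6_0_nonneg s0 s1 s2 h0 h1 h2 hs
  have p_2_0_5 := psi_2_0_5_nonneg s0 s1 s2 h0 h1 h2 hs
  have p_2_1_4 := psi_2_1_4_nonneg s0 s1 s2 h0 h1 h2 hs
  have p_2_2_3 := psi_2_2_3_nonneg s0 s1 s2 h0 h1 h2 hs
  have p_2_3_2 := psi_2_3_2_nonneg s0 s1 s2 h0 h1 h2 hs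
  have p_2_4_1 := psi_2_4_1_nonneg s0 s1 s2 h0 h1 h2 hs
  have p_2_5_0 := psi_2_5_0_nonneg s0 s1 s2 h0 h1 h2 hs
  have p_3_0_4 := psi_3_0_4_nonneg s0 s1 s2 h0 h1 h2 hs
  have p_3_1_3 := psi_3_1_3_nonneg s0 s1 s2 h0 h1 h2 hs
  have p_3_2_2 := psi_3_2_2_nonneg s0 s1 s2 h0 h1 h2 hs
  have p_3_3_1 := psi_3_3_1_nonneg s0 s1 s2 h0 h1 h2 hs
  have p_3_4_0 := psi_3_4_0_nonneg s0 s1 s2 h0 h1 h2 hs
  have p_4_0_3 := psi_4_0_3_nonneg s0 s1 s2 h0 h1 h2 hs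
  have p_4_1_2 := psi_4_1_2_nonneg s0 s1 s2 h0 h1 h2 hs
  have p_4_2_1 := psi_4_2_1_nonneg s0 s1 s2 h0 h1 h2 hs
  have p_4_3_0 := psi_4_3_0_nonneg s0 s1 s2 h0 h1 h2 hs
  have p_5_0_2 := psi_5_0_2_nonneg s0 s1 s2 h0 h1 h2 hs
  have p_5_1_1 := psi_5_1_1_nonneg s0 s1 s2 h0 h1 h2 hs
  have p_5_2_0 := psi_5_2_0_nonneg s0 s1 s2 h0 h1 h2 hs
  exact add_nonneg (add_nonneg (add_nonneg (add_nonneg (add_nonneg (add_nonneg (add_nonneg (add_nonneg (add_nonneg (add_nonneg (add_nonneg (add_nonneg (add_nonneg (add_nonneg (add_nonneg (add_nonneg (add_nonneg (add_nonneg (add_nonneg (add_nonneg (add_nonneg (add_nonneg (add_nonneg (add_nonneg (add_nonneg (add_nonneg (add_nonneg (add_nonneg (add_nonneg (add_nonneg (add_nonneg (mul_nonneg (by positivity) p_0_1_6) (mul_nonneg (by positivity) p_0_2_5)) (mul_nonneg (by positivity) p_0_3_4))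 (mul_nonneg (by positivity) p_0_4_3)) (mul_nonneg (by positivity) p_0_5_2)) (mul_nonneg (by positivity) p_0_6_1)) (mul_nonneg (by positivity) p_0_7_0)) (mul_nonneg (by positivity) p_1_0_6)) (mul_nonneg (by positivity) p_1_1_5)) (mul_nonneg (by positivity) p_1_2_4)) (mul_nonneg (by positivity) p_1_3_3)) (mul_nonneg (by positivity) p_1_4_2)) (mul_nonneg (by positivity) p_1_5_1)) (mul_nonneg (by positivity) p_1_6_0)) (mul_nonneg (by positivity) p_2_0_5)) (mul_nonneg (by positivity) p_2_1_4)) (mul_nonneg (by positivity) p_2_2_3)) (mul_nonneg (by positivity) p_2_3_2)) (mul_nonneg (by positivity) p_2_4_1)) (mul_nonneg (by positivity) p_2_5_0)) (mul_nonneg (by positivity) p_3_0_4)) (mul_nonneg (by positivity) p_3_1_3)) (mul_nonneg (by positivity) p_3_2_2)) (mul_nonneg (by positivity) p_3_3_1)) (mul_nonneg (by positivity)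 p_3_4_0)) (mul_nonneg (by positivity) p_4_0_3)) (mul_nonneg (by positivity) p_4_1_2)) (mul_nonneg (by positivity) p_4_2_1)) (mul_nonneg (by positivity) p_4_3_0)) (mul_nonneg (by positivity) p_5_0_2)) (mul_nonneg (by positivity) p_5_1_1)) (mul_nonneg (by positivity) p_5_2_0)

end Vale.Agent.Lib.P154.Cert1
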