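import Vale.Agent.Lib.P154.Poly

noncomputable section

namespace Vale.Agent.Lib.P154.Cert2

open Vale.Agent.Lib.P154

def psi_0_0_7 (A C : ℝ) : ℝ := (-1575/16384)*C + (-1701/32768)*C^2 + (2133/10240)*A + (50859/163840)*A*C + (-19071/40960)*A^2 + (-4239/163840)*A^2*C + (3609/40960)*A^3

theorem psi_0_0_7_nonneg (s0 s1 s2 : ℝ) (h0 : 0 ≤ s0) (h1 : 0 ≤ s1) (h2 : 0 ≤ s2) (hs : s0 + s1 + s2 = 1) :
    0 ≤ psi_0_0_7 ((9/16)*achi s1 s2) ((27/64)*cchi s1 s2) := by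
  have key : psi_0_0_7 ((9/16)*achi s1 s2) ((27/64)*cchi s1 s2) = (10585323/1342177280)*s2^7 + (89576361/1073741824)*s1*s2^6 + (3684860991/10737418240)*s1^2*s2^5 + (15037620759/21474836480)*s1^3*s2^4 + (6821821377/8589934592)*s1^4*s2^3 + (44118716229/85899345920)*s1^5*s2^2 + (6095014695/34359738368)*s1^6*s2 + (870716385/34359738368)*s1^7 + (3893589/41943040)*s0*s2^6 + (121609593/167772160)*s0*s1*s2^5 + (5547703851/2684354560)*s0*s1^2*s2^4 + (7792913043/2684354560)*s0*s1^3*s2^3 + (23883342723/10737418240)*s0*s1^4*s2^2 + (603391113/671088640)*s0*s1^5*s2 + (201130371/1342177280)*s0*s1^6 + (32749353/83886080)*s0^2*s2^5 + (692178453/335544320)*s0^2*s1*s2^4 + (1273320729/335544320)*s0^2*s1^2*s2^3 + (2287377711/671088640)*s0^2*s1^3*s2^2 + (863098335/536870912)*s0^2*s1^4*s2 + (172619667/536870912)*s0^2*s1^5 + (7339329/10485760)*s0^3*s2^4 + (23216949/10485760)*s0^3*s1*s2^3 + (100837467/41943040)*s0^3*s1^2*s2^2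 + (54403569/41943040)*s0^3*s1^3*s2 + (54403569/167772160)*s0^3*s1^4 + (264627/524288)*s0^4*s2^3 + (1715337/2097152)*s0^4*s1*s2^2 + (1970487/4194304)*s0^4*s1^2*s2 + (656829/4194304)*s0^4*s1^3 + (19197/163840)*s0^5*s2^2 + (19197/327680)*s0^5*s1*s2 + (19197/655360)*s0^5*s1^2 := by
    have e : s0 = 1 - s1 - s2 := by linarith
    subst e; unfold psi_0_0_7 achi cchi; ring
  rw [key]; positivity

def psi_0_1_6 (A C : ℝ) : ℝ := (-39429/65536)*C + (-35235/131072)*C^2 + (35451/20480)*A + (247221/131072)*A*C + (-65187/16384)*A^2 + (-56349/131072)*A^2*C + (132201/81920)*A^3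

theorem psi_0_1_6_nonneg (s0 s1 s2 : ℝ) (h0 : 0 ≤ s0) (h1 : 0 ≤ s1) (h2 : 0 ≤ s2) (hs : s0 + s1 + s2 = 1) :
    0 ≤ psi_0_1_6 ((9/16)*achi s1 s2) ((27/64)*cchi s1 s2) := by
  have key : psi_0_1_6 ((9/16)*achi s1 s2) ((27/64)*cchi s1 s2) = (89576361/1073741824)*s2^7 + (18395306307/21474836480)*s1*s2^6 + (145042756353/42949672960)*s1^2*s2^5 + (553370005017/85899345920)*s1^3*s2^4 + (234468189567/34359738368)*s1^4*s2^3 + (1443593772459/343597383680)*s1^5*s2^2 + (194931478665/137438953472)*s1^6*s2 + (27847354095/137438953472)*s1^7 + (635838903/671088640)*s0*s2^6 + (9577332999/1342177280)*s0*s1*s2^5 + (206756598357/10737418240)*s0*s1^2*s2^4 + (269846073567/10737418240)*s0*s1^3*s2^3 + (776840109597/42949672960)*s0*s1^4*s2^2 + (152098210809/21474836480)*s0*s1^5*s2 + (50699403603/42949672960)*s0*s1^6 + (255660543/67108864)*s0^2*s2^5 + (5172457419/268435456)*s0^2*s1*s2^4 + (8963769663/268435456)*s0^2*s1^2*s2^3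 + (15106002417/536870912)*s0^2*s1^3*s2^2 + (27390467925/2147483648)*s0^2*s1^4*s2 + (5478093585/2147483648)*s0^2*s1^5 + (27042741/4194304)*s0^3*s2^4 + (81914571/4194304)*s0^3*s1*s2^3 + (338940531/16777216)*s0^3*s1^2*s2^2 + (175111389/16777216)*s0^3*s1^3*s2 + (175111389/67108864)*s0^3*s1^4 + (9145305/2097152)*s0^4*s2^3 + (58065579/8388608)*s0^4*s1*s2^2 + (64453077/16777216)*s0^4*s1^2*s2 + (21484359/16777216)*s0^4*s1^3 + (319059/327680)*s0^5*s2^2 + (319059/655360)*s0^5*s1*s2 + (319059/1310720)*s0^5*s1^2 := by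
    have e : s0 = 1 - s1 - s2 := by linarith
    subst e; unfold psi_0_1_6 achi cchi; ring
  rw [key]; positivity

def psi_0_2_5 (A C : ℝ) : ℝ := (-143235/131072)*C + (-96957/262144)*C^2 + (54513/10240)*A + (4677723/1310720)*A*C + (-520479/40960)*A^2 + (-2427003/1310720)*A^2*C + (311877/40960)*A^3

theorem psi_0_2_5_nonneg (s0 s1 s2 : ℝ) (h0 : 0 ≤ s0) (h1 : 0 ≤ s1) (h2 : 0 ≤ s2) (hs : s0 + s1 + s2 = 1) :
    0 ≤ psi_0_2_5 ((9/16)*achi s1 s2) ((27/64)*cchi s1 s2) := by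
  have key : psi_0_2_5 ((9/16)*achi s1 s2) ((27/64)*cchi s1 s2) = (3684860991/10737418240)*s2^7 + (145042756353/42949672960)*s1*s2^6 + (1082647968219/85899345920)*s1^2*s2^5 + (3825505983411/171798691840)*s1^3*s2^4 + (1489685265477/68719476736)*s1^4*s2^3 + (8565001171929/687194767360)*s1^5*s2^2 + (1117126128195/274877906944)*s1^6*s2 + (159589446885/274877906944)*s1^7 + (4968697059/1342177280)*s0*s2^6 + (71457401583/2684354560)*s0*s1*s2^5 + (289801847871/4294967296)*s0*s1^2*s2^4 + (1740676472109/21474836480)*s0*s1^3*s2^3 + (4628160667539/85899345920)*s0*s1^4*s2^2 + (866245258629/42949672960)*s0*s1^5*s2 + (288748419543/85899345920)*s0*s1^6 + (9425218401/671088640)*s0^2*s2^5 + (181427767461/2684354560)*s0^2*s1*s2^4 + (294735499713/2684354560)*s0^2*s1^2*s2^3 + (460307529567/5368709120)*s0^2*s1^3*s2^2 + (158290317855/4294967296)*s0^2*s1^4*s2 + (31658063571/4294967296)*s0^2*s1^5 + (233162631/10485760)*s0^3*s2^4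 + (1350299727/20971520)*s0^3*s1*s2^3 + (660366837/10485760)*s0^3*s1^2*s2^2 + (1291167621/41943040)*s0^3*s1^3*s2 + (1291167621/167772160)*s0^3*s1^4 + (58931631/4194304)*s0^4*s2^3 + (365191821/16777216)*s0^4*s1*s2^2 + (388395891/33554432)*s0^4*s1^2*s2 + (129465297/33554432)*s0^4*s1^3 + (490617/163840)*s0^5*s2^2 + (490617/327680)*s0^5*s1*s2 + (490617/655360)*s0^5*s1^2 := by
    have e : s0 = 1 - s1 - s2 := by linarith
    subst e; unfold psi_0_2_5 achi cchi; ring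
  rw [key]; positivity

def psi_0_3_4 (A C : ℝ) : ℝ := (-68895/262144)*C + (-90153/524288)*C^2 + (597483/81920)*A + (4906827/2621440)*A*C + (-5699709/327680)*A^2 + (-6176547/2621440)*A^2*C + (4024827/327680)*A^3

theorem psi_0_3_4_nonneg (s0 s1 s2 : ℝ) (h0 : 0 ≤ s0) (h1 : 0 ≤ s1) (h2 : 0 ≤ s2) (hs : s0 + s1 + s2 = 1) :
    0 ≤ psi_0_3_4 ((9/16)*achi s1 s2) ((27/64)*cchi s1 s2) := by
  have key : psi_0_3_4 ((9/16)*achi s1 s2) ((27/64)*cchi s1 s2) = (15037620759/21474836480)*s2^7 + (553370005017/85899345920)*s1*s2^6 + (3825505983411/171798691840)*s1^2*s2^5 + (12345616825659/343597383680)*s1^3*s2^4 + (4321635529293/137438953472)*s1^4*s2^3 + (22473787841361/1374389534720)*s1^5*s2^2 + (2766103356555/549755813888)*s1^6*s2 + (395157622365/549755813888)*s1^7 + (18671110821/2684354560)*s0*s2^6 + (249874323957/5368709120)*s0*s1*s2^5 + (935953263603/8589934592)*s0*s1^2*s2^4 + (5117848205661/42949672960)*s0*s1^3*s2^3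 + (12305744123031/171798691840)*s0*s1^4*s2^2 + (2156368775211/85899345920)*s0*s1^5*s2 + (718789591737/171798691840)*s0*s1^6 + (32310165249/1342177280)*s0^2*s2^5 + (579931169589/5368709120)*s0^2*s1*s2^4 + (877106764737/5368709120)*s0^2*s1^2*s2^3 + (1254974515983/10737418240)*s0^2*s1^3*s2^2 + (402142003695/8589934592)*s0^2*s1^4*s2 + (80428400739/8589934592)*s0^2*s1^5 + (2905419051/83886080)*s0^3*s2^4 + (8011867221/83886080)*s0^3*s1*s2^3 + (29476879533/335544320)*s0^3*s1^2*s2^2 + (13453145091/335544320)*s0^3*s1^3*s2 + (13453145091/1342177280)*s0^3*s1^4 + (170214939/8388608)*s0^4*s2^3 + (1026870129/33554432)*s0^4*s1*s2^2 + (1038031119/67108864)*s0^4*s1^2*s2 + (346010373/67108864)*s0^4*s1^3 + (5377347/1310720)*s0^5*s2^2 + (5377347/2621440)*s0^5*s1*s2 + (5377347/5242880)*s0^5*s1^2 := by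
    have e : s0 = 1 - s1 - s2 := by linarith
    subst e; unfold psi_0_3_4 achi cchi; ring
  rw [key]; positivity

def psi_0_4_3 (A C : ℝ) : ℝ := (644535/524288)*C + (8505/1048576)*C^2 + (80811/16384)*A + (-1897659/1048576)*A*C + (-45891/4096)*A^2 + (-749061/1048576)*A^2*C + (18081/2048)*A^3

theorem psi_0_4_3_nonneg (s0 s1 s2 : ℝ) (h0 : 0 ≤ s0) (h1 : 0 ≤ s1) (h2 : 0 ≤ s2) (hs : s0 + s1 + s2 = 1) :
    0 ≤ psi_0_4_3 ((9/16)*achi s1 s2) ((27/64)*cchi s1 s2) := by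
  have key : psi_0_4_3 ((9/16)*achi s1 s2) ((27/64)*cchi s1 s2) = (6821821377/8589934592)*s2^7 + (234468189567/34359738368)*s1*s2^6 + (1489685265477/68719476736)*s1^2*s2^5 + (4321635529293/137438953472)*s1^3*s2^4 + (6514230306375/274877906944)*s1^4*s2^3 + (5648616678375/549755813888)*s1^5*s2^2 + (3042924555825/1099511627776)*s1^6*s2 + (434703507975/1099511627776)*s1^7 + (7779809997/1073741824)*s0*s2^6 + (95733312993/2147483648)*s0*s1*s2^5 + (1624699080621/17179869184)*s0*s1^2*s2^4 + (1566539739099/17179869184)*s0*s1^3*s2^3 + (3190409291349/68719476736)*s0*s1^4*s2^2 + (487160865675/34359738368)*s0*s1^5*s2 + (162386955225/68719476736)*s0*s1^6 + (12065647167/536870912)*s0^2*s2^5 + (197302880187/2147483648)*s0^2*s1*s2^4 + (270979223391/2147483648)*s0^2*s1^2*s2^3 + (338715435969/4294967296)*s0^2*s1^3*s2^2 + (474187861125/17179869184)*s0^2*s1^4*s2 + (94837572225/17179869184)*s0^2*s1^5 +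 (118901601/4194304)*s0^3*s2^4 + (1226020779/16777216)*s0^3*s1*s2^3 + (2057616351/33554432)*s0^3*s1^2*s2^2 + (207898893/8388608)*s0^3*s1^3*s2 + (207898893/33554432)*s0^3*s1^4 + (250138125/16777216)*s0^4*s2^3 + (1448621415/67108864)*s0^4*s1*s2^2 + (1344206745/134217728)*s0^4*s1^2*s2 + (448068915/134217728)*s0^4*s1^3 + (727299/262144)*s0^5*s2^2 + (727299/524288)*s0^5*s1*s2 + (727299/1048576)*s0^5*s1^2 := by
    have e : s0 = 1 - s1 - s2 := by linarith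
    subst e; unfold psi_0_4_3 achi cchi; ring
  rw [key]; positivity

def psi_0_5_2 (A C : ℝ) : ℝ := (1467099/1048576)*C + (96957/2097152)*C^2 + (583119/327680)*A + (-28136943/10485760)*A*C + (-4686849/1310720)*A^2 + (4686903/10485760)*A^2*C + (4306743/1310720)*A^3

theorem psi_0_5_2_nonneg (s0 s1 s2 : ℝ) (h0 : 0 ≤ s0) (h1 : 0 ≤ s1) (h2 : 0 ≤ s2) (hs : s0 + s1 + s2 = 1) :
    0 ≤ psi_0_5_2 ((9/16)*achi s1 s2) ((27/64)*cchi s1 s2) := by
  have key : psi_0_5_2 ((9/16)*achi s1 s2) ((27/64)*cchi s1 s2) = (44118716229/85899345920)*s2^7 + (1443593772459/343597383680)*s1*s2^6 + (8565001171929/687194767360)*s1^2*s2^5 + (22473787841361/1374389534720)*s1^3*s2^4 + (5648616678375/549755813888)*s1^4*s2^3 + (3498407792055/1099511627776)*s1^5*s2^2 + (1238961120705/2199023255552)*s1^6*s2 + (176994445815/2199023255552)*s1^7 + (47281781619/10737418240)*s0*s2^6 + (542091587211/21474836480)*s0*s1*s2^5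 + (8355108492117/171798691840)*s0*s1^2*s2^4 + (6926285196423/171798691840)*s0*s1^3*s2^3 + (10624000462173/687194767360)*s0*s1^4*s2^2 + (221862915945/68719476736)*s0*s1^5*s2 + (73954305315/137438953472)*s0*s1^6 + (66707707059/5368709120)*s0^2*s2^5 + (990696588399/21474836480)*s0^2*s1*s2^4 + (1209901385907/21474836480)*s0^2*s1^2*s2^3 + (1220276742813/42949672960)*s0^2*s1^3*s2^2 + (248205491325/34359738368)*s0^2*s1^4*s2 + (49641098265/34359738368)*s0^2*s1^5 + (4563597591/335544320)*s0^3*s2^4 + (10790095941/335544320)*s0^3*s1*s2^3 + (31466685033/1342177280)*s0^3*s1^2*s2^2 + (9886493151/1342177280)*s0^3*s1^3*s2 + (9886493151/5368709120)*s0^3*s1^4 + (207549945/33554432)*s0^4*s2^3 + (1126464651/134217728)*s0^4*s1*s2^2 + (888794613/268435456)*s0^4*s1^2*s2 + (296264871/268435456)*s0^4*s1^3 + (5248071/5242880)*s0^5*s2^2 + (5248071/10485760)*s0^5*s1*s2 + (5248071/20971520)*s0^5*s1^2 := by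
    have e : s0 = 1 - s1 - s2 := by linarith
    subst e; unfold psi_0_5_2 achi cchi; ring
  rw [key]; positivity

def psi_0_6_1 (A C : ℝ) : ℝ := (1209285/2097152)*C + (93555/4194304)*C^2 + (51975/131072)*A + (-4868325/4194304)*A*C + (-349965/524288)*A^2 + (1237005/4194304)*A^2*C + (398475/524288)*A^3

theorem psi_0_6_1_nonneg (s0 s1 s2 : ℝ) (h0 : 0 ≤ s0) (h1 : 0 ≤ s1) (h2 : 0 ≤ s2) (hs : s0 + s1 + s2 = 1) :
    0 ≤ psi_0_6_1 ((9/16)*achi s1 s2) ((27/64)*cchi s1 s2) := by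
  have key : psi_0_6_1 ((9/16)*achi s1 s2) ((27/64)*cchi s1 s2) = (6095014695/34359738368)*s2^7 + (194931478665/137438953472)*s1*s2^6 + (1117126128195/274877906944)*s1^2*s2^5 + (2766103356555/549755813888)*s1^3*s2^4 + (3042924555825/1099511627776)*s1^4*s2^3 + (1238961120705/2199023255552)*s1^5*s2^2 + (21791298375/4398046511104)*s1^6*s2 + (3113042625/4398046511104)*s1^7 + (6344432325/4294967296)*s0*s2^6 + (70124992245/8589934592)*s0*s1*s2^5 + (1021142066175/68719476736)*s0*s1^2*s2^4 + (758641143645/68719476736)*s0*s1^3*s2^3 + (848636375895/274877906944)*s0*s1^4*s2^2 + (26998569675/137438953472)*s0*s1^5*s2 + (8999523225/274877906944)*s0*s1^6 + (8515282545/2147483648)*s0^2*s2^5 + (119218165605/8589934592)*s0^2*s1*s2^4 + (133588587825/8589934592)*s0^2*s1^2*s2^3 + (108569174175/17179869184)*s0^2*s1^3*s2^2 + (58530346875/68719476736)*s0^2*s1^4*s2 + (11706069375/68719476736)*s0^2*s1^5 +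 (532234395/134217728)*s0^3*s2^4 + (1177202565/134217728)*s0^3*s1*s2^3 + (3001150845/536870912)*s0^3*s1^2*s2^2 + (646745715/536870912)*s0^3*s1^3*s2 + (646745715/2147483648)*s0^3*s1^4 + (107494695/67108864)*s0^4*s2^3 + (547016085/268435456)*s0^4*s1*s2^2 + (351111915/536870912)*s0^4*s1^2*s2 + (117037305/536870912)*s0^4*s1^3 + (467775/2097152)*s0^5*s2^2 + (467775/4194304)*s0^5*s1*s2 + (467775/8388608)*s0^5*s1^2 := by
    have e : s0 = 1 - s1 - s2 := by linarith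
    subst e; unfold psi_0_6_1 achi cchi; ring
  rw [key]; positivity

def psi_0_7_0 (A C : ℝ) : ℝ := (172755/2097152)*C + (13365/4194304)*C^2 + (7425/131072)*A + (-695475/4194304)*A*C + (-49995/524288)*A^2 + (176715/4194304)*A^2*C + (56925/524288)*A^3

theorem psi_0_7_0_nonneg (s0 s1 s2 : ℝ) (h0 : 0 ≤ s0) (h1 : 0 ≤ s1) (h2 : 0 ≤ s2) (hs : s0 + s1 + s2 = 1) :
    0 ≤ psi_0_7_0 ((9/16)*achi s1 s2) ((27/64)*cchi s1 s2) := by
  have key : psi_0_7_0 ((9/16)*achi s1 s2) ((27/64)*cchi s1 s2) = (870716385/34359738368)*s2^7 + (27847354095/137438953472)*s1*s2^6 + (159589446885/274877906944)*s1^2*s2^5 + (395157622365/549755813888)*s1^3*s2^4 + (434703507975/1099511627776)*s1^4*s2^3 + (176994445815/2199023255552)*s1^5*s2^2 + (3113042625/4398046511104)*s1^6*s2 + (444720375/4398046511104)*s1^7 + (906347475/4294967296)*s0*s2^6 + (10017856035/8589934592)*s0*s1*s2^5 + (145877438025/68719476736)*s0*s1^2*s2^4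 + (108377306235/68719476736)*s0*s1^3*s2^3 + (121233767985/274877906944)*s0*s1^4*s2^2 + (3856938525/137438953472)*s0*s1^5*s2 + (1285646175/274877906944)*s0*s1^6 + (1216468935/2147483648)*s0^2*s2^5 + (17031166515/8589934592)*s0^2*s1*s2^4 + (19084083975/8589934592)*s0^2*s1^2*s2^3 + (15509882025/17179869184)*s0^2*s1^3*s2^2 + (8361478125/68719476736)*s0^2*s1^4*s2 + (1672295625/68719476736)*s0^2*s1^5 + (76033485/134217728)*s0^3*s2^4 + (168171795/134217728)*s0^3*s1*s2^3 + (428735835/536870912)*s0^3*s1^2*s2^2 + (92392245/536870912)*s0^3*s1^3*s2 + (92392245/2147483648)*s0^3*s1^4 + (15356385/67108864)*s0^4*s2^3 + (78145155/268435456)*s0^4*s1*s2^2 + (50158845/536870912)*s0^4*s1^2*s2 + (16719615/536870912)*s0^4*s1^3 + (66825/2097152)*s0^5*s2^2 + (66825/4194304)*s0^5*s1*s2 + (66825/8388608)*s0^5*s1^2 := by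
    have e : s0 = 1 - s1 - s2 := by linarith
    subst e; unfold psi_0_7_0 achi cchi; ring
  rw [key]; positivity

def psi_1_0_6 (A C : ℝ) : ℝ := (-2367/4096)*C + (-243/1024)*C^2 + (18657/10240)*A + (73341/40960)*A*C + (-172791/40960)*A^2 + (-10503/20480)*A^2*C + (79713/40960)*A^3

theorem psi_1_0_6_nonneg (s0 s1 s2 : ℝ) (h0 : 0 ≤ s0) (h1 : 0 ≤ s1) (h2 : 0 ≤ s2) (hs : s0 + s1 + s2 = 1) :
    0 ≤ psi_1_0_6 ((9/16)*achi s1 s2) ((27/64)*cchi s1 s2) := by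
  have key : psi_1_0_6 ((9/16)*achi s1 s2) ((27/64)*cchi s1 s2) = (3893589/41943040)*s2^7 + (635838903/671088640)*s1*s2^6 + (4968697059/1342177280)*s1^2*s2^5 + (18671110821/2684354560)*s1^3*s2^4 + (7779809997/1073741824)*s1^4*s2^3 + (47281781619/10737418240)*s1^5*s2^2 + (6344432325/4294967296)*s1^6*s2 + (906347475/4294967296)*s1^7 + (175606137/167772160)*s0*s2^6 + (2624932899/335544320)*s0*s1*s2^5 + (1399355595/67108864)*s0*s1^2*s2^4 + (35882613711/1342177280)*s0*s1^3*s2^3 + (25402362939/1342177280)*s0*s1^4*s2^2 + (39436102827/5368709120)*s0*s1^5*s2 + (13145367609/10737418240)*s0*s1^6 + (87421437/20971520)*s0^2*s2^5 + (1751419827/83886080)*s0^2*s1*s2^4 + (2992133601/83886080)*s0^2*s1^2*s2^3 + (4959864009/167772160)*s0^2*s1^3*s2^2 + (1779064965/134217728)*s0^2*s1^4*s2 + (355812993/134217728)*s0^2*s1^5 + (73017369/10485760)*s0^3*s2^4 + (218875689/10485760)*s0^3*s1*s2^3 + (894514347/41943040)*s0^3*s1^2*s2^2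 + (456762969/41943040)*s0^3*s1^3*s2 + (456762969/167772160)*s0^3*s1^4 + (607743/131072)*s0^4*s2^3 + (3838185/524288)*s0^4*s1*s2^2 + (4221639/1048576)*s0^4*s1^2*s2 + (1407213/1048576)*s0^4*s1^3 + (167913/163840)*s0^5*s2^2 + (167913/327680)*s0^5*s1*s2 + (167913/655360)*s0^5*s1^2 := by
    have e : s0 = 1 - s1 - s2 := by linarith
    subst e; unfold psi_1_0_6 achi cchi; ring
  rw [key]; positivity

def psi_1_1_5 (A C : ℝ) : ℝ := (-15309/8192)*C + (-2187/4096)*C^2 + (219267/20480)*A + (468747/81920)*A*C + (-414153/16384)*A^2 + (-156411/40960)*A^2*C + (1362987/81920)*A^3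

theorem psi_1_1_5_nonneg (s0 s1 s2 : ℝ) (h0 : 0 ≤ s0) (h1 : 0 ≤ s1) (h2 : 0 ≤ s2) (hs : s0 + s1 + s2 = 1) :
    0 ≤ psi_1_1_5 ((9/16)*achi s1 s2) ((27/64)*cchi s1 s2) := by
  have key : psi_1_1_5 ((9/16)*achi s1 s2) ((27/64)*cchi s1 s2) = (121609593/167772160)*s2^7 + (9577332999/1342177280)*s1*s2^6 + (71457401583/2684354560)*s1^2*s2^5 + (249874323957/5368709120)*s1^3*s2^4 + (95733312993/2147483648)*s1^4*s2^3 + (542091587211/21474836480)*s1^5*s2^2 + (70124992245/8589934592)*s1^6*s2 + (10017856035/8589934592)*s1^7 + (2624932899/335544320)*s0*s2^6 + (37554645681/671088640)*s0*s1*s2^5 + (94191642747/671088640)*s0*s1^2*s2^4 + (445265540397/2684354560)*s0*s1^3*s2^3 + (290826711063/2684354560)*s0*s1^4*s2^2 + (430824782313/10737418240)*s0*s1^5*s2 + (143608260771/21474836480)*s0*s1^6 + (1236660291/41943040)*s0^2*s2^5 + (4703374593/33554432)*s0^2*s1*s2^4 + (37689445071/167772160)*s0^2*s1^2*s2^3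 + (57906621279/335544320)*s0^2*s1^3*s2^2 + (19668194739/268435456)*s0^2*s1^4*s2 + (19668194739/1342177280)*s0^2*s1^5 + (192595239/4194304)*s0^3*s2^4 + (551648151/4194304)*s0^3*s1*s2^3 + (2133040149/16777216)*s0^3*s1^2*s2^2 + (1029743847/16777216)*s0^3*s1^3*s2 + (1029743847/67108864)*s0^3*s1^4 + (7480269/262144)*s0^4*s2^3 + (46121643/1048576)*s0^4*s1*s2^2 + (48601701/2097152)*s0^4*s1^2*s2 + (16200567/2097152)*s0^4*s1^3 + (1973403/327680)*s0^5*s2^2 + (1973403/655360)*s0^5*s1*s2 + (1973403/1310720)*s0^5*s1^2 := by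
    have e : s0 = 1 - s1 - s2 := by linarith
    subst e; unfold psi_1_1_5 achi cchi; ring
  rw [key]; positivity

def psi_1_2_4 (A C : ℝ) : ℝ := (-2241/8192)*C + (-729/2048)*C^2 + (87885/4096)*A + (939627/327680)*A*C + (-4138101/81920)*A^2 + (-2216727/327680)*A^2*C + (3180411/81920)*A^3

theorem psi_1_2_4_nonneg (s0 s1 s2 : ℝ) (h0 : 0 ≤ s0) (h1 : 0 ≤ s1) (h2 : 0 ≤ s2) (hs : s0 + s1 + s2 = 1) :
    0 ≤ psi_1_2_4 ((9/16)*achi s1 s2) ((27/64)*cchi s1 s2) := by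
  have key : psi_1_2_4 ((9/16)*achi s1 s2) ((27/64)*cchi s1 s2) = (5547703851/2684354560)*s2^7 + (206756598357/10737418240)*s1*s2^6 + (289801847871/4294967296)*s1^2*s2^5 + (935953263603/8589934592)*s1^3*s2^4 + (1624699080621/17179869184)*s1^4*s2^3 + (8355108492117/171798691840)*s1^5*s2^2 + (1021142066175/68719476736)*s1^6*s2 + (145877438025/68719476736)*s1^7 + (1399355595/67108864)*s0*s2^6 + (94191642747/671088640)*s0*s1*s2^5 + (220143479049/671088640)*s0*s1^2*s2^4 + (954699368841/2684354560)*s0*s1^3*s2^3 + (141702691221/671088640)*s0*s1^4*s2^2 + (787526214417/10737418240)*s0*s1^5*s2 + (262508738139/21474836480)*s0*s1^6 + (12200218137/167772160)*s0^2*s2^5 + (217711940373/671088640)*s0^2*s1*s2^4 + (326667478473/671088640)*s0^2*s1^2*s2^3 + (462114574767/1342177280)*s0^2*s1^3*s2^2 + (146601753471/1073741824)*s0^2*s1^4*s2 + (146601753471/5368709120)*s0^2*s1^5 + (2176539579/20971520)*s0^3*s2^4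 + (5958649899/20971520)*s0^3*s1*s2^3 + (21745190097/83886080)*s0^3*s1^2*s2^2 + (9827890299/83886080)*s0^3*s1^3*s2 + (9827890299/335544320)*s0^3*s1^4 + (15758793/262144)*s0^4*s2^3 + (94734279/1048576)*s0^4*s1*s2^2 + (95097321/2097152)*s0^4*s1^2*s2 + (31699107/2097152)*s0^4*s1^3 + (790965/65536)*s0^5*s2^2 + (790965/131072)*s0^5*s1*s2 + (790965/262144)*s0^5*s1^2 := by
    have e : s0 = 1 - s1 - s2 := by linarith
    subst e; unfold psi_1_2_4 achi cchi; ring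
  rw [key]; positivity

def psi_1_3_3 (A C : ℝ) : ℝ := (138735/32768)*C + (-243/8192)*C^2 + (1544859/81920)*A + (-1153827/163840)*A*C + (-13918977/327680)*A^2 + (-1112481/327680)*A^2*C + (11843991/327680)*A^3

theorem psi_1_3_3_nonneg (s0 s1 s2 : ℝ) (h0 : 0 ≤ s0) (h1 : 0 ≤ s1) (h2 : 0 ≤ s2) (hs : s0 + s1 + s2 = 1) :
    0 ≤ psi_1_3_3 ((9/16)*achi s1 s2) ((27/64)*cchi s1 s2) := by
  have key : psi_1_3_3 ((9/16)*achi s1 s2) ((27/64)*cchi s1 s2) = (7792913043/2684354560)*s2^7 + (269846073567/10737418240)*s1*s2^6 + (1740676472109/21474836480)*s1^2*s2^5 + (5117848205661/42949672960)*s1^3*s2^4 + (1566539739099/17179869184)*s1^4*s2^3 + (6926285196423/171798691840)*s1^5*s2^2 + (758641143645/68719476736)*s1^6*s2 + (108377306235/68719476736)*s1^7 + (35882613711/1342177280)*s0*s2^6 + (445265540397/2684354560)*s0*s1*s2^5 + (954699368841/2684354560)*s0*s1^2*s2^4 + (3723912540009/10737418240)*s0*s1^3*s2^3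 + (1925535816801/10737418240)*s0*s1^4*s2^2 + (2386938436317/42949672960)*s0*s1^5*s2 + (795646145439/85899345920)*s0*s1^6 + (1758425517/20971520)*s0^2*s2^5 + (115895100267/335544320)*s0^2*s1*s2^4 + (80197928361/167772160)*s0^2*s1^2*s2^3 + (202781966913/671088640)*s0^2*s1^3*s2^2 + (57510837459/536870912)*s0^2*s1^4*s2 + (57510837459/2684354560)*s0^2*s1^5 + (8969621103/83886080)*s0^3*s2^4 + (23216205663/83886080)*s0^3*s1*s2^3 + (78501184749/335544320)*s0^3*s1^2*s2^2 + (32068773423/335544320)*s0^3*s1^3*s2 + (32068773423/1342177280)*s0^3*s1^4 + (59360769/1048576)*s0^4*s2^3 + (344927079/4194304)*s0^4*s1*s2^2 + (322452009/8388608)*s0^4*s1^2*s2 + (107484003/8388608)*s0^4*s1^3 + (13903731/1310720)*s0^5*s2^2 + (13903731/2621440)*s0^5*s1*s2 + (13903731/5242880)*s0^5*s1^2 := by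
    have e : s0 = 1 - s1 - s2 := by linarith
    subst e; unfold psi_1_3_3 achi cchi; ring
  rw [key]; positivity

def psi_1_4_2 (A C : ℝ) : ℝ := (181035/32768)*C + (2187/32768)*C^2 + (668331/81920)*A + (-13856589/1310720)*A*C + (-5364873/327680)*A^2 + (1280529/1310720)*A^2*C + (5271399/327680)*A^3

theorem psi_1_4_2_nonneg (s0 s1 s2 : ℝ) (h0 : 0 ≤ s0) (h1 : 0 ≤ s1) (h2 : 0 ≤ s2) (hs : s0 + s1 + s2 = 1) :
    0 ≤ psi_1_4_2 ((9/16)*achi s1 s2) ((27/64)*cchi s1 s2) := by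
  have key : psi_1_4_2 ((9/16)*achi s1 s2) ((27/64)*cchi s1 s2) = (23883342723/10737418240)*s2^7 + (776840109597/42949672960)*s1*s2^6 + (4628160667539/85899345920)*s1^2*s2^5 + (12305744123031/171798691840)*s1^3*s2^4 + (3190409291349/68719476736)*s1^4*s2^3 + (10624000462173/687194767360)*s1^5*s2^2 + (848636375895/274877906944)*s1^6*s2 + (121233767985/274877906944)*s1^7 + (25402362939/1342177280)*s0*s2^6 + (290826711063/2684354560)*s0*s1*s2^5 + (141702691221/671088640)*s0*s1^2*s2^4 + (1925535816801/10737418240)*s0*s1^3*s2^3 + (781316678439/10737418240)*s0*s1^4*s2^2 + (719838538173/42949672960)*s0*s1^5*s2 + (239946179391/85899345920)*s0*s1^6 + (35769937041/671088640)*s0^2*s2^5 + (537350230989/2684354560)*s0^2*s1*s2^4 + (668307339009/2684354560)*s0^2*s1^2*s2^3 + (701876941911/5368709120)*s0^2*s1^3*s2^2 + (153803229543/4294967296)*s0^2*s1^4*s2 + (153803229543/21474836480)*s0^2*s1^5 + (4979174247/83886080)*s0^3*s2^4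 + (11926660887/83886080)*s0^3*s1*s2^3 + (35688828501/335544320)*s0^3*s1^2*s2^2 + (11835506727/335544320)*s0^3*s1^3*s2 + (11835506727/1342177280)*s0^3*s1^4 + (28947861/1048576)*s0^4*s2^3 + (159023331/4194304)*s0^4*s1*s2^2 + (129695661/8388608)*s0^4*s1^2*s2 + (43231887/8388608)*s0^4*s1^3 + (6014979/1310720)*s0^5*s2^2 + (6014979/2621440)*s0^5*s1*s2 + (6014979/5242880)*s0^5*s1^2 := by
    have e : s0 = 1 - s1 - s2 := by linarith
    subst e; unfold psi_1_4_2 achi cchi; ring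
  rw [key]; positivity

def psi_1_5_1 (A C : ℝ) : ℝ := (351243/131072)*C + (729/16384)*C^2 + (677079/327680)*A + (-6929361/1310720)*A*C + (-4524309/1310720)*A^2 + (717903/655360)*A^2*C + (5544963/1310720)*A^3

theorem psi_1_5_1_nonneg (s0 s1 s2 : ℝ) (h0 : 0 ≤ s0) (h1 : 0 ≤ s1) (h2 : 0 ≤ s2) (hs : s0 + s1 + s2 = 1) :
    0 ≤ psi_1_5_1 ((9/16)*achi s1 s2) ((27/64)*cchi s1 s2) := by
  have key : psi_1_5_1 ((9/16)*achi s1 s2) ((27/64)*cchi s1 s2) = (603391113/671088640)*s2^7 + (152098210809/21474836480)*s1*s2^6 + (866245258629/42949672960)*s1^2*s2^5 + (2156368775211/85899345920)*s1^3*s2^4 + (487160865675/34359738368)*s1^4*s2^3 + (221862915945/68719476736)*s1^5*s2^2 + (26998569675/137438953472)*s1^6*s2 + (3856938525/137438953472)*s1^7 + (39436102827/5368709120)*s0*s2^6 + (430824782313/10737418240)*s0*s1*s2^5 + (787526214417/10737418240)*s0*s1^2*s2^4 + (2386938436317/42949672960)*s0*s1^3*s2^3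 + (719838538173/42949672960)*s0*s1^4*s2^2 + (59089885965/34359738368)*s0*s1^5*s2 + (19696628655/68719476736)*s0*s1^6 + (13021519743/671088640)*s0^2*s2^5 + (183336018273/2684354560)*s0^2*s1*s2^4 + (208509375339/2684354560)*s0^2*s1^2*s2^3 + (177787804851/5368709120)*s0^2*s1^3*s2^2 + (23268932775/4294967296)*s0^2*s1^4*s2 + (4653786555/4294967296)*s0^2*s1^5 + (6568245531/335544320)*s0^3*s2^4 + (14694262731/335544320)*s0^3*s1*s2^3 + (38552477553/1342177280)*s0^3*s1^2*s2^2 + (9163952091/1342177280)*s0^3*s1^3*s2 + (9163952091/5368709120)*s0^3*s1^4 + (33858405/4194304)*s0^4*s2^3 + (174699747/16777216)*s0^4*s1*s2^2 + (117798381/33554432)*s0^4*s1^2*s2 + (39266127/33554432)*s0^4*s1^3 + (6093711/5242880)*s0^5*s2^2 + (6093711/10485760)*s0^5*s1*s2 + (6093711/20971520)*s0^5*s1^2 := by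
    have e : s0 = 1 - s1 - s2 := by linarith
    subst e; unfold psi_1_5_1 achi cchi; ring
  rw [key]; positivity

def psi_1_6_0 (A C : ℝ) : ℝ := (117081/262144)*C + (243/32768)*C^2 + (225693/655360)*A + (-2309787/2621440)*A*C + (-1508103/2621440)*A^2 + (239301/1310720)*A^2*C + (1848321/2621440)*A^3

theorem psi_1_6_0_nonneg (s0 s1 s2 : ℝ) (h0 : 0 ≤ s0) (h1 : 0 ≤ s1) (h2 : 0 ≤ s2) (hs : s0 + s1 + s2 = 1) :
    0 ≤ psi_1_6_0 ((9/16)*achi s1 s2) ((27/64)*cchi s1 s2) := by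
  have key : psi_1_6_0 ((9/16)*achi s1 s2) ((27/64)*cchi s1 s2) = (201130371/1342177280)*s2^7 + (50699403603/42949672960)*s1*s2^6 + (288748419543/85899345920)*s1^2*s2^5 + (718789591737/171798691840)*s1^3*s2^4 + (162386955225/68719476736)*s1^4*s2^3 + (73954305315/137438953472)*s1^5*s2^2 + (8999523225/274877906944)*s1^6*s2 + (1285646175/274877906944)*s1^7 + (13145367609/10737418240)*s0*s2^6 + (143608260771/21474836480)*s0*s1*s2^5 + (262508738139/21474836480)*s0*s1^2*s2^4 + (795646145439/85899345920)*s0*s1^3*s2^3 + (239946179391/85899345920)*s0*s1^4*s2^2 + (19696628655/68719476736)*s0*s1^5*s2 + (6565542885/137438953472)*s0*s1^6 + (4340506581/1342177280)*s0^2*s2^5 + (61112006091/5368709120)*s0^2*s1*s2^4 + (69503125113/5368709120)*s0^2*s1^2*s2^3 + (59262601617/10737418240)*s0^2*s1^3*s2^2 + (7756310925/8589934592)*s0^2*s1^4*s2 + (1551262185/8589934592)*s0^2*s1^5 + (2189415177/671088640)*s0^3*s2^4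 + (4898087577/671088640)*s0^3*s1*s2^3 + (12850825851/2684354560)*s0^3*s1^2*s2^2 + (3054650697/2684354560)*s0^3*s1^3*s2 + (3054650697/10737418240)*s0^3*s1^4 + (11286135/8388608)*s0^4*s2^3 + (58233249/33554432)*s0^4*s1*s2^2 + (39266127/67108864)*s0^4*s1^2*s2 + (13088709/67108864)*s0^4*s1^3 + (2031237/10485760)*s0^5*s2^2 + (2031237/20971520)*s0^5*s1*s2 + (2031237/41943040)*s0^5*s1^2 := by
    have e : s0 = 1 - s1 - s2 := by linarith
    subst e; unfold psi_1_6_0 achi cchi; ring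
  rw [key]; positivity

def psi_2_0_5 (A C : ℝ) : ℝ := (-171/256)*C + (-243/2048)*C^2 + (1701/320)*A + (20727/10240)*A*C + (-64683/5120)*A^2 + (-20817/10240)*A^2*C + (46827/5120)*A^3

theorem psi_2_0_5_nonneg (s0 s1 s2 : ℝ) (h0 : 0 ≤ s0) (h1 : 0 ≤ s1) (h2 : 0 ≤ s2) (hs : s0 + s1 + s2 = 1) :
    0 ≤ psi_2_0_5 ((9/16)*achi s1 s2) ((27/64)*cchi s1 s2) := by
  have key : psi_2_0_5 ((9/16)*achi s1 s2) ((27/64)*cchi s1 s2) = (32749353/83886080)*s2^7 + (255660543/67108864)*s1*s2^6 + (9425218401/671088640)*s1^2*s2^5 + (32310165249/1342177280)*s1^3*s2^4 + (12065647167/536870912)*s1^4*s2^3 + (66707707059/5368709120)*s1^5*s2^2 + (8515282545/2147483648)*s1^6*s2 + (1216468935/2147483648)*s1^7 + (87421437/20971520)*s0*s2^6 + (1236660291/41943040)*s0*s1*s2^5 + (12200218137/167772160)*s0*s1^2*s2^4 + (1758425517/20971520)*s0*s1^3*s2^3 + (35769937041/671088640)*s0*s1^4*s2^2 + (13021519743/671088640)*s0*s1^5*s2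 + (4340506581/1342177280)*s0*s1^6 + (16239933/1048576)*s0^2*s2^5 + (1521884457/20971520)*s0^2*s1*s2^4 + (2392753689/20971520)*s0^2*s1^2*s2^3 + (3585585771/41943040)*s0^2*s1^3*s2^2 + (1194249987/33554432)*s0^2*s1^4*s2 + (1194249987/167772160)*s0^2*s1^5 + (30996837/1310720)*s0^3*s2^4 + (87567237/1310720)*s0^3*s1*s2^3 + (332569071/5242880)*s0^3*s1^2*s2^2 + (157434597/5242880)*s0^3*s1^3*s2 + (157434597/20971520)*s0^3*s1^4 + (117855/8192)*s0^4*s2^3 + (720981/32768)*s0^4*s1*s2^2 + (748683/65536)*s0^4*s1^2*s2 + (249561/65536)*s0^4*s1^3 + (15309/5120)*s0^5*s2^2 + (15309/10240)*s0^5*s1*s2 + (15309/20480)*s0^5*s1^2 := by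
    have e : s0 = 1 - s1 - s2 := by linarith
    subst e; unfold psi_2_0_5 achi cchi; ring
  rw [key]; positivity

def psi_2_1_4 (A C : ℝ) : ℝ := (1287/2048)*C + (-1215/8192)*C^2 + (209709/10240)*A + (-333/8192)*A*C + (-987939/20480)*A^2 + (-51921/8192)*A^2*C + (816201/20480)*A^3

theorem psi_2_1_4_nonneg (s0 s1 s2 : ℝ) (h0 : 0 ≤ s0) (h1 : 0 ≤ s1) (h2 : 0 ≤ s2) (hs : s0 + s1 + s2 = 1) :
    0 ≤ psi_2_1_4 ((9/16)*achi s1 s2) ((27/64)*cchi s1 s2) := by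
  have key : psi_2_1_4 ((9/16)*achi s1 s2) ((27/64)*cchi s1 s2) = (692178453/335544320)*s2^7 + (5172457419/268435456)*s1*s2^6 + (181427767461/2684354560)*s1^2*s2^5 + (579931169589/5368709120)*s1^3*s2^4 + (197302880187/2147483648)*s1^4*s2^3 + (990696588399/21474836480)*s1^5*s2^2 + (119218165605/8589934592)*s1^6*s2 + (17031166515/8589934592)*s1^7 + (1751419827/83886080)*s0*s2^6 + (4703374593/33554432)*s0*s1*s2^5 + (217711940373/671088640)*s0*s1^2*s2^4 + (115895100267/335544320)*s0*s1^3*s2^3 + (537350230989/2684354560)*s0*s1^4*s2^2 + (183336018273/2684354560)*s0*s1^5*s2 + (61112006091/5368709120)*s0*s1^6 + (1521884457/20971520)*s0^2*s2^5 + (26871529761/83886080)*s0^2*s1*s2^4 + (39745868049/83886080)*s0^2*s1^2*s2^3 + (55063512531/167772160)*s0^2*s1^3*s2^2 + (17139760299/134217728)*s0^2*s1^4*s2 + (17139760299/671088640)*s0^2*s1^5 + (535058541/5242880)*s0^3*s2^4 + (1449341181/5242880)*s0^3*s1*s2^3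 + (5212267623/20971520)*s0^3*s1^2*s2^2 + (2313585261/20971520)*s0^3*s1^3*s2 + (2313585261/83886080)*s0^3*s1^4 + (3809511/65536)*s0^4*s2^3 + (22752819/262144)*s0^4*s1*s2^2 + (22544325/524288)*s0^4*s1^2*s2 + (7514775/524288)*s0^4*s1^3 + (1887381/163840)*s0^5*s2^2 + (1887381/327680)*s0^5*s1*s2 + (1887381/655360)*s0^5*s1^2 := by
    have e : s0 = 1 - s1 - s2 := by linarith
    subst e; unfold psi_2_1_4 achi cchi; ring
  rw [key]; positivity

def psi_2_2_3 (A C : ℝ) : ℝ := (2871/512)*C + (-243/8192)*C^2 + (133893/5120)*A + (-423153/40960)*A*C + (-1218771/20480)*A^2 + (-215217/40960)*A^2*C + (1094319/20480)*A^3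

theorem psi_2_2_3_nonneg (s0 s1 s2 : ℝ) (h0 : 0 ≤ s0) (h1 : 0 ≤ s1) (h2 : 0 ≤ s2) (hs : s0 + s1 + s2 = 1) :
    0 ≤ psi_2_2_3 ((9/16)*achi s1 s2) ((27/64)*cchi s1 s2) := by
  have key : psi_2_2_3 ((9/16)*achi s1 s2) ((27/64)*cchi s1 s2) = (1273320729/335544320)*s2^7 + (8963769663/268435456)*s1*s2^6 + (294735499713/2684354560)*s1^2*s2^5 + (877106764737/5368709120)*s1^3*s2^4 + (270979223391/2147483648)*s1^4*s2^3 + (1209901385907/21474836480)*s1^5*s2^2 + (133588587825/8589934592)*s1^6*s2 + (19084083975/8589934592)*s1^7 + (2992133601/83886080)*s0*s2^6 + (37689445071/167772160)*s0*s1*s2^5 + (326667478473/671088640)*s0*s1^2*s2^4 + (80197928361/167772160)*s0*s1^3*s2^3 + (668307339009/2684354560)*s0*s1^4*s2^2 + (208509375339/2684354560)*s0*s1^5*s2 + (69503125113/5368709120)*s0*s1^6 + (2392753689/20971520)*s0^2*s2^5 + (39745868049/83886080)*s0^2*s1*s2^4 + (55277965377/83886080)*s0^2*s1^2*s2^3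 + (70237595043/167772160)*s0^2*s1^3*s2^2 + (20031370875/134217728)*s0^2*s1^4*s2 + (4006274175/134217728)*s0^2*s1^5 + (771724989/5242880)*s0^3*s2^4 + (2002976829/5242880)*s0^3*s1*s2^3 + (6793684407/20971520)*s0^3*s1^2*s2^2 + (2787730749/20971520)*s0^3*s1^3*s2 + (2787730749/83886080)*s0^3*s1^4 + (641277/8192)*s0^4*s2^3 + (7462773/65536)*s0^4*s1*s2^2 + (6997671/131072)*s0^4*s1^2*s2 + (2332557/131072)*s0^4*s1^3 + (1205037/81920)*s0^5*s2^2 + (1205037/163840)*s0^5*s1*s2 + (1205037/327680)*s0^5*s1^2 := by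
    have e : s0 = 1 - s1 - s2 := by linarith
    subst e; unfold psi_2_2_3 achi cchi; ring
  rw [key]; positivity

def psi_2_3_2 (A C : ℝ) : ℝ := (32661/4096)*C + (243/16384)*C^2 + (294759/20480)*A + (-1269747/81920)*A*C + (-1229049/40960)*A^2 + (20817/81920)*A^2*C + (1232811/40960)*A^3

theorem psi_2_3_2_nonneg (s0 s1 s2 : ℝ) (h0 : 0 ≤ s0) (h1 : 0 ≤ s1) (h2 : 0 ≤ s2) (hs : s0 + s1 + s2 = 1) :
    0 ≤ psi_2_3_2 ((9/16)*achi s1 s2) ((27/64)*cchi s1 s2) := by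
  have key : psi_2_3_2 ((9/16)*achi s1 s2) ((27/64)*cchi s1 s2) = (2287377711/671088640)*s2^7 + (15106002417/536870912)*s1*s2^6 + (460307529567/5368709120)*s1^2*s2^5 + (1254974515983/10737418240)*s1^3*s2^4 + (338715435969/4294967296)*s1^4*s2^3 + (1220276742813/42949672960)*s1^5*s2^2 + (108569174175/17179869184)*s1^6*s2 + (15509882025/17179869184)*s1^7 + (4959864009/167772160)*s0*s2^6 + (57906621279/335544320)*s0*s1*s2^5 + (462114574767/1342177280)*s0*s1^2*s2^4 + (202781966913/671088640)*s0*s1^3*s2^3 + (701876941911/5368709120)*s0*s1^4*s2^2 + (177787804851/5368709120)*s0*s1^5*s2 + (59262601617/10737418240)*s0*s1^6 + (3585585771/41943040)*s0^2*s2^5 + (55063512531/167772160)*s0^2*s1*s2^4 + (70237595043/167772160)*s0^2*s1^2*s2^3 + (77344532937/335544320)*s0^2*s1^3*s2^2 + (18311681745/268435456)*s0^2*s1^4*s2 + (3662336349/268435456)*s0^2*s1^5 + (1031543991/10485760)*s0^3*s2^4 + (2516546151/10485760)*s0^3*s1*s2^3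 + (7764780933/41943040)*s0^3*s1^2*s2^2 + (2731688631/41943040)*s0^3*s1^3*s2 + (2731688631/167772160)*s0^3*s1^4 + (6187509/131072)*s0^4*s2^3 + (34479513/524288)*s0^4*s1*s2^2 + (29188431/1048576)*s0^4*s1^2*s2 + (9729477/1048576)*s0^4*s1^3 + (2652831/327680)*s0^5*s2^2 + (2652831/655360)*s0^5*s1*s2 + (2652831/1310720)*s0^5*s1^2 := by
    have e : s0 = 1 - s1 - s2 := by linarith
    subst e; unfold psi_2_3_2 achi cchi; ring
  rw [key]; positivity

def psi_2_4_1 (A C : ℝ) : ℝ := (75015/16384)*C + (1215/65536)*C^2 + (69741/16384)*A + (-592587/65536)*A*C + (-249921/32768)*A^2 + (98577/65536)*A^2*C + (301959/32768)*A^3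

theorem psi_2_4_1_nonneg (s0 s1 s2 : ℝ) (h0 : 0 ≤ s0) (h1 : 0 ≤ s1) (h2 : 0 ≤ s2) (hs : s0 + s1 + s2 = 1) :
    0 ≤ psi_2_4_1 ((9/16)*achi s1 s2) ((27/64)*cchi s1 s2) := by
  have key : psi_2_4_1 ((9/16)*achi s1 s2) ((27/64)*cchi s1 s2) = (863098335/536870912)*s2^7 + (27390467925/2147483648)*s1*s2^6 + (158290317855/4294967296)*s1^2*s2^5 + (402142003695/8589934592)*s1^3*s2^4 + (474187861125/17179869184)*s1^4*s2^3 + (248205491325/34359738368)*s1^5*s2^2 + (58530346875/68719476736)*s1^6*s2 + (8361478125/68719476736)*s1^7 + (1779064965/134217728)*s0*s2^6 + (19668194739/268435456)*s0*s1*s2^5 + (146601753471/1073741824)*s0*s1^2*s2^4 + (57510837459/536870912)*s0*s1^3*s2^3 + (153803229543/4294967296)*s0*s1^4*s2^2 + (23268932775/4294967296)*s0*s1^5*s2 + (7756310925/8589934592)*s0*s1^6 + (1194249987/33554432)*s0^2*s2^5 + (17139760299/134217728)*s0^2*s1*s2^4 + (20031370875/134217728)*s0^2*s1^2*s2^3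 + (18311681745/268435456)*s0^2*s1^3*s2^2 + (14872303485/1073741824)*s0^2*s1^4*s2 + (2974460697/1073741824)*s0^2*s1^5 + (310236399/8388608)*s0^3*s2^4 + (708736959/8388608)*s0^3*s1*s2^3 + (1941394797/33554432)*s0^3*s1^2*s2^2 + (523920879/33554432)*s0^3*s1^3*s2 + (523920879/134217728)*s0^3*s1^4 + (8302095/524288)*s0^4*s2^3 + (43736355/2097152)*s0^4*s1*s2^2 + (31583925/4194304)*s0^4*s1^2*s2 + (10527975/4194304)*s0^4*s1^3 + (627669/262144)*s0^5*s2^2 + (627669/524288)*s0^5*s1*s2 + (627669/1048576)*s0^5*s1^2 := by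
    have e : s0 = 1 - s1 - s2 := by linarith
    subst e; unfold psi_2_4_1 achi cchi; ring
  rw [key]; positivity

def psi_2_5_0 (A C : ℝ) : ℝ := (15003/16384)*C + (243/65536)*C^2 + (69741/81920)*A + (-592587/327680)*A*C + (-249921/163840)*A^2 + (98577/327680)*A^2*C + (301959/163840)*A^3

theorem psi_2_5_0_nonneg (s0 s1 s2 : ℝ) (h0 : 0 ≤ s0) (h1 : 0 ≤ s1) (h2 : 0 ≤ s2) (hs : s0 + s1 + s2 = 1) :
    0 ≤ psi_2_5_0 ((9/16)*achi s1 s2) ((27/64)*cchi s1 s2) := by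
  have key : psi_2_5_0 ((9/16)*achi s1 s2) ((27/64)*cchi s1 s2) = (172619667/536870912)*s2^7 + (5478093585/2147483648)*s1*s2^6 + (31658063571/4294967296)*s1^2*s2^5 + (80428400739/8589934592)*s1^3*s2^4 + (94837572225/17179869184)*s1^4*s2^3 + (49641098265/34359738368)*s1^5*s2^2 + (11706069375/68719476736)*s1^6*s2 + (1672295625/68719476736)*s1^7 + (355812993/134217728)*s0*s2^6 + (19668194739/1342177280)*s0*s1*s2^5 + (146601753471/5368709120)*s0*s1^2*s2^4 + (57510837459/2684354560)*s0*s1^3*s2^3 + (153803229543/21474836480)*s0*s1^4*s2^2 + (4653786555/4294967296)*s0*s1^5*s2 + (1551262185/8589934592)*s0*s1^6 + (1194249987/167772160)*s0^2*s2^5 + (17139760299/671088640)*s0^2*s1*s2^4 + (4006274175/134217728)*s0^2*s1^2*s2^3 + (3662336349/268435456)*s0^2*s1^3*s2^2 + (2974460697/1073741824)*s0^2*s1^4*s2 + (2974460697/5368709120)*s0^2*s1^5 + (310236399/41943040)*s0^3*s2^4 + (708736959/41943040)*s0^3*s1*s2^3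 + (1941394797/167772160)*s0^3*s1^2*s2^2 + (523920879/167772160)*s0^3*s1^3*s2 + (523920879/671088640)*s0^3*s1^4 + (1660419/524288)*s0^4*s2^3 + (8747271/2097152)*s0^4*s1*s2^2 + (6316785/4194304)*s0^4*s1^2*s2 + (2105595/4194304)*s0^4*s1^3 + (627669/1310720)*s0^5*s2^2 + (627669/2621440)*s0^5*s1*s2 + (627669/5242880)*s0^5*s1^2 := by
    have e : s0 = 1 - s1 - s2 := by linarith
    subst e; unfold psi_2_5_0 achi cchi; ring
  rw [key]; positivity

def psi_3_0_4 (A C : ℝ) : ℝ := (333/512)*C + (15741/2560)*A + (-585/512)*A*C + (-18459/1280)*A^2 + (-27/16)*A^2*C + (32337/2560)*A^3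

theorem psi_3_0_4_nonneg (s0 s1 s2 : ℝ) (h0 : 0 ≤ s0) (h1 : 0 ≤ s1) (h2 : 0 ≤ s2) (hs : s0 + s1 + s2 = 1) :
    0 ≤ psi_3_0_4 ((9/16)*achi s1 s2) ((27/64)*cchi s1 s2) := by
  have key : psi_3_0_4 ((9/16)*achi s1 s2) ((27/64)*cchi s1 s2) = (7339329/10485760)*s2^7 + (27042741/4194304)*s1*s2^6 + (233162631/10485760)*s1^2*s2^5 + (2905419051/83886080)*s1^3*s2^4 + (118901601/4194304)*s1^4*s2^3 + (4563597591/335544320)*s1^5*s2^2 + (532234395/134217728)*s1^6*s2 + (76033485/134217728)*s1^7 + (73017369/10485760)*s0*s2^6 + (192595239/4194304)*s0*s1*s2^5 + (2176539579/20971520)*s0*s1^2*s2^4 + (8969621103/83886080)*s0*s1^3*s2^3 + (4979174247/83886080)*s0*s1^4*s2^2 + (6568245531/335544320)*s0*s1^5*s2 + (2189415177/671088640)*s0*s1^6 + (30996837/1310720)*s0^2*s2^5 + (535058541/5242880)*s0^2*s1*s2^4 + (771724989/5242880)*s0^2*s1^2*s2^3 + (1031543991/10485760)*s0^2*s1^3*s2^2 + (310236399/8388608)*s0^2*s1^4*s2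 + (310236399/41943040)*s0^2*s1^5 + (10557621/327680)*s0^3*s2^4 + (28097361/327680)*s0^3*s1*s2^3 + (98595063/1310720)*s0^3*s1^2*s2^2 + (42400341/1310720)*s0^3*s1^3*s2 + (42400341/5242880)*s0^3*s1^4 + (292329/16384)*s0^4*s2^3 + (1727001/65536)*s0^4*s1*s2^2 + (1673055/131072)*s0^4*s1^2*s2 + (557685/131072)*s0^4*s1^3 + (141669/40960)*s0^5*s2^2 + (141669/81920)*s0^5*s1*s2 + (141669/163840)*s0^5*s1^2 := by
    have e : s0 = 1 - s1 - s2 := by linarith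
    subst e; unfold psi_3_0_4 achi cchi; ring
  rw [key]; positivity

def psi_3_1_3 (A C : ℝ) : ℝ := (1845/512)*C + (38421/2560)*A + (-3609/512)*A*C + (-43839/1280)*A^2 + (-189/64)*A^2*C + (82017/2560)*A^3

theorem psi_3_1_3_nonneg (s0 s1 s2 : ℝ) (h0 : 0 ≤ s0) (h1 : 0 ≤ s1) (h2 : 0 ≤ s2) (hs : s0 + s1 + s2 = 1) :
    0 ≤ psi_3_1_3 ((9/16)*achi s1 s2) ((27/64)*cchi s1 s2) := by
  have key : psi_3_1_3 ((9/16)*achi s1 s2) ((27/64)*cchi s1 s2) = (23216949/10485760)*s2^7 + (81914571/4194304)*s1*s2^6 + (1350299727/20971520)*s1^2*s2^5 + (8011867221/83886080)*s1^3*s2^4 + (1226020779/16777216)*s1^4*s2^3 + (10790095941/335544320)*s1^5*s2^2 + (1177202565/134217728)*s1^6*s2 + (168171795/134217728)*s1^7 + (218875689/10485760)*s0*s2^6 + (551648151/4194304)*s0*s1*s2^5 + (5958649899/20971520)*s0*s1^2*s2^4 + (23216205663/83886080)*s0*s1^3*s2^3 + (11926660887/83886080)*s0*s1^4*s2^2 + (14694262731/335544320)*s0*s1^5*s2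 + (4898087577/671088640)*s0*s1^6 + (87567237/1310720)*s0^2*s2^5 + (1449341181/5242880)*s0^2*s1*s2^4 + (2002976829/5242880)*s0^2*s1^2*s2^3 + (2516546151/10485760)*s0^2*s1^3*s2^2 + (708736959/8388608)*s0^2*s1^4*s2 + (708736959/41943040)*s0^2*s1^5 + (28097361/327680)*s0^3*s2^4 + (72580941/327680)*s0^3*s1*s2^3 + (244293003/1310720)*s0^3*s1^2*s2^2 + (99131121/1310720)*s0^3*s1^3*s2 + (99131121/5242880)*s0^3*s1^4 + (741393/16384)*s0^4*s2^3 + (4298913/65536)*s0^4*s1*s2^2 + (4000023/131072)*s0^4*s1^2*s2 + (1333341/131072)*s0^4*s1^3 + (345789/40960)*s0^5*s2^2 + (345789/81920)*s0^5*s1*s2 + (345789/163840)*s0^5*s1^2 := by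
    have e : s0 = 1 - s1 - s2 := by linarith
    subst e; unfold psi_3_1_3 achi cchi; ring
  rw [key]; positivity

def psi_3_2_2 (A C : ℝ) : ℝ := (10935/2048)*C + (118503/10240)*A + (-21627/2048)*A*C + (-127737/5120)*A^2 + (-81/128)*A^2*C + (256851/10240)*A^3

theorem psi_3_2_2_nonneg (s0 s1 s2 : ℝ) (h0 : 0 ≤ s0) (h1 : 0 ≤ s1) (h2 : 0 ≤ s2) (hs : s0 + s1 + s2 = 1) :
    0 ≤ psi_3_2_2 ((9/16)*achi s1 s2) ((27/64)*cchi s1 s2) := by
  have key : psi_3_2_2 ((9/16)*achi s1 s2) ((27/64)*cchi s1 s2) = (100837467/41943040)*s2^7 + (338940531/16777216)*s1*s2^6 + (660366837/10485760)*s1^2*s2^5 + (29476879533/335544320)*s1^3*s2^4 + (2057616351/33554432)*s1^4*s2^3 + (31466685033/1342177280)*s1^5*s2^2 + (3001150845/536870912)*s1^6*s2 + (428735835/536870912)*s1^7 + (894514347/41943040)*s0*s2^6 + (2133040149/16777216)*s0*s1*s2^5 + (21745190097/83886080)*s0*s1^2*s2^4 + (78501184749/335544320)*s0*s1^3*s2^3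 + (35688828501/335544320)*s0*s1^4*s2^2 + (38552477553/1342177280)*s0*s1^5*s2 + (12850825851/2684354560)*s0*s1^6 + (332569071/5242880)*s0^2*s2^5 + (5212267623/20971520)*s0^2*s1*s2^4 + (6793684407/20971520)*s0^2*s1^2*s2^3 + (7764780933/41943040)*s0^2*s1^3*s2^2 + (1941394797/33554432)*s0^2*s1^4*s2 + (1941394797/167772160)*s0^2*s1^5 + (98595063/1310720)*s0^3*s2^4 + (244293003/1310720)*s0^3*s1*s2^3 + (772288749/5242880)*s0^3*s1^2*s2^2 + (283702743/5242880)*s0^3*s1^3*s2 + (283702743/20971520)*s0^3*s1^4 + (2428299/65536)*s0^4*s2^3 + (13684059/262144)*s0^4*s1*s2^2 + (11912589/524288)*s0^4*s1^2*s2 + (3970863/524288)*s0^4*s1^3 + (1066527/163840)*s0^5*s2^2 + (1066527/327680)*s0^5*s1*s2 + (1066527/655360)*s0^5*s1^2 := by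
    have e : s0 = 1 - s1 - s2 := by linarith
    subst e; unfold psi_3_2_2 achi cchi; ring
  rw [key]; positivity

def psi_3_3_1 (A C : ℝ) : ℝ := (7245/2048)*C + (41661/10240)*A + (-14409/2048)*A*C + (-40059/5120)*A^2 + (27/32)*A^2*C + (92817/10240)*A^3

theorem psi_3_3_1_nonneg (s0 s1 s2 : ℝ) (h0 : 0 ≤ s0) (h1 : 0 ≤ s1) (h2 : 0 ≤ s2) (hs : s0 + s1 + s2 = 1) :
    0 ≤ psi_3_3_1 ((9/16)*achi s1 s2) ((27/64)*cchi s1 s2) := by
  have key : psi_3_3_1 ((9/16)*achi s1 s2) ((27/64)*cchi s1 s2) = (54403569/41943040)*s2^7 + (175111389/16777216)*s1*s2^6 + (1291167621/41943040)*s1^2*s2^5 + (13453145091/335544320)*s1^3*s2^4 + (207898893/8388608)*s1^4*s2^3 + (9886493151/1342177280)*s1^5*s2^2 + (646745715/536870912)*s1^6*s2 + (92392245/536870912)*s1^7 + (456762969/41943040)*s0*s2^6 + (1029743847/16777216)*s0*s1*s2^5 + (9827890299/83886080)*s0*s1^2*s2^4 + (32068773423/335544320)*s0*s1^3*s2^3 + (11835506727/335544320)*s0*s1^4*s2^2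 + (9163952091/1342177280)*s0*s1^5*s2 + (3054650697/2684354560)*s0*s1^6 + (157434597/5242880)*s0^2*s2^5 + (2313585261/20971520)*s0^2*s1*s2^4 + (2787730749/20971520)*s0^2*s1^2*s2^3 + (2731688631/41943040)*s0^2*s1^3*s2^2 + (523920879/33554432)*s0^2*s1^4*s2 + (523920879/167772160)*s0^2*s1^5 + (42400341/1310720)*s0^3*s2^4 + (99131121/1310720)*s0^3*s1*s2^3 + (283702743/5242880)*s0^3*s1^2*s2^2 + (85440501/5242880)*s0^3*s1^3*s2 + (85440501/20971520)*s0^3*s1^4 + (945513/65536)*s0^4*s2^3 + (5086233/262144)*s0^4*s1*s2^2 + (3912543/524288)*s0^4*s1^2*s2 + (1304181/524288)*s0^4*s1^3 + (374949/163840)*s0^5*s2^2 + (374949/327680)*s0^5*s1*s2 + (374949/655360)*s0^5*s1^2 := by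
    have e : s0 = 1 - s1 - s2 := by linarith
    subst e; unfold psi_3_3_1 achi cchi; ring
  rw [key]; positivity

def psi_3_4_0 (A C : ℝ) : ℝ := (7245/8192)*C + (41661/40960)*A + (-14409/8192)*A*C + (-40059/20480)*A^2 + (27/128)*A^2*C + (92817/40960)*A^3

theorem psi_3_4_0_nonneg (s0 s1 s2 : ℝ) (h0 : 0 ≤ s0) (h1 : 0 ≤ s1) (h2 : 0 ≤ s2) (hs : s0 + s1 + s2 = 1) :
    0 ≤ psi_3_4_0 ((9/16)*achi s1 s2) ((27/64)*cchi s1 s2) := by
  have key : psi_3_4_0 ((9/16)*achi s1 s2) ((27/64)*cchi s1 s2) = (54403569/167772160)*s2^7 + (175111389/67108864)*s1*s2^6 + (1291167621/167772160)*s1^2*s2^5 + (13453145091/1342177280)*s1^3*s2^4 + (207898893/33554432)*s1^4*s2^3 + (9886493151/5368709120)*s1^5*s2^2 + (646745715/2147483648)*s1^6*s2 + (92392245/2147483648)*s1^7 + (456762969/167772160)*s0*s2^6 + (1029743847/67108864)*s0*s1*s2^5 + (9827890299/335544320)*s0*s1^2*s2^4 + (32068773423/1342177280)*s0*s1^3*s2^3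 + (11835506727/1342177280)*s0*s1^4*s2^2 + (9163952091/5368709120)*s0*s1^5*s2 + (3054650697/10737418240)*s0*s1^6 + (157434597/20971520)*s0^2*s2^5 + (2313585261/83886080)*s0^2*s1*s2^4 + (2787730749/83886080)*s0^2*s1^2*s2^3 + (2731688631/167772160)*s0^2*s1^3*s2^2 + (523920879/134217728)*s0^2*s1^4*s2 + (523920879/671088640)*s0^2*s1^5 + (42400341/5242880)*s0^3*s2^4 + (99131121/5242880)*s0^3*s1*s2^3 + (283702743/20971520)*s0^3*s1^2*s2^2 + (85440501/20971520)*s0^3*s1^3*s2 + (85440501/83886080)*s0^3*s1^4 + (945513/262144)*s0^4*s2^3 + (5086233/1048576)*s0^4*s1*s2^2 + (3912543/2097152)*s0^4*s1^2*s2 + (1304181/2097152)*s0^4*s1^3 + (374949/655360)*s0^5*s2^2 + (374949/1310720)*s0^5*s1*s2 + (374949/2621440)*s0^5*s1^2 := by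
    have e : s0 = 1 - s1 - s2 := by linarith
    subst e; unfold psi_3_4_0 achi cchi; ring
  rw [key]; positivity

def psi_4_0_3 (A C : ℝ) : ℝ := (63/64)*C + (189/64)*A + (-63/32)*A*C + (-423/64)*A^2 + (-27/64)*A^2*C + (207/32)*A^3

theorem psi_4_0_3_nonneg (s0 s1 s2 : ℝ) (h0 : 0 ≤ s0) (h1 : 0 ≤ s1) (h2 : 0 ≤ s2) (hs : s0 + s1 + s2 = 1) :
    0 ≤ psi_4_0_3 ((9/16)*achi s1 s2) ((27/64)*cchi s1 s2) := by
  have key : psi_4_0_3 ((9/16)*achi s1 s2) ((27/64)*cchi s1 s2) = (264627/524288)*s2^7 + (9145305/2097152)*s1*s2^6 + (58931631/4194304)*s1^2*s2^5 + (170214939/8388608)*s1^3*s2^4 + (250138125/16777216)*s1^4*s2^3 + (207549945/33554432)*s1^5*s2^2 + (107494695/67108864)*s1^6*s2 + (15356385/67108864)*s1^7 + (607743/131072)*s0*s2^6 + (7480269/262144)*s0*s1*s2^5 + (15758793/262144)*s0*s1^2*s2^4 + (59360769/1048576)*s0*s1^3*s2^3 + (28947861/1048576)*s0*s1^4*s2^2 + (33858405/4194304)*s0*s1^5*s2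 + (11286135/8388608)*s0*s1^6 + (117855/8192)*s0^2*s2^5 + (3809511/65536)*s0^2*s1*s2^4 + (641277/8192)*s0^2*s1^2*s2^3 + (6187509/131072)*s0^2*s1^3*s2^2 + (8302095/524288)*s0^2*s1^4*s2 + (1660419/524288)*s0^2*s1^5 + (292329/16384)*s0^3*s2^4 + (741393/16384)*s0^3*s1*s2^3 + (2428299/65536)*s0^3*s1^2*s2^2 + (945513/65536)*s0^3*s1^3*s2 + (945513/262144)*s0^3*s1^4 + (18711/2048)*s0^4*s2^3 + (107163/8192)*s0^4*s1*s2^2 + (96957/16384)*s0^4*s1^2*s2 + (32319/16384)*s0^4*s1^3 + (1701/1024)*s0^5*s2^2 + (1701/2048)*s0^5*s1*s2 + (1701/4096)*s0^5*s1^2 := by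
    have e : s0 = 1 - s1 - s2 := by linarith
    subst e; unfold psi_4_0_3 achi cchi; ring
  rw [key]; positivity

def psi_4_1_2 (A C : ℝ) : ℝ := (459/256)*C + (1053/256)*A + (-459/128)*A*C + (-2295/256)*A^2 + (-81/256)*A^2*C + (1161/128)*A^3

theorem psi_4_1_2_nonneg (s0 s1 s2 : ℝ) (h0 : 0 ≤ s0) (h1 : 0 ≤ s1) (h2 : 0 ≤ s2) (hs : s0 + s1 + s2 = 1) :
    0 ≤ psi_4_1_2 ((9/16)*achi s1 s2) ((27/64)*cchi s1 s2) := by
  have key : psi_4_1_2 ((9/16)*achi s1 s2) ((27/64)*cchi s1 s2) = (1715337/2097152)*s2^7 + (58065579/8388608)*s1*s2^6 + (365191821/16777216)*s1^2*s2^5 + (1026870129/33554432)*s1^3*s2^4 + (1448621415/67108864)*s1^4*s2^3 + (1126464651/134217728)*s1^5*s2^2 + (547016085/268435456)*s1^6*s2 + (78145155/268435456)*s1^7 + (3838185/524288)*s0*s2^6 + (46121643/1048576)*s0*s1*s2^5 + (94734279/1048576)*s0*s1^2*s2^4 + (344927079/4194304)*s0*s1^3*s2^3 + (159023331/4194304)*s0*s1^4*s2^2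 + (174699747/16777216)*s0*s1^5*s2 + (58233249/33554432)*s0*s1^6 + (720981/32768)*s0^2*s2^5 + (22752819/262144)*s0^2*s1*s2^4 + (7462773/65536)*s0^2*s1^2*s2^3 + (34479513/524288)*s0^2*s1^3*s2^2 + (43736355/2097152)*s0^2*s1^4*s2 + (8747271/2097152)*s0^2*s1^5 + (1727001/65536)*s0^3*s2^4 + (4298913/65536)*s0^3*s1*s2^3 + (13684059/262144)*s0^3*s1^2*s2^2 + (5086233/262144)*s0^3*s1^3*s2 + (5086233/1048576)*s0^3*s1^4 + (107163/8192)*s0^4*s2^3 + (605799/32768)*s0^4*s1*s2^2 + (531441/65536)*s0^4*s1^2*s2 + (177147/65536)*s0^4*s1^3 + (9477/4096)*s0^5*s2^2 + (9477/8192)*s0^5*s1*s2 + (9477/16384)*s0^5*s1^2 := by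
    have e : s0 = 1 - s1 - s2 := by linarith
    subst e; unfold psi_4_1_2 achi cchi; ring
  rw [key]; positivity

def psi_4_2_1 (A C : ℝ) : ℝ := (621/512)*C + (891/512)*A + (-621/256)*A*C + (-1809/512)*A^2 + (81/512)*A^2*C + (999/256)*A^3

theorem psi_4_2_1_nonneg (s0 s1 s2 : ℝ) (h0 : 0 ≤ s0) (h1 : 0 ≤ s1) (h2 : 0 ≤ s2) (hs : s0 + s1 + s2 = 1) :
    0 ≤ psi_4_2_1 ((9/16)*achi s1 s2) ((27/64)*cchi s1 s2) := by
  have key : psi_4_2_1 ((9/16)*achi s1 s2) ((27/64)*cchi s1 s2) = (1970487/4194304)*s2^7 + (64453077/16777216)*s1*s2^6 + (388395891/33554432)*s1^2*s2^5 + (1038031119/67108864)*s1^3*s2^4 + (1344206745/134217728)*s1^4*s2^3 + (888794613/268435456)*s1^5*s2^2 + (351111915/536870912)*s1^6*s2 + (50158845/536870912)*s1^7 + (4221639/1048576)*s0*s2^6 + (48601701/2097152)*s0*s1*s2^5 + (95097321/2097152)*s0*s1^2*s2^4 + (322452009/8388608)*s0*s1^3*s2^3 + (129695661/8388608)*s0*s1^4*s2^2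 + (117798381/33554432)*s0*s1^5*s2 + (39266127/67108864)*s0*s1^6 + (748683/65536)*s0^2*s2^5 + (22544325/524288)*s0^2*s1*s2^4 + (6997671/131072)*s0^2*s1^2*s2^3 + (29188431/1048576)*s0^2*s1^3*s2^2 + (31583925/4194304)*s0^2*s1^4*s2 + (6316785/4194304)*s0^2*s1^5 + (1673055/131072)*s0^3*s2^4 + (4000023/131072)*s0^3*s1*s2^3 + (11912589/524288)*s0^3*s1^2*s2^2 + (3912543/524288)*s0^3*s1^3*s2 + (3912543/2097152)*s0^3*s1^4 + (96957/16384)*s0^4*s2^3 + (531441/65536)*s0^4*s1*s2^2 + (430839/131072)*s0^4*s1^2*s2 + (143613/131072)*s0^4*s1^3 + (8019/8192)*s0^5*s2^2 + (8019/16384)*s0^5*s1*s2 + (8019/32768)*s0^5*s1^2 := by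
    have e : s0 = 1 - s1 - s2 := by linarith
    subst e; unfold psi_4_2_1 achi cchi; ring
  rw [key]; positivity

def psi_4_3_0 (A C : ℝ) : ℝ := (207/512)*C + (297/512)*A + (-207/256)*A*C + (-603/512)*A^2 + (27/512)*A^2*C + (333/256)*A^3

theorem psi_4_3_0_nonneg (s0 s1 s2 : ℝ) (h0 : 0 ≤ s0) (h1 : 0 ≤ s1) (h2 : 0 ≤ s2) (hs : s0 + s1 + s2 = 1) :
    0 ≤ psi_4_3_0 ((9/16)*achi s1 s2) ((27/64)*cchi s1 s2) := by
  have key : psi_4_3_0 ((9/16)*achi s1 s2) ((27/64)*cchi s1 s2) = (656829/4194304)*s2^7 + (21484359/16777216)*s1*s2^6 + (129465297/33554432)*s1^2*s2^5 + (346010373/67108864)*s1^3*s2^4 + (448068915/134217728)*s1^4*s2^3 + (296264871/268435456)*s1^5*s2^2 + (117037305/536870912)*s1^6*s2 + (16719615/536870912)*s1^7 + (1407213/1048576)*s0*s2^6 + (16200567/2097152)*s0*s1*s2^5 + (31699107/2097152)*s0*s1^2*s2^4 + (107484003/8388608)*s0*s1^3*s2^3 + (43231887/8388608)*s0*s1^4*s2^2 + (39266127/33554432)*s0*s1^5*s2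 + (13088709/67108864)*s0*s1^6 + (249561/65536)*s0^2*s2^5 + (7514775/524288)*s0^2*s1*s2^4 + (2332557/131072)*s0^2*s1^2*s2^3 + (9729477/1048576)*s0^2*s1^3*s2^2 + (10527975/4194304)*s0^2*s1^4*s2 + (2105595/4194304)*s0^2*s1^5 + (557685/131072)*s0^3*s2^4 + (1333341/131072)*s0^3*s1*s2^3 + (3970863/524288)*s0^3*s1^2*s2^2 + (1304181/524288)*s0^3*s1^3*s2 + (1304181/2097152)*s0^3*s1^4 + (32319/16384)*s0^4*s2^3 + (177147/65536)*s0^4*s1*s2^2 + (143613/131072)*s0^4*s1^2*s2 + (47871/131072)*s0^4*s1^3 + (2673/8192)*s0^5*s2^2 + (2673/16384)*s0^5*s1*s2 + (2673/32768)*s0^5*s1^2 := by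
    have e : s0 = 1 - s1 - s2 := by linarith
    subst e; unfold psi_4_3_0 achi cchi; ring
  rw [key]; positivity

def psi_5_0_2 (A C : ℝ) : ℝ := (9/32)*C + (81/160)*A + (-9/16)*A*C + (-171/160)*A^2 + (9/8)*A^3

theorem psi_5_0_2_nonneg (s0 s1 s2 : ℝ) (h0 : 0 ≤ s0) (h1 : 0 ≤ s1) (h2 : 0 ≤ s2) (hs : s0 + s1 + s2 = 1) :
    0 ≤ psi_5_0_2 ((9/16)*achi s1 s2) ((27/64)*cchi s1 s2) := by
  have key : psi_5_0_2 ((9/16)*achi s1 s2) ((27/64)*cchi s1 s2) = (19197/163840)*s2^7 + (319059/327680)*s1*s2^6 + (490617/163840)*s1^2*s2^5 + (5377347/1310720)*s1^3*s2^4 + (727299/262144)*s1^4*s2^3 + (5248071/5242880)*s1^5*s2^2 + (467775/2097152)*s1^6*s2 + (66825/2097152)*s1^7 + (167913/163840)*s0*s2^6 + (1973403/327680)*s0*s1*s2^5 + (790965/65536)*s0*s1^2*s2^4 + (13903731/1310720)*s0*s1^3*s2^3 + (6014979/1310720)*s0*s1^4*s2^2 + (6093711/5242880)*s0*s1^5*s2 + (2031237/10485760)*s0*s1^6 + (15309/5120)*s0^2*s2^5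 + (1887381/163840)*s0^2*s1*s2^4 + (1205037/81920)*s0^2*s1^2*s2^3 + (2652831/327680)*s0^2*s1^3*s2^2 + (627669/262144)*s0^2*s1^4*s2 + (627669/1310720)*s0^2*s1^5 + (141669/40960)*s0^3*s2^4 + (345789/40960)*s0^3*s1*s2^3 + (1066527/163840)*s0^3*s1^2*s2^2 + (374949/163840)*s0^3*s1^3*s2 + (374949/655360)*s0^3*s1^4 + (1701/1024)*s0^4*s2^3 + (9477/4096)*s0^4*s1*s2^2 + (8019/8192)*s0^4*s1^2*s2 + (2673/8192)*s0^4*s1^3 + (729/2560)*s0^5*s2^2 + (729/5120)*s0^5*s1*s2 + (729/10240)*s0^5*s1^2 := by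
    have e : s0 = 1 - s1 - s2 := by linarith
    subst e; unfold psi_5_0_2 achi cchi; ring
  rw [key]; positivity

def psi_5_1_1 (A C : ℝ) : ℝ := (9/64)*C + (81/320)*A + (-9/32)*A*C + (-171/320)*A^2 + (9/16)*A^3

theorem psi_5_1_1_nonneg (s0 s1 s2 : ℝ) (h0 : 0 ≤ s0) (h1 : 0 ≤ s1) (h2 : 0 ≤ s2) (hs : s0 + s1 + s2 = 1) :
    0 ≤ psi_5_1_1 ((9/16)*achi s1 s2) ((27/64)*cchi s1 s2) := by
  have key : psi_5_1_1 ((9/16)*achi s1 s2) ((27/64)*cchi s1 s2) = (19197/327680)*s2^7 + (319059/655360)*s1*s2^6 + (490617/327680)*s1^2*s2^5 + (5377347/2621440)*s1^3*s2^4 + (727299/524288)*s1^4*s2^3 + (5248071/10485760)*s1^5*s2^2 + (467775/4194304)*s1^6*s2 + (66825/4194304)*s1^7 + (167913/327680)*s0*s2^6 + (1973403/655360)*s0*s1*s2^5 + (790965/131072)*s0*s1^2*s2^4 + (13903731/2621440)*s0*s1^3*s2^3 + (6014979/2621440)*s0*s1^4*s2^2 + (6093711/10485760)*s0*s1^5*s2 + (2031237/20971520)*s0*s1^6 + (15309/10240)*s0^2*s2^5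 + (1887381/327680)*s0^2*s1*s2^4 + (1205037/163840)*s0^2*s1^2*s2^3 + (2652831/655360)*s0^2*s1^3*s2^2 + (627669/524288)*s0^2*s1^4*s2 + (627669/2621440)*s0^2*s1^5 + (141669/81920)*s0^3*s2^4 + (345789/81920)*s0^3*s1*s2^3 + (1066527/327680)*s0^3*s1^2*s2^2 + (374949/327680)*s0^3*s1^3*s2 + (374949/1310720)*s0^3*s1^4 + (1701/2048)*s0^4*s2^3 + (9477/8192)*s0^4*s1*s2^2 + (8019/16384)*s0^4*s1^2*s2 + (2673/16384)*s0^4*s1^3 + (729/5120)*s0^5*s2^2 + (729/10240)*s0^5*s1*s2 + (729/20480)*s0^5*s1^2 := by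
    have e : s0 = 1 - s1 - s2 := by linarith
    subst e; unfold psi_5_1_1 achi cchi; ring
  rw [key]; positivity

def psi_5_2_0 (A C : ℝ) : ℝ := (9/128)*C + (81/640)*A + (-9/64)*A*C + (-171/640)*A^2 + (9/32)*A^3

theorem psi_5_2_0_nonneg (s0 s1 s2 : ℝ) (h0 : 0 ≤ s0) (h1 : 0 ≤ s1) (h2 : 0 ≤ s2) (hs : s0 + s1 + s2 = 1) :
    0 ≤ psi_5_2_0 ((9/16)*achi s1 s2) ((27/64)*cchi s1 s2) := by
  have key : psi_5_2_0 ((9/16)*achi s1 s2) ((27/64)*cchi s1 s2) = (19197/655360)*s2^7 + (319059/1310720)*s1*s2^6 + (490617/655360)*s1^2*s2^5 + (5377347/5242880)*s1^3*s2^4 + (727299/1048576)*s1^4*s2^3 + (5248071/20971520)*s1^5*s2^2 + (467775/8388608)*s1^6*s2 + (66825/8388608)*s1^7 + (167913/655360)*s0*s2^6 + (1973403/1310720)*s0*s1*s2^5 + (790965/262144)*s0*s1^2*s2^4 + (13903731/5242880)*s0*s1^3*s2^3 + (6014979/5242880)*s0*s1^4*s2^2 + (6093711/20971520)*s0*s1^5*s2 + (2031237/41943040)*s0*s1^6 + (15309/20480)*s0^2*s2^5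 + (1887381/655360)*s0^2*s1*s2^4 + (1205037/327680)*s0^2*s1^2*s2^3 + (2652831/1310720)*s0^2*s1^3*s2^2 + (627669/1048576)*s0^2*s1^4*s2 + (627669/5242880)*s0^2*s1^5 + (141669/163840)*s0^3*s2^4 + (345789/163840)*s0^3*s1*s2^3 + (1066527/655360)*s0^3*s1^2*s2^2 + (374949/655360)*s0^3*s1^3*s2 + (374949/2621440)*s0^3*s1^4 + (1701/4096)*s0^4*s2^3 + (9477/16384)*s0^4*s1*s2^2 + (8019/32768)*s0^4*s1^2*s2 + (2673/32768)*s0^4*s1^3 + (729/10240)*s0^5*s2^2 + (729/20480)*s0^5*s1*s2 + (729/40960)*s0^5*s1^2 := by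
    have e : s0 = 1 - s1 - s2 := by linarith
    subst e; unfold psi_5_2_0 achi cchi; ring
  rw [key]; positivity

theorem main_id (t0 t1 t2 A C : ℝ) (ht : t0 + t1 + t2 = 1) :
    polyS ((9/16)*achi t1 t2) ((27/64)*cchi t1 t2) A C = t2^7 * psi_0_0_7 A C + t1*t2^6 * psi_0_1_6 A C + t1^2*t2^5 * psi_0_2_5 A C + t1^3*t2^4 * psi_0_3_4 A C + t1^4*t2^3 * psi_0_4_3 A C + t1^5*t2^2 * psi_0_5_2 A C + t1^6*t2 * psi_0_6_1 A C + t1^7 * psi_0_7_0 A C + t0*t2^6 * psi_1_0_6 A C + t0*t1*t2^5 * psi_1_1_5 A C + t0*t1^2*t2^4 * psi_1_2_4 A C + t0*t1^3*t2^3 * psi_1_3_3 A C + t0*t1^4*t2^2 * psi_1_4_2 A C + t0*t1^5*t2 * psi_1_5_1 A C + t0*t1^6 * psi_1_6_0 A C + t0^2*t2^5 * psi_2_0_5 A C + t0^2*t1*t2^4 * psi_2_1_4 A C + t0^2*t1^2*t2^3 * psi_2_2_3 A C + t0^2*t1^3*t2^2 * psi_2_3_2 A C + t0^2*t1^4*t2 * psi_2_4_1 A C + t0^2*t1^5 * psi_2_5_0 A C + t0^3*t2^4 * psi_3_0_4 A C + t0^3*t1*t2^3 * psi_3_1_3 A C + t0^3*t1^2*t2^2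 * psi_3_2_2 A C + t0^3*t1^3*t2 * psi_3_3_1 A C + t0^3*t1^4 * psi_3_4_0 A C + t0^4*t2^3 * psi_4_0_3 A C + t0^4*t1*t2^2 * psi_4_1_2 A C + t0^4*t1^2*t2 * psi_4_2_1 A C + t0^4*t1^3 * psi_4_3_0 A C + t0^5*t2^2 * psi_5_0_2 A C + t0^5*t1*t2 * psi_5_1_1 A C + t0^5*t1^2 * psi_5_2_0 A C := by
  have e : t0 = 1 - t1 - t2 := by linarith
  subst e; unfold polyS polyR polyJ polyX polyY psi_0_0_7 psi_0_1_6 psi_0_2_5 psi_0_3_4 psi_0_4_3 psi_0_5_2 psi_0_6_1 psi_0_7_0 psi_1_0_6 psi_1_1_5 psi_1_2_4 psi_1_3_3 psi_1_4_2 psi_1_5_1 psi_1_6_0 psi_2_0_5 psi_2_1_4 psi_2_2_3 psi_2_3_2 psi_2_4_1 psi_2_5_0 psi_3_0_4 psi_3_1_3 psi_3_2_2 psi_3_3_1 psi_3_4_0 psi_4_0_3 psi_4_1_2 psi_4_2_1 psi_4_3_0 psi_5_0_2 psi_5_1_1 psi_5_2_0 achi cchi; ring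

theorem nonneg (t0 t1 t2 s0 s1 s2 : ℝ) (ht0 : 0 ≤ t0) (ht1 : 0 ≤ t1) (ht2 : 0 ≤ t2) (ht : t0 + t1 + t2 = 1)
    (h0 : 0 ≤ s0) (h1 : 0 ≤ s1) (h2 : 0 ≤ s2) (hs : s0 + s1 + s2 = 1) :
    0 ≤ polyS ((9/16)*achi t1 t2) ((27/64)*cchi t1 t2) ((9/16)*achi s1 s2) ((27/64)*cchi s1 s2) := by
  rw [main_id t0 t1 t2 _ _ ht]
  have p_0_0_7 := psi_0_0_7_nonneg s0 s1 s2 h0 h1 h2 hs
  have p_0_1_6 := psi_0_1_6_nonneg s0 s1 s2 h0 h1 h2 hs
  have p_0_2_5 := psi_0_2_5_nonneg s0 s1 s2 h0 h1 h2 hs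
  have p_0_3_4 := psi_0_3_4_nonneg s0 s1 s2 h0 h1 h2 hs
  have p_0_4_3 := psi_0_4_3_nonneg s0 s1 s2 h0 h1 h2 hs
  have p_0_5_2 := psi_0_5_2_nonneg s0 s1 s2 h0 h1 h2 hs
  have p_0_6_1 := psi_0_6_1_nonneg s0 s1 s2 h0 h1 h2 hs
  have p_0_7_0 := psi_0_7_0_nonneg s0 s1 s2 h0 h1 h2 hs
  have p_1_0_6 := psi_1_0_6_nonneg s0 s1 s2 h0 h1 h2 hs
  have p_1_1_5 := psi_1_1_5_nonneg s0 s1 s2 h0 h1 h2 hs
  have p_1_2_4 := psi_1_2_4_nonneg s0 s1 s2 h0 h1 h2 hs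
  have p_1_3_3 := psi_1_3_3_nonneg s0 s1 s2 h0 h1 h2 hs
  have p_1_4_2 := psi_1_4_2_nonneg s0 s1 s2 h0 h1 h2 hs
  have p_1_5_1 := psi_1_5_1_nonneg s0 s1 s2 h0 h1 h2 hs
  have p_1_6_0 := psi_1_6_0_nonneg s0 s1 s2 h0 h1 h2 hs
  have p_2_0_5 := psi_2_0_5_nonneg s0 s1 s2 h0 h1 h2 hs
  have p_2_1_4 := psi_2_1_4_nonneg s0 s1 s2 h0 h1 h2 hs
  have p_2_2_3 := psi_2_2_3_nonneg s0 s1 s2 h0 h1 h2 hs
  have p_2_3_2 := psi_2_3_2_nonneg s0 s1 s2 h0 h1 h2 hs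
  have p_2_4_1 := psi_2_4_1_nonneg s0 s1 s2 h0 h1 h2 hs
  have p_2_5_0 := psi_2_5_0_nonneg s0 s1 s2 h0 h1 h2 hs
  have p_3_0_4 := psi_3_0_4_nonneg s0 s1 s2 h0 h1 h2 hs
  have p_3_1_3 := psi_3_1_3_nonneg s0 s1 s2 h0 h1 h2 hs
  have p_3_2_2 := psi_3_2_2_nonneg s0 s1 s2 h0 h1 h2 hs
  have p_3_3_1 := psi_3_3_1_nonneg s0 s1 s2 h0 h1 h2 hs
  have p_3_4_0 := psi_3_4_0_nonneg s0 s1 s2 h0 h1 h2 hs
  have p_4_0_3 := psi_4_0_3_nonneg s0 s1 s2 h0 h1 h2 hs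
  have p_4_1_2 := psi_4_1_2_nonneg s0 s1 s2 h0 h1 h2 hs
  have p_4_2_1 := psi_4_2_1_nonneg s0 s1 s2 h0 h1 h2 hs
  have p_4_3_0 := psi_4_3_0_nonneg s0 s1 s2 h0 h1 h2 hs
  have p_5_0_2 := psi_5_0_2_nonneg s0 s1 s2 h0 h1 h2 hs
  have p_5_1_1 := psi_5_1_1_nonneg s0 s1 s2 h0 h1 h2 hs
  have p_5_2_0 := psi_5_2_0_nonneg s0 s1 s2 h0 h1 h2 hs
  exact add_nonneg (add_nonneg (add_nonneg (add_nonneg (add_nonneg (add_nonneg (add_nonneg (add_nonneg (add_nonneg (add_nonneg (add_nonneg (add_nonneg (add_nonneg (add_nonneg (add_nonneg (add_nonneg (add_nonneg (add_nonneg (add_nonneg (add_nonneg (add_nonneg (add_nonneg (add_nonneg (add_nonneg (add_nonneg (add_nonneg (add_nonneg (add_nonneg (add_nonneg (add_nonneg (add_nonneg (add_nonneg (mul_nonneg (by positivity) p_0_0_7) (mul_nonneg (by positivity) p_0_1_6)) (mul_nonneg (by positivity) p_0_2_5)) (mul_nonneg (by positivity) p_0_3_4)) (mul_nonneg (by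 positivity) p_0_4_3)) (mul_nonneg (by positivity) p_0_5_2)) (mul_nonneg (by positivity) p_0_6_1)) (mul_nonneg (by positivity) p_0_7_0)) (mul_nonneg (by positivity) p_1_0_6)) (mul_nonneg (by positivity) p_1_1_5)) (mul_nonneg (by positivity) p_1_2_4)) (mul_nonneg (by positivity) p_1_3_3)) (mul_nonneg (by positivity) p_1_4_2)) (mul_nonneg (by positivity) p_1_5_1)) (mul_nonneg (by positivity) p_1_6_0)) (mul_nonneg (by positivity) p_2_0_5)) (mul_nonneg (by positivity) p_2_1_4)) (mul_nonneg (by positivity) p_2_2_3)) (mul_nonneg (by positivity) p_2_3_2)) (mul_nonneg (by positivity) p_2_4_1)) (mul_nonneg (by positivity) p_2_5_0)) (mul_nonneg (by positivity) p_3_0_4)) (mul_nonneg (by positivity) p_3_1_3)) (mul_nonneg (by positivity) p_3_2_2)) (mul_nonneg (by positivity) p_3_3_1)) (mul_nonneg (by positivity) p_3_4_0)) (mul_nonneg (by positivity) p_4_0_3)) (mul_nonneg (by positivity) p_4_1_2))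 (mul_nonneg (by positivity) p_4_2_1)) (mul_nonneg (by positivity) p_4_3_0)) (mul_nonneg (by positivity) p_5_0_2)) (mul_nonneg (by positivity) p_5_1_1)) (mul_nonneg (by positivity) p_5_2_0)

end Vale.Agent.Lib.P154.Cert2
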