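import Mathlib

/-!
Broadcasting the `q`-state Potts channel on the rooted `d`-ary tree.
The tree of depth `n + 1` is a root with `d` subtrees of depth `n`, so a spin assignment to the
vertices at distance `n + 1` from the root is a `d`-tuple of spin assignments on the subtrees.
-/

noncomputable section

namespace Vale.Agent.Lib.P154

/-- The Potts channel `P_λ(j | i) = λ 1_{i = j} + (1 - λ) / q`. -/
def potts (q : ℕ) (lam : ℝ) (i j : Fin q) : ℝ :=
  lam * (if i = j then 1 else 0) + (1 - lam) / q

/-- Spin assignments to the vertices at distance `n` from the root of the `d`-ary tree. -/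
def LeafSpins (d q : ℕ) : ℕ → Type
  | 0 => Fin q
  | n + 1 => Fin d → LeafSpins d q n

/-- Spin assignments on a level form a finite set. -/
instance leafSpinsFintype (d q : ℕ) : (n : ℕ) → Fintype (LeafSpins d q n)
  | 0 => inferInstanceAs (Fintype (Fin q))
  | n + 1 =>
    haveI := leafSpinsFintype d q n
    inferInstanceAs (Fintype (Fin d → LeafSpins d q n))

/-- At depth `0` the only vertex is the root: its spin. -/
def spinAtZero {d q : ℕ} (τ : LeafSpins d q 0) : Fin q := τ

/-- The conditional probability of the level-`n` spins `τ` given the root spin `i`: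
the spins of the `d` children are independent given `i`, and each child `c` with spin `j`
passes on to its own subtree of depth `n`. -/
def leafLik (d q : ℕ) (lam : ℝ) : (n : ℕ) → Fin q → LeafSpins d q n → ℝ
  | 0, i, τ => if i = spinAtZero τ then 1 else 0
  | n + 1, i, τ => ∏ c : Fin d, ∑ j : Fin q, potts q lam i j * leafLik d q lam n j (τ c)

/-- The probability of the level-`n` spins `τ` when the root spin is uniform. -/
def leafProb (d q : ℕ) (lam : ℝ) (n : ℕ) (τ : LeafSpins d q n) : ℝ :=
  ∑ i : Fin q, (1 / (q : ℝ)) * leafLik d q lam n i τ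

/-- The posterior probability of the root spin `i` given the level-`n` spins `τ`. -/
def rootPost (d q : ℕ) (lam : ℝ) (n : ℕ) (i : Fin q) (τ : LeafSpins d q n) : ℝ :=
  (1 / (q : ℝ)) * leafLik d q lam n i τ / leafProb d q lam n τ

/-- The quantity `a_n = E[(1/2) ∑ i, |P(σ_ρ = i | σ_{L_n}) - 1 / q|]` on the `d`-ary tree. -/
def advantage (d q : ℕ) (lam : ℝ) (n : ℕ) : ℝ :=
  ∑ τ : LeafSpins d q n,
    leafProb d q lam n τ * ((1 / 2) * ∑ i : Fin q, |rootPost d q lam n i τ - 1 / (q : ℝ)|)

end Vale.Agent.Lib.P154
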