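import Vale.Agent.Lib.P154.NegReg

/-!
Coefficient checks for the `d`-ary tree with a negative eigenvalue.
-/

noncomputable section

namespace Vale.Agent.Lib.P154

open Vale.Agent.Lib.Common.Kron

theorem reg_2_geom {μ : ℝ} (h0 : 0 < μ) (h1 : μ ≤ ((1 : ℕ) : ℝ) / (2 : ℕ)) (h2 : μ < 1 / 2) (n : ℕ) :
    xx (lev 2 (-μ) n) ≤ 2 / 3 * (((((1 : ℕ) : ℝ) / (2 : ℕ)) ^ 2 * (((16 : ℕ) : ℝ) / (5 : ℕ)))) ^ n :=
  reg_instance (d := 2) (mn := 1) (md := 2) (bn := 299) (bd := 200) (tn := 101) (td := 100)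
    (D1 := 0) (D2 := 0) (k1 := 48) (yn := 1) (yd := 6) (a1 := 501) (b1 := 0) (D := 800)
    (kn := 16) (kd := 5) (E := 0) (k2 := 36) (rad1 := [8, 8, 6, 6]) (rad2 := [3])
    (by norm_num) (by norm_num) (by norm_num) (by norm_num) (by norm_num)
    (by decide +kernel) (by decide +kernel)
    (by norm_num) (by norm_num) (by norm_num) h0 h1 h2 (muY_lt' h0 (by simpa using h2) (by norm_num)) n

theorem reg_2 {μ : ℝ} (h0 : 0 < μ) (h1 : μ ≤ ((1 : ℕ) : ℝ) / (2 : ℕ)) (h2 : μ < 1 / 2) :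
    Filter.Tendsto (advantage 2 3 (-μ)) Filter.atTop (nhds 0) :=
  advantage_of_geom h0 h2 (by positivity) (by norm_num) (reg_2_geom h0 h1 h2)

theorem reg_3_geom {μ : ℝ} (h0 : 0 < μ) (h1 : μ ≤ ((1 : ℕ) : ℝ) / (2 : ℕ)) (h2 : μ < 1 / 2) (n : ℕ) :
    xx (lev 3 (-μ) n) ≤ 2 / 3 * (((((1 : ℕ) : ℝ) / (2 : ℕ)) ^ 2 * (((19 : ℕ) : ℝ) / (5 : ℕ)))) ^ n :=
  reg_instance (d := 3) (mn := 1) (md := 2) (bn := 299) (bd := 200) (tn := 101) (td := 100)
    (D1 := 0) (D2 := 0) (k1 := 48) (yn := 1) (yd := 6) (a1 := 501) (b1 := 0) (D := 800)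
    (kn := 19) (kd := 5) (E := 2) (k2 := 49) (rad1 := [8, 8, 6, 6]) (rad2 := [6])
    (by norm_num) (by norm_num) (by norm_num) (by norm_num) (by norm_num)
    (by decide +kernel) (by decide +kernel)
    (by norm_num) (by norm_num) (by norm_num) h0 h1 h2 (muY_lt' h0 (by simpa using h2) (by norm_num)) n

theorem reg_3 {μ : ℝ} (h0 : 0 < μ) (h1 : μ ≤ ((1 : ℕ) : ℝ) / (2 : ℕ)) (h2 : μ < 1 / 2) :
    Filter.Tendsto (advantage 3 3 (-μ)) Filter.atTop (nhds 0) :=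
  advantage_of_geom h0 h2 (by positivity) (by norm_num) (reg_3_geom h0 h1 h2)

theorem reg_4_geom {μ : ℝ} (h0 : 0 < μ) (h1 : μ ≤ ((4507 : ℕ) : ℝ) / (10000 : ℕ)) (h2 : μ < 1 / 2) (n : ℕ) :
    xx (lev 4 (-μ) n) ≤ 2 / 3 * (((((4507 : ℕ) : ℝ) / (10000 : ℕ)) ^ 2 * (((96844400 : ℕ) : ℝ) / (20313049 : ℕ)))) ^ n :=
  reg_instance (d := 4) (mn := 4507) (md := 10000) (bn := 69) (bd := 40) (tn := 103) (td := 100)
    (D1 := 0) (D2 := 0) (k1 := 108) (yn := 2539133) (yd := 18750000) (a1 := 1784125427739) (b1 := 715193600000) (D := 2746500000000)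
    (kn := 96844400) (kd := 20313049) (E := 0) (k2 := 206) (rad1 := [8, 8, 6, 6]) (rad2 := [5])
    (by norm_num) (by norm_num) (by norm_num) (by norm_num) (by norm_num)
    (by decide +kernel) (by decide +kernel)
    (by norm_num) (by norm_num) (by norm_num) h0 h1 h2 (muY_lt h0 h1 (by norm_num)) n

theorem reg_4 {μ : ℝ} (h0 : 0 < μ) (h1 : μ ≤ ((4507 : ℕ) : ℝ) / (10000 : ℕ)) (h2 : μ < 1 / 2) :
    Filter.Tendsto (advantage 4 3 (-μ)) Filter.atTop (nhds 0) :=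
  advantage_of_geom h0 h2 (by positivity) (by norm_num) (reg_4_geom h0 h1 h2)

theorem reg_5_geom {μ : ℝ} (h0 : 0 < μ) (h1 : μ ≤ ((1049 : ℕ) : ℝ) / (2500 : ℕ)) (h2 : μ < 1 / 2) (n : ℕ) :
    xx (lev 5 (-μ) n) ≤ 2 / 3 * (((((1049 : ℕ) : ℝ) / (2500 : ℕ)) ^ 2 * (((24737775 : ℕ) : ℝ) / (4401604 : ℕ)))) ^ n :=
  reg_instance (d := 5) (mn := 1049) (md := 2500) (bn := 93) (bd := 50) (tn := 26) (td := 25)
    (D1 := 0) (D2 := 0) (k1 := 96) (yn := 17606431) (yd := 150000000) (a1 := 4879135381567) (b1 := 2853392250000) (D := 7255000000000)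
    (kn := 24737775) (kd := 4401604) (E := 7) (k2 := 259) (rad1 := [8, 8, 6, 6]) (rad2 := [13])
    (by norm_num) (by norm_num) (by norm_num) (by norm_num) (by norm_num)
    (by decide +kernel) (by decide +kernel)
    (by norm_num) (by norm_num) (by norm_num) h0 h1 h2 (muY_lt h0 h1 (by norm_num)) n

theorem reg_5 {μ : ℝ} (h0 : 0 < μ) (h1 : μ ≤ ((1049 : ℕ) : ℝ) / (2500 : ℕ)) (h2 : μ < 1 / 2) :
    Filter.Tendsto (advantage 5 3 (-μ)) Filter.atTop (nhds 0) :=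
  advantage_of_geom h0 h2 (by positivity) (by norm_num) (reg_5_geom h0 h1 h2)

theorem reg_6_geom {μ : ℝ} (h0 : 0 < μ) (h1 : μ ≤ ((3909 : ℕ) : ℝ) / (10000 : ℕ)) (h2 : μ < 1 / 2) (n : ℕ) :
    xx (lev 6 (-μ) n) ≤ 2 / 3 * (((((3909 : ℕ) : ℝ) / (10000 : ℕ)) ^ 2 * (((99655750 : ℕ) : ℝ) / (15280281 : ℕ)))) ^ n :=
  reg_instance (d := 6) (mn := 3909) (md := 10000) (bn := 397) (bd := 200) (tn := 21) (td := 20)
    (D1 := 0) (D2 := 0) (k1 := 107) (yn := 636679) (yd := 6250000) (a1 := 10608787959301) (b1 := 7587352000000) (D := 15227500000000)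
    (kn := 99655750) (kd := 15280281) (E := 32) (k2 := 336) (rad1 := [8, 8, 6, 6]) (rad2 := [39])
    (by norm_num) (by norm_num) (by norm_num) (by norm_num) (by norm_num)
    (by decide +kernel) (by decide +kernel)
    (by norm_num) (by norm_num) (by norm_num) h0 h1 h2 (muY_lt h0 h1 (by norm_num)) n

theorem reg_6 {μ : ℝ} (h0 : 0 < μ) (h1 : μ ≤ ((3909 : ℕ) : ℝ) / (10000 : ℕ)) (h2 : μ < 1 / 2) :
    Filter.Tendsto (advantage 6 3 (-μ)) Filter.atTop (nhds 0) :=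
  advantage_of_geom h0 h2 (by positivity) (by norm_num) (reg_6_geom h0 h1 h2)

theorem reg_7_geom {μ : ℝ} (h0 : 0 < μ) (h1 : μ ≤ ((3663 : ℕ) : ℝ) / (10000 : ℕ)) (h2 : μ < 1 / 2) (n : ℕ) :
    xx (lev 7 (-μ) n) ≤ 2 / 3 * (((((3663 : ℕ) : ℝ) / (10000 : ℕ)) ^ 2 * (((9083750 : ℕ) : ℝ) / (1219779 : ℕ)))) ^ n :=
  reg_instance (d := 7) (mn := 3663) (md := 10000) (bn := 2019) (bd := 1000) (tn := 103) (td := 100)
    (D1 := 0) (D2 := 0) (k1 := 112) (yn := 279533) (yd := 3125000) (a1 := 28876876438603) (b1 := 22834270000000) (D := 39606250000000)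
    (kn := 9083750) (kd := 1219779) (E := 151) (k2 := 508) (rad1 := [8, 8, 6, 6]) (rad2 := [159])
    (by norm_num) (by norm_num) (by norm_num) (by norm_num) (by norm_num)
    (by decide +kernel) (by decide +kernel)
    (by norm_num) (by norm_num) (by norm_num) h0 h1 h2 (muY_lt h0 h1 (by norm_num)) n

theorem reg_7 {μ : ℝ} (h0 : 0 < μ) (h1 : μ ≤ ((3663 : ℕ) : ℝ) / (10000 : ℕ)) (h2 : μ < 1 / 2) :
    Filter.Tendsto (advantage 7 3 (-μ)) Filter.atTop (nhds 0) :=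
  advantage_of_geom h0 h2 (by positivity) (by norm_num) (reg_7_geom h0 h1 h2)

theorem reg_8_geom {μ : ℝ} (h0 : 0 < μ) (h1 : μ ≤ ((863 : ℕ) : ℝ) / (2500 : ℕ)) (h2 : μ < 1 / 2) (n : ℕ) :
    xx (lev 8 (-μ) n) ≤ 2 / 3 * (((((863 : ℕ) : ℝ) / (2500 : ℕ)) ^ 2 * (((24991925 : ℕ) : ℝ) / (2979076 : ℕ)))) ^ n :=
  reg_instance (d := 8) (mn := 863) (md := 2500) (bn := 971) (bd := 500) (tn := 97) (td := 100)
    (D1 := 0) (D2 := 0) (k1 := 101) (yn := 11916319) (yd := 150000000) (a1 := 62908689208887) (b1 := 52059202500000) (D := 81850000000000)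
    (kn := 24991925) (kd := 2979076) (E := 347) (k2 := 760) (rad1 := [8, 8, 6, 6]) (rad2 := [356])
    (by norm_num) (by norm_num) (by norm_num) (by norm_num) (by norm_num)
    (by decide +kernel) (by decide +kernel)
    (by norm_num) (by norm_num) (by norm_num) h0 h1 h2 (muY_lt h0 h1 (by norm_num)) n

theorem reg_8 {μ : ℝ} (h0 : 0 < μ) (h1 : μ ≤ ((863 : ℕ) : ℝ) / (2500 : ℕ)) (h2 : μ < 1 / 2) :
    Filter.Tendsto (advantage 8 3 (-μ)) Filter.atTop (nhds 0) :=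
  advantage_of_geom h0 h2 (by positivity) (by norm_num) (reg_8_geom h0 h1 h2)

theorem reg_9_geom {μ : ℝ} (h0 : 0 < μ) (h1 : μ ≤ ((409 : ℕ) : ℝ) / (1250 : ℕ)) (h2 : μ < 1 / 2) (n : ℕ) :
    xx (lev 9 (-μ) n) ≤ 2 / 3 * (((((409 : ℕ) : ℝ) / (1250 : ℕ)) ^ 2 * (((12497325 : ℕ) : ℝ) / (1338248 : ℕ)))) ^ n :=
  reg_instance (d := 9) (mn := 409) (md := 1250) (bn := 1903) (bd := 1000) (tn := 93) (td := 100)
    (D1 := 0) (D2 := 0) (k1 := 97) (yn := 10705999) (yd := 150000000) (a1 := 66965872962423) (b1 := 57335002500000) (D := 84100000000000)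
    (kn := 12497325) (kd := 1338248) (E := 490) (k2 := 949) (rad1 := [8, 8, 6, 6]) (rad2 := [500])
    (by norm_num) (by norm_num) (by norm_num) (by norm_num) (by norm_num)
    (by decide +kernel) (by decide +kernel)
    (by norm_num) (by norm_num) (by norm_num) h0 h1 h2 (muY_lt h0 h1 (by norm_num)) n

theorem reg_9 {μ : ℝ} (h0 : 0 < μ) (h1 : μ ≤ ((409 : ℕ) : ℝ) / (1250 : ℕ)) (h2 : μ < 1 / 2) :
    Filter.Tendsto (advantage 9 3 (-μ)) Filter.atTop (nhds 0) :=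
  advantage_of_geom h0 h2 (by positivity) (by norm_num) (reg_9_geom h0 h1 h2)

theorem reg_10_geom {μ : ℝ} (h0 : 0 < μ) (h1 : μ ≤ ((623 : ℕ) : ℝ) / (2000 : ℕ)) (h2 : μ < 1 / 2) (n : ℕ) :
    xx (lev 10 (-μ) n) ≤ 2 / 3 * (((((623 : ℕ) : ℝ) / (2000 : ℕ)) ^ 2 * (((3997320 : ℕ) : ℝ) / (388129 : ℕ)))) ^ n :=
  reg_instance (d := 10) (mn := 623) (md := 2000) (bn := 1903) (bd := 1000) (tn := 91) (td := 100)
    (D1 := 0) (D2 := 0) (k1 := 100) (yn := 242581) (yd := 3750000) (a1 := 2806833227589) (b1 := 2472176000000) (D := 3442500000000)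
    (kn := 3997320) (kd := 388129) (E := 140) (k2 := 599) (rad1 := [8, 8, 6, 6]) (rad2 := [151])
    (by norm_num) (by norm_num) (by norm_num) (by norm_num) (by norm_num)
    (by decide +kernel) (by decide +kernel)
    (by norm_num) (by norm_num) (by norm_num) h0 h1 h2 (muY_lt h0 h1 (by norm_num)) n

theorem reg_10 {μ : ℝ} (h0 : 0 < μ) (h1 : μ ≤ ((623 : ℕ) : ℝ) / (2000 : ℕ)) (h2 : μ < 1 / 2) :
    Filter.Tendsto (advantage 10 3 (-μ)) Filter.atTop (nhds 0) :=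
  advantage_of_geom h0 h2 (by positivity) (by norm_num) (reg_10_geom h0 h1 h2)

theorem reg_11_geom {μ : ℝ} (h0 : 0 < μ) (h1 : μ ≤ ((1489 : ℕ) : ℝ) / (5000 : ℕ)) (h2 : μ < 1 / 2) (n : ℕ) :
    xx (lev 11 (-μ) n) ≤ 2 / 3 * (((((1489 : ℕ) : ℝ) / (5000 : ℕ)) ^ 2 * (((24979825 : ℕ) : ℝ) / (2217121 : ℕ)))) ^ n :=
  reg_instance (d := 11) (mn := 1489) (md := 5000) (bn := 1889) (bd := 1000) (tn := 89) (td := 100)
    (D1 := 0) (D2 := 0) (k1 := 107) (yn := 8868499) (yd := 150000000) (a1 := 292281640320779) (b1 := 262415010000000) (D := 351100000000000)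
    (kn := 24979825) (kd := 2217121) (E := 104) (k2 := 682) (rad1 := [8, 8, 6, 6]) (rad2 := [116])
    (by norm_num) (by norm_num) (by norm_num) (by norm_num) (by norm_num)
    (by decide +kernel) (by decide +kernel)
    (by norm_num) (by norm_num) (by norm_num) h0 h1 h2 (muY_lt h0 h1 (by norm_num)) n

theorem reg_11 {μ : ℝ} (h0 : 0 < μ) (h1 : μ ≤ ((1489 : ℕ) : ℝ) / (5000 : ℕ)) (h2 : μ < 1 / 2) :
    Filter.Tendsto (advantage 11 3 (-μ)) Filter.atTop (nhds 0) :=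
  advantage_of_geom h0 h2 (by positivity) (by norm_num) (reg_11_geom h0 h1 h2)

theorem reg_12_geom {μ : ℝ} (h0 : 0 < μ) (h1 : μ ≤ ((2857 : ℕ) : ℝ) / (10000 : ℕ)) (h2 : μ < 1 / 2) (n : ℕ) :
    xx (lev 12 (-μ) n) ≤ 2 / 3 * (((((2857 : ℕ) : ℝ) / (10000 : ℕ)) ^ 2 * (((99904100 : ℕ) : ℝ) / (8162449 : ℕ)))) ^ n :=
  reg_instance (d := 12) (mn := 2857) (md := 10000) (bn := 1869) (bd := 1000) (tn := 87) (td := 100)
    (D1 := 0) (D2 := 0) (k1 := 112) (yn := 255077) (yd := 4687500) (a1 := 18916528944441) (b1 := 17220335000000) (D := 22321875000000)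
    (kn := 99904100) (kd := 8162449) (E := 78) (k2 := 659) (rad1 := [8, 8, 6, 6]) (rad2 := [91])
    (by norm_num) (by norm_num) (by norm_num) (by norm_num) (by norm_num)
    (by decide +kernel) (by decide +kernel)
    (by norm_num) (by norm_num) (by norm_num) h0 h1 h2 (muY_lt h0 h1 (by norm_num)) n

theorem reg_12 {μ : ℝ} (h0 : 0 < μ) (h1 : μ ≤ ((2857 : ℕ) : ℝ) / (10000 : ℕ)) (h2 : μ < 1 / 2) :
    Filter.Tendsto (advantage 12 3 (-μ)) Filter.atTop (nhds 0) :=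
  advantage_of_geom h0 h2 (by positivity) (by norm_num) (reg_12_geom h0 h1 h2)

theorem reg_13_geom {μ : ℝ} (h0 : 0 < μ) (h1 : μ ≤ ((2749 : ℕ) : ℝ) / (10000 : ℕ)) (h2 : μ < 1 / 2) (n : ℕ) :
    xx (lev 13 (-μ) n) ≤ 2 / 3 * (((((2749 : ℕ) : ℝ) / (10000 : ℕ)) ^ 2 * (((99870550 : ℕ) : ℝ) / (7557001 : ℕ)))) ^ n :=
  reg_instance (d := 13) (mn := 2749) (md := 10000) (bn := 231) (bd := 125) (tn := 17) (td := 20)
    (D1 := 0) (D2 := 0) (k1 := 107) (yn := 944627) (yd := 18750000) (a1 := 9747455222913) (b1 := 8968120000000) (D := 11329687500000)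
    (kn := 99870550) (kd := 7557001) (E := 50) (k2 := 661) (rad1 := [8, 8, 6, 6]) (rad2 := [64])
    (by norm_num) (by norm_num) (by norm_num) (by norm_num) (by norm_num)
    (by decide +kernel) (by decide +kernel)
    (by norm_num) (by norm_num) (by norm_num) h0 h1 h2 (muY_lt h0 h1 (by norm_num)) n

theorem reg_13 {μ : ℝ} (h0 : 0 < μ) (h1 : μ ≤ ((2749 : ℕ) : ℝ) / (10000 : ℕ)) (h2 : μ < 1 / 2) :
    Filter.Tendsto (advantage 13 3 (-μ)) Filter.atTop (nhds 0) :=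
  advantage_of_geom h0 h2 (by positivity) (by norm_num) (reg_13_geom h0 h1 h2)

theorem reg_14_geom {μ : ℝ} (h0 : 0 < μ) (h1 : μ ≤ ((2653 : ℕ) : ℝ) / (10000 : ℕ)) (h2 : μ < 1 / 2) (n : ℕ) :
    xx (lev 14 (-μ) n) ≤ 2 / 3 * (((((2653 : ℕ) : ℝ) / (10000 : ℕ)) ^ 2 * (((14268600 : ℕ) : ℝ) / (1005487 : ℕ)))) ^ n :=
  reg_instance (d := 14) (mn := 2653) (md := 10000) (bn := 911) (bd := 500) (tn := 83) (td := 100)
    (D1 := 0) (D2 := 0) (k1 := 111) (yn := 879803) (yd := 18750000) (a1 := 40030125584049) (b1 := 37120720000000) (D := 45918750000000)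
    (kn := 14268600) (kd := 1005487) (E := 48) (k2 := 732) (rad1 := [8, 8, 6, 6]) (rad2 := [63])
    (by norm_num) (by norm_num) (by norm_num) (by norm_num) (by norm_num)
    (by decide +kernel) (by decide +kernel)
    (by norm_num) (by norm_num) (by norm_num) h0 h1 h2 (muY_lt h0 h1 (by norm_num)) n

theorem reg_14 {μ : ℝ} (h0 : 0 < μ) (h1 : μ ≤ ((2653 : ℕ) : ℝ) / (10000 : ℕ)) (h2 : μ < 1 / 2) :
    Filter.Tendsto (advantage 14 3 (-μ)) Filter.atTop (nhds 0) :=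
  advantage_of_geom h0 h2 (by positivity) (by norm_num) (reg_14_geom h0 h1 h2)

theorem reg_15_geom {μ : ℝ} (h0 : 0 < μ) (h1 : μ ≤ ((513 : ℕ) : ℝ) / (2000 : ℕ)) (h2 : μ < 1 / 2) (n : ℕ) :
    xx (lev 15 (-μ) n) ≤ 2 / 3 * (((((513 : ℕ) : ℝ) / (2000 : ℕ)) ^ 2 * (((3993530 : ℕ) : ℝ) / (263169 : ℕ)))) ^ n :=
  reg_instance (d := 15) (mn := 513) (md := 2000) (bn := 1819) (bd := 1000) (tn := 41) (td := 50)
    (D1 := 0) (D2 := 0) (k1 := 99) (yn := 54827) (yd := 1250000) (a1 := 3272603073707) (b1 := 3059576000000) (D := 3717500000000)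
    (kn := 3993530) (kd := 263169) (E := 28) (k2 := 701) (rad1 := [8, 8, 6, 6]) (rad2 := [44])
    (by norm_num) (by norm_num) (by norm_num) (by norm_num) (by norm_num)
    (by decide +kernel) (by decide +kernel)
    (by norm_num) (by norm_num) (by norm_num) h0 h1 h2 (muY_lt h0 h1 (by norm_num)) n

theorem reg_15 {μ : ℝ} (h0 : 0 < μ) (h1 : μ ≤ ((513 : ℕ) : ℝ) / (2000 : ℕ)) (h2 : μ < 1 / 2) :
    Filter.Tendsto (advantage 15 3 (-μ)) Filter.atTop (nhds 0) :=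
  advantage_of_geom h0 h2 (by positivity) (by norm_num) (reg_15_geom h0 h1 h2)

theorem reg_16_geom {μ : ℝ} (h0 : 0 < μ) (h1 : μ ≤ ((1243 : ℕ) : ℝ) / (5000 : ℕ)) (h2 : μ < 1 / 2) (n : ℕ) :
    xx (lev 16 (-μ) n) ≤ 2 / 3 * (((((1243 : ℕ) : ℝ) / (5000 : ℕ)) ^ 2 * (((24961050 : ℕ) : ℝ) / (1545049 : ℕ)))) ^ n :=
  reg_instance (d := 16) (mn := 1243) (md := 5000) (bn := 447) (bd := 250) (tn := 4) (td := 5)
    (D1 := 0) (D2 := 0) (k1 := 101) (yn := 6180211) (yd := 150000000) (a1 := 83546083431031) (b1 := 78474472500000) (D := 93925000000000)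
    (kn := 24961050) (kd := 1545049) (E := 24) (k2 := 813) (rad1 := [8, 8, 6, 6]) (rad2 := [41])
    (by norm_num) (by norm_num) (by norm_num) (by norm_num) (by norm_num)
    (by decide +kernel) (by decide +kernel)
    (by norm_num) (by norm_num) (by norm_num) h0 h1 h2 (muY_lt h0 h1 (by norm_num)) n

theorem reg_16 {μ : ℝ} (h0 : 0 < μ) (h1 : μ ≤ ((1243 : ℕ) : ℝ) / (5000 : ℕ)) (h2 : μ < 1 / 2) :
    Filter.Tendsto (advantage 16 3 (-μ)) Filter.atTop (nhds 0) :=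
  advantage_of_geom h0 h2 (by positivity) (by norm_num) (reg_16_geom h0 h1 h2)

theorem reg_17_geom {μ : ℝ} (h0 : 0 < μ) (h1 : μ ≤ ((2413 : ℕ) : ℝ) / (10000 : ℕ)) (h2 : μ < 1 / 2) (n : ℕ) :
    xx (lev 17 (-μ) n) ≤ 2 / 3 * (((((2413 : ℕ) : ℝ) / (10000 : ℕ)) ^ 2 * (((99815500 : ℕ) : ℝ) / (5822569 : ℕ)))) ^ n :=
  reg_instance (d := 17) (mn := 2413) (md := 10000) (bn := 1781) (bd := 1000) (tn := 79) (td := 100)
    (D1 := 0) (D2 := 0) (k1 := 112) (yn := 727823) (yd := 18750000) (a1 := 85002830287119) (b1 := 80281040000000) (D := 94837500000000)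
    (kn := 99815500) (kd := 5822569) (E := 15) (k2 := 858) (rad1 := [8, 8, 6, 6]) (rad2 := [33])
    (by norm_num) (by norm_num) (by norm_num) (by norm_num) (by norm_num)
    (by decide +kernel) (by decide +kernel)
    (by norm_num) (by norm_num) (by norm_num) h0 h1 h2 (muY_lt h0 h1 (by norm_num)) n

theorem reg_17 {μ : ℝ} (h0 : 0 < μ) (h1 : μ ≤ ((2413 : ℕ) : ℝ) / (10000 : ℕ)) (h2 : μ < 1 / 2) :
    Filter.Tendsto (advantage 17 3 (-μ)) Filter.atTop (nhds 0) :=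
  advantage_of_geom h0 h2 (by positivity) (by norm_num) (reg_17_geom h0 h1 h2)

theorem reg_18_geom {μ : ℝ} (h0 : 0 < μ) (h1 : μ ≤ ((2347 : ℕ) : ℝ) / (10000 : ℕ)) (h2 : μ < 1 / 2) (n : ℕ) :
    xx (lev 18 (-μ) n) ≤ 2 / 3 * (((((2347 : ℕ) : ℝ) / (10000 : ℕ)) ^ 2 * (((99833900 : ℕ) : ℝ) / (5508409 : ℕ)))) ^ n :=
  reg_instance (d := 18) (mn := 2347) (md := 10000) (bn := 1773) (bd := 1000) (tn := 39) (td := 50)
    (D1 := 0) (D2 := 0) (k1 := 111) (yn := 688553) (yd := 18750000) (a1 := 86319683398743) (b1 := 81891440000000) (D := 95662500000000)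
    (kn := 99833900) (kd := 5508409) (E := 16) (k2 := 906) (rad1 := [8, 8, 6, 6]) (rad2 := [35])
    (by norm_num) (by norm_num) (by norm_num) (by norm_num) (by norm_num)
    (by decide +kernel) (by decide +kernel)
    (by norm_num) (by norm_num) (by norm_num) h0 h1 h2 (muY_lt h0 h1 (by norm_num)) n

theorem reg_18 {μ : ℝ} (h0 : 0 < μ) (h1 : μ ≤ ((2347 : ℕ) : ℝ) / (10000 : ℕ)) (h2 : μ < 1 / 2) :
    Filter.Tendsto (advantage 18 3 (-μ)) Filter.atTop (nhds 0) :=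
  advantage_of_geom h0 h2 (by positivity) (by norm_num) (reg_18_geom h0 h1 h2)

theorem reg_19_geom {μ : ℝ} (h0 : 0 < μ) (h1 : μ ≤ ((457 : ℕ) : ℝ) / (2000 : ℕ)) (h2 : μ < 1 / 2) (n : ℕ) :
    xx (lev 19 (-μ) n) ≤ 2 / 3 * (((((457 : ℕ) : ℝ) / (2000 : ℕ)) ^ 2 * (((3992254 : ℕ) : ℝ) / (208849 : ℕ)))) ^ n :=
  reg_instance (d := 19) (mn := 457) (md := 2000) (bn := 1763) (bd := 1000) (tn := 77) (td := 100)
    (D1 := 0) (D2 := 0) (k1 := 100) (yn := 130531) (yd := 3750000) (a1 := 3502415345921) (b1 := 3335376000000) (D := 3857500000000)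
    (kn := 3992254) (kd := 208849) (E := 7) (k2 := 853) (rad1 := [8, 8, 6, 6]) (rad2 := [27])
    (by norm_num) (by norm_num) (by norm_num) (by norm_num) (by norm_num)
    (by decide +kernel) (by decide +kernel)
    (by norm_num) (by norm_num) (by norm_num) h0 h1 h2 (muY_lt h0 h1 (by norm_num)) n

theorem reg_19 {μ : ℝ} (h0 : 0 < μ) (h1 : μ ≤ ((457 : ℕ) : ℝ) / (2000 : ℕ)) (h2 : μ < 1 / 2) :
    Filter.Tendsto (advantage 19 3 (-μ)) Filter.atTop (nhds 0) :=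
  advantage_of_geom h0 h2 (by positivity) (by norm_num) (reg_19_geom h0 h1 h2)

theorem reg_20_geom {μ : ℝ} (h0 : 0 < μ) (h1 : μ ≤ ((557 : ℕ) : ℝ) / (2500 : ℕ)) (h2 : μ < 1 / 2) (n : ℕ) :
    xx (lev 20 (-μ) n) ≤ 2 / 3 * (((((557 : ℕ) : ℝ) / (2500 : ℕ)) ^ 2 * (((49900225 : ℕ) : ℝ) / (2481992 : ℕ)))) ^ n :=
  reg_instance (d := 20) (mn := 557) (md := 2500) (bn := 219) (bd := 125) (tn := 19) (td := 25)
    (D1 := 0) (D2 := 0) (k1 := 97) (yn := 4963999) (yd := 150000000) (a1 := 22175234037517) (b1 := 21185000625000) (D := 24287500000000)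
    (kn := 49900225) (kd := 2481992) (E := 5) (k2 := 948) (rad1 := [8, 8, 6, 6]) (rad2 := [26])
    (by norm_num) (by norm_num) (by norm_num) (by norm_num) (by norm_num)
    (by decide +kernel) (by decide +kernel)
    (by norm_num) (by norm_num) (by norm_num) h0 h1 h2 (muY_lt h0 h1 (by norm_num)) n

theorem reg_20 {μ : ℝ} (h0 : 0 < μ) (h1 : μ ≤ ((557 : ℕ) : ℝ) / (2500 : ℕ)) (h2 : μ < 1 / 2) :
    Filter.Tendsto (advantage 20 3 (-μ)) Filter.atTop (nhds 0) :=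
  advantage_of_geom h0 h2 (by positivity) (by norm_num) (reg_20_geom h0 h1 h2)

theorem reg_21_geom {μ : ℝ} (h0 : 0 < μ) (h1 : μ ≤ ((87 : ℕ) : ℝ) / (400 : ℕ)) (h2 : μ < 1 / 2) (n : ℕ) :
    xx (lev 21 (-μ) n) ≤ 2 / 3 * (((((87 : ℕ) : ℝ) / (400 : ℕ)) ^ 2 * (((3991834 : ℕ) : ℝ) / (189225 : ℕ)))) ^ n :=
  reg_instance (d := 21) (mn := 87) (md := 400) (bn := 87) (bd := 50) (tn := 3) (td := 4)
    (D1 := 0) (D2 := 0) (k1 := 80) (yn := 19711) (yd := 625000) (a1 := 17952249277) (b1 := 17197180000) (D := 19562500000)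
    (kn := 3991834) (kd := 189225) (E := 0) (k2 := 767) (rad1 := [8, 8, 6, 6]) (rad2 := [22])
    (by norm_num) (by norm_num) (by norm_num) (by norm_num) (by norm_num)
    (by decide +kernel) (by decide +kernel)
    (by norm_num) (by norm_num) (by norm_num) h0 h1 h2 (muY_lt h0 h1 (by norm_num)) n

theorem reg_21 {μ : ℝ} (h0 : 0 < μ) (h1 : μ ≤ ((87 : ℕ) : ℝ) / (400 : ℕ)) (h2 : μ < 1 / 2) :
    Filter.Tendsto (advantage 21 3 (-μ)) Filter.atTop (nhds 0) :=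
  advantage_of_geom h0 h2 (by positivity) (by norm_num) (reg_21_geom h0 h1 h2)

theorem reg_22_geom {μ : ℝ} (h0 : 0 < μ) (h1 : μ ≤ ((1063 : ℕ) : ℝ) / (5000 : ℕ)) (h2 : μ < 1 / 2) (n : ℕ) :
    xx (lev 22 (-μ) n) ≤ 2 / 3 * (((((1063 : ℕ) : ℝ) / (5000 : ℕ)) ^ 2 * (((49907375 : ℕ) : ℝ) / (2259938 : ℕ)))) ^ n :=
  reg_instance (d := 22) (mn := 1063) (md := 5000) (bn := 863) (bd := 500) (tn := 37) (td := 50)
    (D1 := 0) (D2 := 0) (k1 := 105) (yn := 4519891) (yd := 150000000) (a1 := 181493078221779) (b1 := 174250545000000) (D := 196850000000000)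
    (kn := 49907375) (kd := 2259938) (E := 0) (k2 := 1102) (rad1 := [8, 8, 6, 6]) (rad2 := [23])
    (by norm_num) (by norm_num) (by norm_num) (by norm_num) (by norm_num)
    (by decide +kernel) (by decide +kernel)
    (by norm_num) (by norm_num) (by norm_num) h0 h1 h2 (muY_lt h0 h1 (by norm_num)) n

theorem reg_22 {μ : ℝ} (h0 : 0 < μ) (h1 : μ ≤ ((1063 : ℕ) : ℝ) / (5000 : ℕ)) (h2 : μ < 1 / 2) :
    Filter.Tendsto (advantage 22 3 (-μ)) Filter.atTop (nhds 0) :=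
  advantage_of_geom h0 h2 (by positivity) (by norm_num) (reg_22_geom h0 h1 h2)

theorem reg_23_geom {μ : ℝ} (h0 : 0 < μ) (h1 : μ ≤ ((26 : ℕ) : ℝ) / (125 : ℕ)) (h2 : μ < 1 / 2) (n : ℕ) :
    xx (lev 23 (-μ) n) ≤ 2 / 3 * (((((26 : ℕ) : ℝ) / (125 : ℕ)) ^ 2 * (((249557 : ℕ) : ℝ) / (10816 : ℕ)))) ^ n :=
  reg_instance (d := 23) (mn := 26) (md := 125) (bn := 1739) (bd := 1000) (tn := 37) (td := 50)
    (D1 := 0) (D2 := 0) (k1 := 79) (yn := 865283) (yd := 30000000) (a1 := 1831032013437) (b1 := 1763679250000) (D := 1980000000000)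
    (kn := 249557) (kd := 10816) (E := 0) (k2 := 990) (rad1 := [8, 8, 6, 6]) (rad2 := [24])
    (by norm_num) (by norm_num) (by norm_num) (by norm_num) (by norm_num)
    (by decide +kernel) (by decide +kernel)
    (by norm_num) (by norm_num) (by norm_num) h0 h1 h2 (muY_lt h0 h1 (by norm_num)) n

theorem reg_23 {μ : ℝ} (h0 : 0 < μ) (h1 : μ ≤ ((26 : ℕ) : ℝ) / (125 : ℕ)) (h2 : μ < 1 / 2) :
    Filter.Tendsto (advantage 23 3 (-μ)) Filter.atTop (nhds 0) :=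
  advantage_of_geom h0 h2 (by positivity) (by norm_num) (reg_23_geom h0 h1 h2)

theorem reg_24_geom {μ : ℝ} (h0 : 0 < μ) (h1 : μ ≤ ((509 : ℕ) : ℝ) / (2500 : ℕ)) (h2 : μ < 1 / 2) (n : ℕ) :
    xx (lev 24 (-μ) n) ≤ 2 / 3 * (((((509 : ℕ) : ℝ) / (2500 : ℕ)) ^ 2 * (((49896925 : ℕ) : ℝ) / (2072648 : ℕ)))) ^ n :=
  reg_instance (d := 24) (mn := 509) (md := 2500) (bn := 431) (bd := 250) (tn := 73) (td := 100)
    (D1 := 0) (D2 := 0) (k1 := 100) (yn := 4145311) (yd := 150000000) (a1 := 46217821579369) (b1 := 44593361250000) (D := 49775000000000)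
    (kn := 49896925) (kd := 2072648) (E := 0) (k2 := 1152) (rad1 := [8, 8, 6, 6]) (rad2 := [25])
    (by norm_num) (by norm_num) (by norm_num) (by norm_num) (by norm_num)
    (by decide +kernel) (by decide +kernel)
    (by norm_num) (by norm_num) (by norm_num) h0 h1 h2 (muY_lt h0 h1 (by norm_num)) n

theorem reg_24 {μ : ℝ} (h0 : 0 < μ) (h1 : μ ≤ ((509 : ℕ) : ℝ) / (2500 : ℕ)) (h2 : μ < 1 / 2) :
    Filter.Tendsto (advantage 24 3 (-μ)) Filter.atTop (nhds 0) :=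
  advantage_of_geom h0 h2 (by positivity) (by norm_num) (reg_24_geom h0 h1 h2)

theorem reg_25_geom {μ : ℝ} (h0 : 0 < μ) (h1 : μ ≤ ((499 : ℕ) : ℝ) / (2500 : ℕ)) (h2 : μ < 1 / 2) (n : ℕ) :
    xx (lev 25 (-μ) n) ≤ 2 / 3 * (((((499 : ℕ) : ℝ) / (2500 : ℕ)) ^ 2 * (((99836799 : ℕ) : ℝ) / (3984016 : ℕ)))) ^ n :=
  reg_instance (d := 25) (mn := 499) (md := 2500) (bn := 1707) (bd := 1000) (tn := 18) (td := 25)
    (D1 := 0) (D2 := 0) (k1 := 100) (yn := 3984031) (yd := 150000000) (a1 := 186491717425083) (b1 := 180179845000000) (D := 200100000000000)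
    (kn := 99836799) (kd := 3984016) (E := 0) (k2 := 1248) (rad1 := [8, 8, 6, 6]) (rad2 := [26])
    (by norm_num) (by norm_num) (by norm_num) (by norm_num) (by norm_num)
    (by decide +kernel) (by decide +kernel)
    (by norm_num) (by norm_num) (by norm_num) h0 h1 h2 (muY_lt h0 h1 (by norm_num)) n

theorem reg_25 {μ : ℝ} (h0 : 0 < μ) (h1 : μ ≤ ((499 : ℕ) : ℝ) / (2500 : ℕ)) (h2 : μ < 1 / 2) :
    Filter.Tendsto (advantage 25 3 (-μ)) Filter.atTop (nhds 0) :=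
  advantage_of_geom h0 h2 (by positivity) (by norm_num) (reg_25_geom h0 h1 h2)

theorem reg_26_geom {μ : ℝ} (h0 : 0 < μ) (h1 : μ ≤ ((1957 : ℕ) : ℝ) / (10000 : ℕ)) (h2 : μ < 1 / 2) (n : ℕ) :
    xx (lev 26 (-μ) n) ≤ 2 / 3 * (((((1957 : ℕ) : ℝ) / (10000 : ℕ)) ^ 2 * (((99810850 : ℕ) : ℝ) / (3829849 : ℕ)))) ^ n :=
  reg_instance (d := 26) (mn := 1957) (md := 10000) (bn := 859) (bd := 500) (tn := 18) (td := 25)
    (D1 := 0) (D2 := 0) (k1 := 109) (yn := 478733) (yd := 18750000) (a1 := 46961213863179) (b1 := 45481420000000) (D := 50268750000000)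
    (kn := 99810850) (kd := 3829849) (E := 0) (k2 := 1244) (rad1 := [8, 8, 6, 6]) (rad2 := [27])
    (by norm_num) (by norm_num) (by norm_num) (by norm_num) (by norm_num)
    (by decide +kernel) (by decide +kernel)
    (by norm_num) (by norm_num) (by norm_num) h0 h1 h2 (muY_lt h0 h1 (by norm_num)) n

theorem reg_26 {μ : ℝ} (h0 : 0 < μ) (h1 : μ ≤ ((1957 : ℕ) : ℝ) / (10000 : ℕ)) (h2 : μ < 1 / 2) :
    Filter.Tendsto (advantage 26 3 (-μ)) Filter.atTop (nhds 0) :=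
  advantage_of_geom h0 h2 (by positivity) (by norm_num) (reg_26_geom h0 h1 h2)

theorem reg_27_geom {μ : ℝ} (h0 : 0 < μ) (h1 : μ ≤ ((1921 : ℕ) : ℝ) / (10000 : ℕ)) (h2 : μ < 1 / 2) (n : ℕ) :
    xx (lev 27 (-μ) n) ≤ 2 / 3 * (((((1921 : ℕ) : ℝ) / (10000 : ℕ)) ^ 2 * (((99835700 : ℕ) : ℝ) / (3690241 : ℕ)))) ^ n :=
  reg_instance (d := 27) (mn := 1921) (md := 10000) (bn := 339) (bd := 200) (tn := 71) (td := 100)
    (D1 := 0) (D2 := 0) (k1 := 110) (yn := 230641) (yd := 9375000) (a1 := 9467074811379) (b1 := 9176186000000) (D := 10098750000000)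
    (kn := 99835700) (kd := 3690241) (E := 0) (k2 := 1230) (rad1 := [8, 8, 6, 6]) (rad2 := [28])
    (by norm_num) (by norm_num) (by norm_num) (by norm_num) (by norm_num)
    (by decide +kernel) (by decide +kernel)
    (by norm_num) (by norm_num) (by norm_num) h0 h1 h2 (muY_lt h0 h1 (by norm_num)) n

theorem reg_27 {μ : ℝ} (h0 : 0 < μ) (h1 : μ ≤ ((1921 : ℕ) : ℝ) / (10000 : ℕ)) (h2 : μ < 1 / 2) :
    Filter.Tendsto (advantage 27 3 (-μ)) Filter.atTop (nhds 0) :=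
  advantage_of_geom h0 h2 (by positivity) (by norm_num) (reg_27_geom h0 h1 h2)

theorem reg_28_geom {μ : ℝ} (h0 : 0 < μ) (h1 : μ ≤ ((1887 : ℕ) : ℝ) / (10000 : ℕ)) (h2 : μ < 1 / 2) (n : ℕ) :
    xx (lev 28 (-μ) n) ≤ 2 / 3 * (((((1887 : ℕ) : ℝ) / (10000 : ℕ)) ^ 2 * (((11095550 : ℕ) : ℝ) / (395641 : ℕ)))) ^ n :=
  reg_instance (d := 28) (mn := 1887) (md := 10000) (bn := 341) (bd := 200) (tn := 71) (td := 100)
    (D1 := 0) (D2 := 0) (k1 := 110) (yn := 74183) (yd := 3125000) (a1 := 9525560847383) (b1 := 9251054000000) (D := 10141250000000)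
    (kn := 11095550) (kd := 395641) (E := 0) (k2 := 1272) (rad1 := [8, 8, 6, 6]) (rad2 := [29])
    (by norm_num) (by norm_num) (by norm_num) (by norm_num) (by norm_num)
    (by decide +kernel) (by decide +kernel)
    (by norm_num) (by norm_num) (by norm_num) h0 h1 h2 (muY_lt h0 h1 (by norm_num)) n

theorem reg_28 {μ : ℝ} (h0 : 0 < μ) (h1 : μ ≤ ((1887 : ℕ) : ℝ) / (10000 : ℕ)) (h2 : μ < 1 / 2) :
    Filter.Tendsto (advantage 28 3 (-μ)) Filter.atTop (nhds 0) :=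
  advantage_of_geom h0 h2 (by positivity) (by norm_num) (reg_28_geom h0 h1 h2)

theorem reg_29_geom {μ : ℝ} (h0 : 0 < μ) (h1 : μ ≤ ((927 : ℕ) : ℝ) / (5000 : ℕ)) (h2 : μ < 1 / 2) (n : ℕ) :
    xx (lev 29 (-μ) n) ≤ 2 / 3 * (((((927 : ℕ) : ℝ) / (5000 : ℕ)) ^ 2 * (((49923175 : ℕ) : ℝ) / (1718658 : ℕ)))) ^ n :=
  reg_instance (d := 29) (mn := 927) (md := 5000) (bn := 1709) (bd := 1000) (tn := 71) (td := 100)
    (D1 := 0) (D2 := 0) (k1 := 107) (yn := 1145777) (yd := 50000000) (a1 := 383373574180433) (b1 := 372926690000000) (D := 407300000000000)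
    (kn := 49923175) (kd := 1718658) (E := 0) (k2 := 1472) (rad1 := [8, 8, 6, 6]) (rad2 := [30])
    (by norm_num) (by norm_num) (by norm_num) (by norm_num) (by norm_num)
    (by decide +kernel) (by decide +kernel)
    (by norm_num) (by norm_num) (by norm_num) h0 h1 h2 (muY_lt h0 h1 (by norm_num)) n

theorem reg_29 {μ : ℝ} (h0 : 0 < μ) (h1 : μ ≤ ((927 : ℕ) : ℝ) / (5000 : ℕ)) (h2 : μ < 1 / 2) :
    Filter.Tendsto (advantage 29 3 (-μ)) Filter.atTop (nhds 0) :=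
  advantage_of_geom h0 h2 (by positivity) (by norm_num) (reg_29_geom h0 h1 h2)

theorem reg_30_geom {μ : ℝ} (h0 : 0 < μ) (h1 : μ ≤ ((1823 : ℕ) : ℝ) / (10000 : ℕ)) (h2 : μ < 1 / 2) (n : ℕ) :
    xx (lev 30 (-μ) n) ≤ 2 / 3 * (((((1823 : ℕ) : ℝ) / (10000 : ℕ)) ^ 2 * (((99852150 : ℕ) : ℝ) / (3323329 : ℕ)))) ^ n :=
  reg_instance (d := 30) (mn := 1823) (md := 10000) (bn := 169) (bd := 100) (tn := 7) (td := 10)
    (D1 := 0) (D2 := 0) (k1 := 105) (yn := 207709) (yd := 9375000) (a1 := 4823589232683) (b1 := 4695207000000) (D := 5110625000000)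
    (kn := 99852150) (kd := 3323329) (E := 0) (k2 := 1330) (rad1 := [8, 8, 6, 6]) (rad2 := [31])
    (by norm_num) (by norm_num) (by norm_num) (by norm_num) (by norm_num)
    (by decide +kernel) (by decide +kernel)
    (by norm_num) (by norm_num) (by norm_num) h0 h1 h2 (muY_lt h0 h1 (by norm_num)) n

theorem reg_30 {μ : ℝ} (h0 : 0 < μ) (h1 : μ ≤ ((1823 : ℕ) : ℝ) / (10000 : ℕ)) (h2 : μ < 1 / 2) :
    Filter.Tendsto (advantage 30 3 (-μ)) Filter.atTop (nhds 0) :=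
  advantage_of_geom h0 h2 (by positivity) (by norm_num) (reg_30_geom h0 h1 h2)

end Vale.Agent.Lib.P154
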