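import Vale.Agent.Lib.P154.Cert1
import Vale.Agent.Lib.P154.Cert2

/-!
Pointwise inequalities for the three-state Potts recursion.
-/

noncomputable section

namespace Vale.Agent.Lib.P154

/-- The functional `F = (a² + b² + c²) / (a + b + c)`. -/
def F3 (a b c : ℝ) : ℝ := (a ^ 2 + b ^ 2 + c ^ 2) / (a + b + c)

/-- The functional `K = a b c / (a b + b c + c a)`. -/
def K3 (a b c : ℝ) : ℝ := (a * b * c) / (a * b + b * c + c * a)

def A3 (a b c : ℝ) : ℝ := 1 - 3 * (a * b + b * c + c * a)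

def C3 (a b c : ℝ) : ℝ := 27 * (a * b * c) - 1 + 3 * A3 a b c

/-- The invariant `g`. -/
def gg (A C : ℝ) : ℝ := (C - 2 * A ^ 2) / (1 - A)

/-- The quantity `Y`. -/
def YY (A1 C1 A2 C2 : ℝ) : ℝ := 1 - A1 - A2 + (A2 * gg A1 C1 + A1 * gg A2 C2) / 2

theorem A3_lt_one {a b c : ℝ} (ha : 0 < a) (hb : 0 < b) (hc : 0 < c) : A3 a b c < 1 := by
  unfold A3
  have : 0 < a * b + b * c + c * a := by positivity
  linarith

theorem cyc_identity (a b c p q r : ℝ) (hs : a + b + c = 1) (hs' : p + q + r = 1) :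
    (a ^ 2 * p ^ 2 + b ^ 2 * q ^ 2 + c ^ 2 * r ^ 2) * (a * q + b * r + c * p) * (a * r + b * p + c * q)
    + (a ^ 2 * q ^ 2 + b ^ 2 * r ^ 2 + c ^ 2 * p ^ 2) * (a * p + b * q + c * r) * (a * r + b * p + c * q)
    + (a ^ 2 * r ^ 2 + b ^ 2 * p ^ 2 + c ^ 2 * q ^ 2) * (a * p + b * q + c * r) * (a * q + b * r + c * p)
    = (a * p + b * q + c * r) * (a * q + b * r + c * p) * (a * r + b * p + c * q)
      - (2 / 81) * polyJ (A3 a b c) (C3 a b c) (A3 p q r) (C3 p q r) := by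
  have hc : c = 1 - a - b := by linarith
  have hr : r = 1 - p - q := by linarith
  subst hc hr
  unfold polyJ C3 A3
  ring

theorem W_add_W' (a b c p q r : ℝ) (hs : a + b + c = 1) (hs' : p + q + r = 1) :
    27 * ((a * p + b * q + c * r) * (a * q + b * r + c * p) * (a * r + b * p + c * q))
    + 27 * ((a * p + b * r + c * q) * (a * r + b * q + c * p) * (a * q + b * p + c * r))
    = 2 * polyX (A3 a b c) (C3 a b c) (A3 p q r) (C3 p q r) := by
  have hc : c = 1 - a - b := by linarith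
  have hr : r = 1 - p - q := by linarith
  subst hc hr
  unfold polyX C3 A3
  ring



/-- Three terms of the cyclic class. -/
theorem cyc_sum_aux (n1 n2 n3 l1 l2 l3 J : ℝ) (h1 : 0 < l1) (h2 : 0 < l2) (h3 : 0 < l3)
    (key : n1 * l2 * l3 + n2 * l1 * l3 + n3 * l1 * l2 = l1 * l2 * l3 - (2 / 81) * J) :
    n1 / l1 + n2 / l2 + n3 / l3 = 1 - (2 / 3) * J / (27 * (l1 * l2 * l3)) := by
  field_simp
  linear_combination (81 : ℝ) * key

theorem cyc_sum (a b c p q r : ℝ) (hs : a + b + c = 1) (hs' : p + q + r = 1)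
    (L1 : 0 < a * p + b * q + c * r) (L2 : 0 < a * q + b * r + c * p) (L3 : 0 < a * r + b * p + c * q) :
    F3 (a * p) (b * q) (c * r) + F3 (a * q) (b * r) (c * p) + F3 (a * r) (b * p) (c * q)
    = 1 - (2 / 3) * polyJ (A3 a b c) (C3 a b c) (A3 p q r) (C3 p q r)
        / (27 * ((a * p + b * q + c * r) * (a * q + b * r + c * p) * (a * r + b * p + c * q))) := by
  have key := cyc_identity a b c p q r hs hs'
  have h := cyc_sum_aux _ _ _ _ _ _ _ L1 L2 L3 key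
  rw [← h]
  unfold F3
  have e : (a * p) ^ 2 + (b * q) ^ 2 + (c * r) ^ 2 = a ^ 2 * p ^ 2 + b ^ 2 * q ^ 2 + c ^ 2 * r ^ 2 := by ring
  have e2 : (a * q) ^ 2 + (b * r) ^ 2 + (c * p) ^ 2 = a ^ 2 * q ^ 2 + b ^ 2 * r ^ 2 + c ^ 2 * p ^ 2 := by ring
  have e3 : (a * r) ^ 2 + (b * p) ^ 2 + (c * q) ^ 2 = a ^ 2 * r ^ 2 + b ^ 2 * p ^ 2 + c ^ 2 * q ^ 2 := by ring
  rw [e, e2, e3]

/-- `T ≤ L`. -/
theorem F3_mul_le {x y z : ℝ} (hx : 0 ≤ x) (hy : 0 ≤ y) (hz : 0 ≤ z) (h : 0 < x + y + z) :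
    F3 x y z ≤ x + y + z := by
  unfold F3
  rw [div_le_iff₀ h]
  nlinarith [mul_nonneg hx hy, mul_nonneg hy hz, mul_nonneg hx hz]

/-- Abstract arithmetic step: harmonic-mean estimate. -/
theorem hm_step (W W' X J Z : ℝ) (W0 : 0 < W) (W'0 : 0 < W') (hWW : W + W' = 2 * X) (hJ0 : 0 ≤ J)
    (hZ : Z * X ≤ J) : (4 / 3) * Z ≤ (2 / 3) * J / W + (2 / 3) * J / W' := by
  have X0 : 0 < X := by linarith
  have hH : 2 / X ≤ 1 / W + 1 / W' := by
    have hXe : X = (W + W') / 2 := by linarith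
    rw [hXe, div_add_div _ _ W0.ne' W'0.ne', div_le_div_iff₀ (by positivity) (by positivity)]
    nlinarith [sq_nonneg (W - W')]
  have hZ' : Z ≤ J / X := by
    rw [le_div_iff₀ X0]; exact hZ
  have e1 : (2 / 3) * J / W + (2 / 3) * J / W' = (2 / 3) * J * (1 / W + 1 / W') := by
    field_simp
  have e2 : (4 / 3) * (J / X) = (2 / 3) * J * (2 / X) := by field_simp; ring
  have h3 : (2 / 3) * J * (2 / X) ≤ (2 / 3) * J * (1 / W + 1 / W') :=
    mul_le_mul_of_nonneg_left hH (by positivity)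
  rw [e1]
  have h4 : (4 / 3) * Z ≤ (4 / 3) * (J / X) := by linarith
  linarith

theorem J_nonneg_aux (T1 T2 T3 l1 l2 l3 J W : ℝ) (W0 : 0 < W)
    (t1 : T1 ≤ l1) (t2 : T2 ≤ l2) (t3 : T3 ≤ l3) (hl : l1 + l2 + l3 = 1)
    (c1 : T1 + T2 + T3 = 1 - (2 / 3) * J / W) : 0 ≤ J := by
  have h0 : 0 ≤ (2 / 3) * J / W := by linarith
  by_contra hneg
  push Not at hneg
  have : (2 / 3) * J / W < 0 := div_neg_of_neg_of_pos (by linarith) W0
  linarith

/-- Main normalized inequality: if `Z X ≤ J`, then the six-term sum is at most `2 - (4/3) Z`. -/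
theorem core_norm (a b c p q r Z : ℝ) (ha : 0 < a) (hb : 0 < b) (hc : 0 < c)
    (hp : 0 < p) (hq : 0 < q) (hr : 0 < r) (hs : a + b + c = 1) (hs' : p + q + r = 1)
    (hZ : Z * polyX (A3 a b c) (C3 a b c) (A3 p q r) (C3 p q r)
      ≤ polyJ (A3 a b c) (C3 a b c) (A3 p q r) (C3 p q r)) :
    F3 (a * p) (b * q) (c * r) + F3 (a * q) (b * r) (c * p) + F3 (a * r) (b * p) (c * q)
    + (F3 (a * p) (b * r) (c * q) + F3 (a * r) (b * q) (c * p) + F3 (a * q) (b * p) (c * r))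
    ≤ 2 - (4 / 3) * Z := by
  have L1 : 0 < a * p + b * q + c * r := by positivity
  have L2 : 0 < a * q + b * r + c * p := by positivity
  have L3 : 0 < a * r + b * p + c * q := by positivity
  have L4 : 0 < a * p + b * r + c * q := by positivity
  have L5 : 0 < a * r + b * q + c * p := by positivity
  have L6 : 0 < a * q + b * p + c * r := by positivity
  have c1 := cyc_sum a b c p q r hs hs' L1 L2 L3
  -- second class: apply the first with `(p, r, q)`.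
  have c2 := cyc_sum a b c p r q hs (by linarith) L4 L5 L6
  have hA : A3 p r q = A3 p q r := by unfold A3; ring
  have hC : C3 p r q = C3 p q r := by unfold C3 A3; ring
  rw [hA, hC] at c2
  have hWW := W_add_W' a b c p q r hs hs'
  have W0 : 0 < 27 * ((a * p + b * q + c * r) * (a * q + b * r + c * p) * (a * r + b * p + c * q)) := by
    positivity
  have W'0 : 0 < 27 * ((a * p + b * r + c * q) * (a * r + b * q + c * p) * (a * q + b * p + c * r)) := by
    positivity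
  have t1 := F3_mul_le (x := a * p) (y := b * q) (z := c * r) (by positivity) (by positivity) (by positivity) L1
  have t2 := F3_mul_le (x := a * q) (y := b * r) (z := c * p) (by positivity) (by positivity) (by positivity) L2
  have t3 := F3_mul_le (x := a * r) (y := b * p) (z := c * q) (by positivity) (by positivity) (by positivity) L3
  have sumL : (a * p + b * q + c * r) + (a * q + b * r + c * p) + (a * r + b * p + c * q) = 1 := by
    have : (a + b + c) * (p + q + r) = 1 := by rw [hs, hs']; ring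
    linarith
  have hJ0 := J_nonneg_aux _ _ _ _ _ _ _ _ W0 t1 t2 t3 sumL c1
  have hm := hm_step _ _ _ _ Z W0 W'0 hWW hJ0 hZ
  rw [c1, c2]
  linarith

/-! ### Chamber coordinates -/

theorem chamber_sorted (a b c : ℝ) (hab : b ≤ a) (hbc : c ≤ b) (hc : 0 ≤ c) (hs : a + b + c = 1) :
    ∃ t0 t1 t2 : ℝ, 0 ≤ t0 ∧ 0 ≤ t1 ∧ 0 ≤ t2 ∧ t0 + t1 + t2 = 1 ∧
      A3 a b c = achi t1 t2 ∧ C3 a b c = cchi t1 t2 := by
  refine ⟨3 * c, 2 * (b - c), a - b, by linarith, by linarith, by linarith, by linarith, ?_, ?_⟩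
  · have hc' : c = 1 - a - b := by linarith
    subst hc'
    unfold A3 achi
    ring
  · have hc' : c = 1 - a - b := by linarith
    subst hc'
    unfold C3 A3 cchi
    ring

theorem A3_swap1 (a b c : ℝ) : A3 a b c = A3 b a c := by unfold A3; ring
theorem A3_swap2 (a b c : ℝ) : A3 a b c = A3 a c b := by unfold A3; ring
theorem C3_swap1 (a b c : ℝ) : C3 a b c = C3 b a c := by unfold C3 A3; ring
theorem C3_swap2 (a b c : ℝ) : C3 a b c = C3 a c b := by unfold C3 A3; ring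

theorem chamber (a b c : ℝ) (ha : 0 ≤ a) (hb : 0 ≤ b) (hc : 0 ≤ c) (hs : a + b + c = 1) :
    ∃ t0 t1 t2 : ℝ, 0 ≤ t0 ∧ 0 ≤ t1 ∧ 0 ≤ t2 ∧ t0 + t1 + t2 = 1 ∧
      A3 a b c = achi t1 t2 ∧ C3 a b c = cchi t1 t2 := by
  rcases le_total a b with h1 | h1 <;> rcases le_total b c with h2 | h2 <;>
    rcases le_total a c with h3 | h3
  · -- a ≤ b ≤ c : sorted c b a
    rw [A3_swap1 a b c, A3_swap2 b a c, A3_swap1 b c a, C3_swap1 a b c, C3_swap2 b a c, C3_swap1 b c a]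
    exact chamber_sorted c b a h2 h1 ha (by linarith)
  · rw [A3_swap1 a b c, A3_swap2 b a c, A3_swap1 b c a, C3_swap1 a b c, C3_swap2 b a c, C3_swap1 b c a]
    exact chamber_sorted c b a h2 h1 ha (by linarith)
  · -- a ≤ b, c ≤ b, a ≤ c : sorted b c a
    rw [A3_swap1 a b c, A3_swap2 b a c, C3_swap1 a b c, C3_swap2 b a c]
    exact chamber_sorted b c a h2 h3 ha (by linarith)
  · -- a ≤ b, c ≤ b, c ≤ a : sorted b a c
    rw [A3_swap1 a b c, C3_swap1 a b c]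
    exact chamber_sorted b a c h1 h3 hc (by linarith)
  · -- b ≤ a, b ≤ c, a ≤ c : sorted c a b
    rw [A3_swap2 a b c, A3_swap1 a c b, C3_swap2 a b c, C3_swap1 a c b]
    exact chamber_sorted c a b h3 h1 hb (by linarith)
  · -- b ≤ a, b ≤ c, c ≤ a : sorted a c b
    rw [A3_swap2 a b c, C3_swap2 a b c]
    exact chamber_sorted a c b h3 h2 hb (by linarith)
  · -- b ≤ a, c ≤ b, a ≤ c
    exact chamber_sorted a b c h1 h2 hc hs
  · exact chamber_sorted a b c h1 h2 hc hs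

theorem A3_flat (a b c : ℝ) (hs : a + b + c = 1) :
    A3 a b c = (9 / 16) * A3 (4 / 3 * a - 1 / 9) (4 / 3 * b - 1 / 9) (4 / 3 * c - 1 / 9) := by
  have hc' : c = 1 - a - b := by linarith
  subst hc'
  unfold A3
  ring

theorem C3_flat (a b c : ℝ) (hs : a + b + c = 1) :
    C3 a b c = (27 / 64) * C3 (4 / 3 * a - 1 / 9) (4 / 3 * b - 1 / 9) (4 / 3 * c - 1 / 9) := by
  have hc' : c = 1 - a - b := by linarith
  subst hc'
  unfold C3 A3
  ring

/-- Chamber coordinates for a flat point. -/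
theorem chamber_flat (a b c : ℝ) (ha : 1 / 12 ≤ a) (hb : 1 / 12 ≤ b) (hc : 1 / 12 ≤ c) (hs : a + b + c = 1) :
    ∃ t0 t1 t2 : ℝ, 0 ≤ t0 ∧ 0 ≤ t1 ∧ 0 ≤ t2 ∧ t0 + t1 + t2 = 1 ∧
      A3 a b c = (9 / 16) * achi t1 t2 ∧ C3 a b c = (27 / 64) * cchi t1 t2 := by
  obtain ⟨t0, t1, t2, h0, h1, h2, hst, hA, hC⟩ :=
    chamber (4 / 3 * a - 1 / 9) (4 / 3 * b - 1 / 9) (4 / 3 * c - 1 / 9)
      (by linarith) (by linarith) (by linarith) (by linarith)
  exact ⟨t0, t1, t2, h0, h1, h2, hst, by rw [A3_flat a b c hs, hA], by rw [C3_flat a b c hs, hC]⟩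

/-- The certified inequality for one arbitrary and one flat point. -/
theorem polyR_nonneg (a b c p q r : ℝ) (ha : 0 ≤ a) (hb : 0 ≤ b) (hc : 0 ≤ c) (hs : a + b + c = 1)
    (hp : 1 / 12 ≤ p) (hq : 1 / 12 ≤ q) (hr : 1 / 12 ≤ r) (hs' : p + q + r = 1) :
    0 ≤ polyR (A3 a b c) (C3 a b c) (A3 p q r) (C3 p q r) := by
  obtain ⟨t0, t1, t2, h0, h1, h2, hst, hA, hC⟩ := chamber a b c ha hb hc hs
  obtain ⟨s0, s1, s2, k0, k1, k2, hss, hA', hC'⟩ := chamber_flat p q r hp hq hr hs'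
  have := Cert1.nonneg t0 t1 t2 s0 s1 s2 h0 h1 h2 hst k0 k1 k2 hss
  rw [hA, hC, hA', hC']
  simpa only [one_mul] using this

/-- The certified inequality, with margin, for two flat points. -/
theorem polyS_nonneg (a b c p q r : ℝ) (ha : 1 / 12 ≤ a) (hb : 1 / 12 ≤ b) (hc : 1 / 12 ≤ c)
    (hs : a + b + c = 1)
    (hp : 1 / 12 ≤ p) (hq : 1 / 12 ≤ q) (hr : 1 / 12 ≤ r) (hs' : p + q + r = 1) :
    0 ≤ polyS (A3 a b c) (C3 a b c) (A3 p q r) (C3 p q r) := by
  obtain ⟨t0, t1, t2, h0, h1, h2, hst, hA, hC⟩ := chamber_flat a b c ha hb hc hs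
  obtain ⟨s0, s1, s2, k0, k1, k2, hss, hA', hC'⟩ := chamber_flat p q r hp hq hr hs'
  have := Cert2.nonneg t0 t1 t2 s0 s1 s2 h0 h1 h2 hst k0 k1 k2 hss
  rw [hA, hC, hA', hC']
  exact this

end Vale.Agent.Lib.P154
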