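import Vale.Agent.Lib.P154.Point

/-!
Homogeneous forms of the pointwise inequalities for the three-state Potts recursion.
-/

noncomputable section

namespace Vale.Agent.Lib.P154

theorem polyY_eq (A1 C1 A2 C2 : ℝ) (h1 : A1 < 1) (h2 : A2 < 1) :
    polyY A1 C1 A2 C2 = (1 - A1) * (1 - A2) * YY A1 C1 A2 C2 := by
  have h1' : 1 - A1 ≠ 0 := by intro h0; linarith
  have h2' : 1 - A2 ≠ 0 := by intro h0; linarith
  unfold polyY YY gg
  field_simp

theorem YY_mul_le (A1 C1 A2 C2 : ℝ) (h1 : A1 < 1) (h2 : A2 < 1)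
    (hR : 0 ≤ polyR A1 C1 A2 C2) :
    YY A1 C1 A2 C2 * polyX A1 C1 A2 C2 ≤ polyJ A1 C1 A2 C2 := by
  unfold polyR at hR
  rw [polyY_eq A1 C1 A2 C2 h1 h2] at hR
  have hu : 0 < (1 - A1) * (1 - A2) := mul_pos (by linarith) (by linarith)
  have : (1 - A1) * (1 - A2) * (YY A1 C1 A2 C2 * polyX A1 C1 A2 C2)
      ≤ (1 - A1) * (1 - A2) * polyJ A1 C1 A2 C2 := by linarith
  exact le_of_mul_le_mul_left this hu

theorem YY_margin_mul_le (A1 C1 A2 C2 : ℝ) (h1 : A1 < 1) (h2 : A2 < 1)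
    (hS : 0 ≤ polyS A1 C1 A2 C2) :
    (YY A1 C1 A2 C2 + A1 * A2 / 10) * polyX A1 C1 A2 C2 ≤ polyJ A1 C1 A2 C2 := by
  unfold polyS polyR at hS
  rw [polyY_eq A1 C1 A2 C2 h1 h2] at hS
  have hu : 0 < (1 - A1) * (1 - A2) := mul_pos (by linarith) (by linarith)
  have : (1 - A1) * (1 - A2) * ((YY A1 C1 A2 C2 + A1 * A2 / 10) * polyX A1 C1 A2 C2)
      ≤ (1 - A1) * (1 - A2) * polyJ A1 C1 A2 C2 := by linarith
  exact le_of_mul_le_mul_left this hu

/-- Six-term sum. -/
def six (G : ℝ → ℝ → ℝ → ℝ) (a b c p q r : ℝ) : ℝ :=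
  G (a * p) (b * q) (c * r) + G (a * q) (b * r) (c * p) + G (a * r) (b * p) (c * q)
    + (G (a * p) (b * r) (c * q) + G (a * r) (b * q) (c * p) + G (a * q) (b * p) (c * r))

theorem core1 (a b c p q r : ℝ) (ha : 0 < a) (hb : 0 < b) (hc : 0 < c)
    (hp : 1 / 12 ≤ p) (hq : 1 / 12 ≤ q) (hr : 1 / 12 ≤ r) (hs : a + b + c = 1) (hs' : p + q + r = 1) :
    six F3 a b c p q r
      ≤ 2 - (4 / 3) * YY (A3 a b c) (C3 a b c) (A3 p q r) (C3 p q r) := by
  have hR := polyR_nonneg a b c p q r ha.le hb.le hc.le hs hp hq hr hs'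
  have h1 := A3_lt_one ha hb hc
  have h2 := A3_lt_one (a := p) (b := q) (c := r) (by linarith) (by linarith) (by linarith)
  exact core_norm a b c p q r _ ha hb hc (by linarith) (by linarith) (by linarith) hs hs'
    (YY_mul_le _ _ _ _ h1 h2 hR)

theorem core2 (a b c p q r : ℝ) (ha : 1 / 12 ≤ a) (hb : 1 / 12 ≤ b) (hc : 1 / 12 ≤ c)
    (hp : 1 / 12 ≤ p) (hq : 1 / 12 ≤ q) (hr : 1 / 12 ≤ r) (hs : a + b + c = 1) (hs' : p + q + r = 1) :
    six F3 a b c p q r
      ≤ 2 - (4 / 3) * (YY (A3 a b c) (C3 a b c) (A3 p q r) (C3 p q r)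
        + A3 a b c * A3 p q r / 10) := by
  have hR := polyS_nonneg a b c p q r ha hb hc hs hp hq hr hs'
  have h1 := A3_lt_one (a := a) (b := b) (c := c) (by linarith) (by linarith) (by linarith)
  have h2 := A3_lt_one (a := p) (b := q) (c := r) (by linarith) (by linarith) (by linarith)
  exact core_norm a b c p q r _ (by linarith) (by linarith) (by linarith) (by linarith) (by linarith)
    (by linarith) hs hs' (YY_margin_mul_le _ _ _ _ h1 h2 hR)

/-! ### Homogeneity -/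

theorem F3_smul (k a b c : ℝ) (hk : k ≠ 0) : F3 (k * a) (k * b) (k * c) = k * F3 a b c := by
  unfold F3
  by_cases h : a + b + c = 0
  · have : k * a + k * b + k * c = 0 := by
      have : k * a + k * b + k * c = k * (a + b + c) := by ring
      rw [this, h, mul_zero]
    rw [this, h]; simp
  · have : k * a + k * b + k * c ≠ 0 := by
      have e : k * a + k * b + k * c = k * (a + b + c) := by ring
      rw [e]; exact mul_ne_zero hk h
    field_simp

theorem K3_smul (k a b c : ℝ) (hk : k ≠ 0) : K3 (k * a) (k * b) (k * c) = k * K3 a b c := by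
  unfold K3
  by_cases h : a * b + b * c + c * a = 0
  · have : k * a * (k * b) + k * b * (k * c) + k * c * (k * a) = 0 := by
      have : k * a * (k * b) + k * b * (k * c) + k * c * (k * a) = k ^ 2 * (a * b + b * c + c * a) := by ring
      rw [this, h, mul_zero]
    rw [this, h]; simp
  · have : k * a * (k * b) + k * b * (k * c) + k * c * (k * a) ≠ 0 := by
      have e : k * a * (k * b) + k * b * (k * c) + k * c * (k * a) = k ^ 2 * (a * b + b * c + c * a) := by ring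
      rw [e]; exact mul_ne_zero (pow_ne_zero 2 hk) h
    field_simp

theorem F3_eq_of_sum (a b c : ℝ) (hs : a + b + c = 1) : F3 a b c = 1 / 3 + (2 / 3) * A3 a b c := by
  unfold F3 A3
  rw [hs]
  have hc' : c = 1 - a - b := by linarith
  subst hc'
  ring

theorem h_eq_of_sum (a b c : ℝ) (ha : 0 < a) (hb : 0 < b) (hc : 0 < c) (hs : a + b + c = 1) :
    3 * F3 a b c - 2 + 9 * K3 a b c = gg (A3 a b c) (C3 a b c) := by
  have h1 : 1 - A3 a b c = 3 * (a * b + b * c + c * a) := by unfold A3; ring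
  have hpos : 0 < a * b + b * c + c * a := by positivity
  rw [F3_eq_of_sum a b c hs]
  unfold gg K3
  rw [h1]
  unfold C3
  unfold A3
  field_simp
  ring

/-- The quantity `f = F - N / 3`. -/
def fN (a b c : ℝ) : ℝ := F3 a b c - (a + b + c) / 3

/-- The quantity `h = 3 F - 2 N + 9 K`. -/
def hN (a b c : ℝ) : ℝ := 3 * F3 a b c - 2 * (a + b + c) + 9 * K3 a b c

/-- Normalized coordinates. -/
theorem norm_coord (a b c : ℝ) (ha : 0 < a) (hb : 0 < b) (hc : 0 < c) :
    ∃ N a' b' c' : ℝ, 0 < N ∧ N = a + b + c ∧ 0 < a' ∧ 0 < b' ∧ 0 < c' ∧ a' + b' + c' = 1 ∧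
      a = N * a' ∧ b = N * b' ∧ c = N * c' := by
  have hN : 0 < a + b + c := by positivity
  refine ⟨a + b + c, a / (a + b + c), b / (a + b + c), c / (a + b + c), hN, rfl,
    by positivity, by positivity, by positivity, ?_, ?_, ?_, ?_⟩
  · field_simp
  · field_simp
  · field_simp
  · field_simp

theorem six_smul (G : ℝ → ℝ → ℝ → ℝ)
    (hG : ∀ k x y z : ℝ, k ≠ 0 → G (k * x) (k * y) (k * z) = k * G x y z)
    (N M a b c p q r : ℝ) (hN : N ≠ 0) (hM : M ≠ 0) :
    six G (N * a) (N * b) (N * c) (M * p) (M * q) (M * r) = N * M * six G a b c p q r := by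
  unfold six
  have hk : N * M ≠ 0 := mul_ne_zero hN hM
  have e : ∀ x y : ℝ, N * x * (M * y) = N * M * (x * y) := by intro x y; ring
  simp only [e]
  simp only [hG _ _ _ _ hk]
  ring

/-- Homogeneous form of the basic inequality. -/
theorem hom1 (a b c p q r : ℝ) (ha : 0 < a) (hb : 0 < b) (hc : 0 < c)
    (hp : 0 < p) (hq : 0 < q) (hr : 0 < r)
    (hflat : ∀ x, x = p ∨ x = q ∨ x = r → (1 / 12) * (p + q + r) ≤ x) :
    six F3 a b c p q r
      ≤ 2 / 3 * (a + b + c) * (p + q + r) + 2 * (p + q + r) * fN a b c + 2 * (a + b + c) * fN p q r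
        - fN p q r * hN a b c - fN a b c * hN p q r := by
  obtain ⟨N, a', b', c', hN0, hNe, ha', hb', hc', hs, rfl, rfl, rfl⟩ := norm_coord a b c ha hb hc
  obtain ⟨M, p', q', r', hM, hMe, hp', hq', hr', hs', hpe, hqe, hre⟩ := norm_coord p q r hp hq hr
  subst hpe hqe hre
  have e1 : N * a' + N * b' + N * c' = N := by rw [← mul_add, ← mul_add, hs, mul_one]
  have e2 : M * p' + M * q' + M * r' = M := by rw [← mul_add, ← mul_add, hs', mul_one]
  have fl : ∀ x : ℝ, (x = p' ∨ x = q' ∨ x = r') → 1 / 12 ≤ x := by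
    intro x hx
    have := hflat (M * x) (by
      rcases hx with h | h | h <;> subst h <;> simp)
    rw [e2] at this
    have h3 : M * (1 / 12) ≤ M * x := by linarith
    exact le_of_mul_le_mul_left h3 hM
  have hcore := core1 a' b' c' p' q' r' ha' hb' hc' (fl _ (Or.inl rfl)) (fl _ (Or.inr (Or.inl rfl)))
    (fl _ (Or.inr (Or.inr rfl))) hs hs'
  rw [six_smul F3 (fun k x y z hk => F3_smul k x y z hk) N M _ _ _ _ _ _ hN0.ne' hM.ne']
  have hN1 : fN (N * a') (N * b') (N * c') = N * ((2 / 3) * A3 a' b' c') := by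
    unfold fN
    rw [F3_smul N _ _ _ hN0.ne', e1, F3_eq_of_sum _ _ _ hs]; ring
  have hN2 : fN (M * p') (M * q') (M * r') = M * ((2 / 3) * A3 p' q' r') := by
    unfold fN
    rw [F3_smul M _ _ _ hM.ne', e2, F3_eq_of_sum _ _ _ hs']; ring
  have hh1 : hN (N * a') (N * b') (N * c') = N * gg (A3 a' b' c') (C3 a' b' c') := by
    unfold hN
    rw [F3_smul N _ _ _ hN0.ne', K3_smul N _ _ _ hN0.ne', e1, ← h_eq_of_sum _ _ _ ha' hb' hc' hs]; ring
  have hh2 : hN (M * p') (M * q') (M * r') = M * gg (A3 p' q' r') (C3 p' q' r') := by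
    unfold hN
    rw [F3_smul M _ _ _ hM.ne', K3_smul M _ _ _ hM.ne', e2, ← h_eq_of_sum _ _ _ hp' hq' hr' hs']; ring
  rw [hN1, hN2, hh1, hh2, e1, e2]
  have hNM : 0 < N * M := mul_pos hN0 hM
  have := mul_le_mul_of_nonneg_left hcore hNM.le
  unfold YY at this
  nlinarith [this]

/-- Homogeneous form with margin for two flat points. -/
theorem hom2 (a b c p q r : ℝ) (ha : 0 < a) (hb : 0 < b) (hc : 0 < c)
    (hp : 0 < p) (hq : 0 < q) (hr : 0 < r)
    (hflat0 : ∀ x, x = a ∨ x = b ∨ x = c → (1 / 12) * (a + b + c) ≤ x)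
    (hflat : ∀ x, x = p ∨ x = q ∨ x = r → (1 / 12) * (p + q + r) ≤ x) :
    six F3 a b c p q r
      ≤ 2 / 3 * (a + b + c) * (p + q + r) + 2 * (p + q + r) * fN a b c + 2 * (a + b + c) * fN p q r
        - fN p q r * hN a b c - fN a b c * hN p q r - (3 / 10) * (fN a b c * fN p q r) := by
  obtain ⟨N, a', b', c', hN0, hNe, ha', hb', hc', hs, hae, hbe, hce⟩ := norm_coord a b c ha hb hc
  obtain ⟨M, p', q', r', hM, hMe, hp', hq', hr', hs', hpe, hqe, hre⟩ := norm_coord p q r hp hq hr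
  subst hae hbe hce hpe hqe hre
  have e1 : N * a' + N * b' + N * c' = N := by rw [← mul_add, ← mul_add, hs, mul_one]
  have e2 : M * p' + M * q' + M * r' = M := by rw [← mul_add, ← mul_add, hs', mul_one]
  have fl0 : ∀ x : ℝ, (x = a' ∨ x = b' ∨ x = c') → 1 / 12 ≤ x := by
    intro x hx
    have := hflat0 (N * x) (by
      rcases hx with h | h | h <;> subst h <;> simp)
    rw [e1] at this
    have h3 : N * (1 / 12) ≤ N * x := by linarith
    exact le_of_mul_le_mul_left h3 hN0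
  have fl : ∀ x : ℝ, (x = p' ∨ x = q' ∨ x = r') → 1 / 12 ≤ x := by
    intro x hx
    have := hflat (M * x) (by
      rcases hx with h | h | h <;> subst h <;> simp)
    rw [e2] at this
    have h3 : M * (1 / 12) ≤ M * x := by linarith
    exact le_of_mul_le_mul_left h3 hM
  have hcore := core2 a' b' c' p' q' r' (fl0 _ (Or.inl rfl)) (fl0 _ (Or.inr (Or.inl rfl)))
    (fl0 _ (Or.inr (Or.inr rfl))) (fl _ (Or.inl rfl)) (fl _ (Or.inr (Or.inl rfl)))
    (fl _ (Or.inr (Or.inr rfl))) hs hs'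
  rw [six_smul F3 (fun k x y z hk => F3_smul k x y z hk) N M _ _ _ _ _ _ hN0.ne' hM.ne']
  have hN1 : fN (N * a') (N * b') (N * c') = N * ((2 / 3) * A3 a' b' c') := by
    unfold fN
    rw [F3_smul N _ _ _ hN0.ne', e1, F3_eq_of_sum _ _ _ hs]; ring
  have hN2 : fN (M * p') (M * q') (M * r') = M * ((2 / 3) * A3 p' q' r') := by
    unfold fN
    rw [F3_smul M _ _ _ hM.ne', e2, F3_eq_of_sum _ _ _ hs']; ring
  have hh1 : hN (N * a') (N * b') (N * c') = N * gg (A3 a' b' c') (C3 a' b' c') := by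
    unfold hN
    rw [F3_smul N _ _ _ hN0.ne', K3_smul N _ _ _ hN0.ne', e1, ← h_eq_of_sum _ _ _ ha' hb' hc' hs]; ring
  have hh2 : hN (M * p') (M * q') (M * r') = M * gg (A3 p' q' r') (C3 p' q' r') := by
    unfold hN
    rw [F3_smul M _ _ _ hM.ne', K3_smul M _ _ _ hM.ne', e2, ← h_eq_of_sum _ _ _ hp' hq' hr' hs']; ring
  rw [hN1, hN2, hh1, hh2, e1, e2]
  have hNM : 0 < N * M := mul_pos hN0 hM
  have := mul_le_mul_of_nonneg_left hcore hNM.le
  unfold YY at this
  nlinarith [this]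

end Vale.Agent.Lib.P154
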