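import Vale.Agent.Lib.P154.Point2

/-!
The third-moment functional and the channel map, pointwise.
-/

noncomputable section

namespace Vale.Agent.Lib.P154

/-- Tangent-line estimate for `1 / x`. -/
theorem inv_tangent (E D m : ℝ) (hE : 0 ≤ E) (hD : 0 < D) (hm : 0 < m) :
    E * (2 / m - D / m ^ 2) ≤ E / D := by
  have : 2 / m - D / m ^ 2 ≤ 1 / D := by
    rw [div_sub_div _ _ hm.ne' (pow_ne_zero 2 hm.ne'), div_le_div_iff₀ (by positivity) hD]
    nlinarith [mul_nonneg (sq_nonneg (D - m)) hm.le, mul_pos hm hm, mul_pos (mul_pos hm hm) hm]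
  calc E * (2 / m - D / m ^ 2) ≤ E * (1 / D) := mul_le_mul_of_nonneg_left this hE
    _ = E / D := by ring

/-- Jensen estimate for the functional `K`. -/
theorem jensenK (a b c p q r : ℝ) (ha : 0 < a) (hb : 0 < b) (hc : 0 < c)
    (hp : 0 < p) (hq : 0 < q) (hr : 0 < r) :
    18 * (K3 a b c * K3 p q r) ≤ six K3 a b c p q r := by
  set e1 := a * b + b * c + c * a with he1
  set e2 := p * q + q * r + r * p with he2
  have h1 : 0 < e1 := by positivity
  have h2 : 0 < e2 := by positivity
  set E := a * b * c * (p * q * r) with hE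
  have E0 : 0 ≤ E := by positivity
  set m := e1 * e2 / 3 with hm
  have m0 : 0 < m := by positivity
  have t1 := inv_tangent E (a * p * (b * q) + b * q * (c * r) + c * r * (a * p)) m E0 (by positivity) m0
  have t2 := inv_tangent E (a * q * (b * r) + b * r * (c * p) + c * p * (a * q)) m E0 (by positivity) m0
  have t3 := inv_tangent E (a * r * (b * p) + b * p * (c * q) + c * q * (a * r)) m E0 (by positivity) m0
  have t4 := inv_tangent E (a * p * (b * r) + b * r * (c * q) + c * q * (a * p)) m E0 (by positivity) m0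
  have t5 := inv_tangent E (a * r * (b * q) + b * q * (c * p) + c * p * (a * r)) m E0 (by positivity) m0
  have t6 := inv_tangent E (a * q * (b * p) + b * p * (c * r) + c * r * (a * q)) m E0 (by positivity) m0
  have key : six K3 a b c p q r = E / (a * p * (b * q) + b * q * (c * r) + c * r * (a * p))
      + E / (a * q * (b * r) + b * r * (c * p) + c * p * (a * q))
      + E / (a * r * (b * p) + b * p * (c * q) + c * q * (a * r))
      + (E / (a * p * (b * r) + b * r * (c * q) + c * q * (a * p))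
      + E / (a * r * (b * q) + b * q * (c * p) + c * p * (a * r))
      + E / (a * q * (b * p) + b * p * (c * r) + c * r * (a * q))) := by
    unfold six K3
    have n1 : a * p * (b * q) * (c * r) = E := by rw [hE]; ring
    have n2 : a * q * (b * r) * (c * p) = E := by rw [hE]; ring
    have n3 : a * r * (b * p) * (c * q) = E := by rw [hE]; ring
    have n4 : a * p * (b * r) * (c * q) = E := by rw [hE]; ring
    have n5 : a * r * (b * q) * (c * p) = E := by rw [hE]; ring
    have n6 : a * q * (b * p) * (c * r) = E := by rw [hE]; ring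
    rw [n1, n2, n3, n4, n5, n6]
  have hsum : (a * p * (b * q) + b * q * (c * r) + c * r * (a * p))
      + (a * q * (b * r) + b * r * (c * p) + c * p * (a * q))
      + (a * r * (b * p) + b * p * (c * q) + c * q * (a * r))
      + (a * p * (b * r) + b * r * (c * q) + c * q * (a * p))
      + (a * r * (b * q) + b * q * (c * p) + c * p * (a * r))
      + (a * q * (b * p) + b * p * (c * r) + c * r * (a * q)) = 6 * m := by
    rw [hm, he1, he2]; ring
  have hfin : E * (2 / m - (a * p * (b * q) + b * q * (c * r) + c * r * (a * p)) / m ^ 2)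
      + E * (2 / m - (a * q * (b * r) + b * r * (c * p) + c * p * (a * q)) / m ^ 2)
      + E * (2 / m - (a * r * (b * p) + b * p * (c * q) + c * q * (a * r)) / m ^ 2)
      + E * (2 / m - (a * p * (b * r) + b * r * (c * q) + c * q * (a * p)) / m ^ 2)
      + E * (2 / m - (a * r * (b * q) + b * q * (c * p) + c * p * (a * r)) / m ^ 2)
      + E * (2 / m - (a * q * (b * p) + b * p * (c * r) + c * r * (a * q)) / m ^ 2)
      = 6 * (E / m) := by
    have : E * (2 / m - (a * p * (b * q) + b * q * (c * r) + c * r * (a * p)) / m ^ 2)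
      + E * (2 / m - (a * q * (b * r) + b * r * (c * p) + c * p * (a * q)) / m ^ 2)
      + E * (2 / m - (a * r * (b * p) + b * p * (c * q) + c * q * (a * r)) / m ^ 2)
      + E * (2 / m - (a * p * (b * r) + b * r * (c * q) + c * q * (a * p)) / m ^ 2)
      + E * (2 / m - (a * r * (b * q) + b * q * (c * p) + c * p * (a * r)) / m ^ 2)
      + E * (2 / m - (a * q * (b * p) + b * p * (c * r) + c * r * (a * q)) / m ^ 2)
      = E * (12 / m - ((a * p * (b * q) + b * q * (c * r) + c * r * (a * p))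
      + (a * q * (b * r) + b * r * (c * p) + c * p * (a * q))
      + (a * r * (b * p) + b * p * (c * q) + c * q * (a * r))
      + (a * p * (b * r) + b * r * (c * q) + c * q * (a * p))
      + (a * r * (b * q) + b * q * (c * p) + c * p * (a * r))
      + (a * q * (b * p) + b * p * (c * r) + c * r * (a * q))) / m ^ 2) := by ring
    rw [this, hsum]
    field_simp
    ring
  have hEm : 18 * (K3 a b c * K3 p q r) = 6 * (E / m) := by
    unfold K3
    rw [← he1, ← he2, hm, hE]
    field_simp
    ring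
  rw [hEm, key, ← hfin]
  linarith

/-! ### Elementary bounds -/

theorem F3_ge (a b c : ℝ) (h : 0 < a + b + c) : (a + b + c) / 3 ≤ F3 a b c := by
  unfold F3
  rw [div_le_div_iff₀ (by norm_num) h]
  nlinarith [sq_nonneg (a - b), sq_nonneg (b - c), sq_nonneg (a - c)]

theorem K3_nonneg {a b c : ℝ} (ha : 0 ≤ a) (hb : 0 ≤ b) (hc : 0 ≤ c) : 0 ≤ K3 a b c := by
  unfold K3
  positivity

theorem K3_le {a b c : ℝ} (ha : 0 < a) (hb : 0 < b) (hc : 0 < c) : K3 a b c ≤ (a + b + c) / 9 := by
  unfold K3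
  rw [div_le_div_iff₀ (by positivity) (by norm_num)]
  have h1 : 3 * ((a + b + c) * (a * b * c)) ≤ (a * b + b * c + c * a) ^ 2 := by
    nlinarith [sq_nonneg (a * b - b * c), sq_nonneg (b * c - c * a), sq_nonneg (a * b - c * a)]
  have h2 : 3 * (a * b + b * c + c * a) ≤ (a + b + c) ^ 2 := by
    nlinarith [sq_nonneg (a - b), sq_nonneg (b - c), sq_nonneg (a - c)]
  have hN : 0 < a + b + c := by positivity
  -- multiply out: `9 a b c ≤ (a + b + c) e₂`
  have h3 : 9 * (a * b * c) ≤ (a + b + c) * (a * b + b * c + c * a) := by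
    nlinarith [mul_nonneg ha.le (sq_nonneg (b - c)), mul_nonneg hb.le (sq_nonneg (a - c)),
      mul_nonneg hc.le (sq_nonneg (a - b))]
  linarith

theorem A3_nonneg (a b c : ℝ) (hs : a + b + c = 1) : 0 ≤ A3 a b c := by
  have hc' : c = 1 - a - b := by linarith
  subst hc'
  unfold A3
  nlinarith [sq_nonneg (a - b), sq_nonneg (a - (1 - a - b)), sq_nonneg (b - (1 - a - b))]

theorem C3_le (a b c : ℝ) (hs : a + b + c = 1) : C3 a b c ≤ A3 a b c + A3 a b c ^ 2 := by
  have hc' : c = 1 - a - b := by linarith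
  subst hc'
  unfold C3 A3
  nlinarith [sq_nonneg (a * b - b * (1 - a - b)), sq_nonneg (b * (1 - a - b) - (1 - a - b) * a),
    sq_nonneg (a * b - (1 - a - b) * a)]

/-! ### The channel map -/

/-- The channel map on a point. -/
def chanP (lam a b c : ℝ) : ℝ × ℝ × ℝ :=
  (lam * a + (1 - lam) / 3 * (a + b + c), lam * b + (1 - lam) / 3 * (a + b + c),
    lam * c + (1 - lam) / 3 * (a + b + c))

theorem chan_sum (lam a b c : ℝ) :
    (lam * a + (1 - lam) / 3 * (a + b + c)) + (lam * b + (1 - lam) / 3 * (a + b + c))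
      + (lam * c + (1 - lam) / 3 * (a + b + c)) = a + b + c := by ring

theorem chan_F (lam a b c : ℝ) (h : 0 < a + b + c) :
    fN (lam * a + (1 - lam) / 3 * (a + b + c)) (lam * b + (1 - lam) / 3 * (a + b + c))
      (lam * c + (1 - lam) / 3 * (a + b + c)) = lam ^ 2 * fN a b c := by
  unfold fN F3
  rw [chan_sum]
  field_simp
  ring

theorem A3_chan (lam a b c : ℝ) (hs : a + b + c = 1) :
    A3 (lam * a + (1 - lam) / 3 * (a + b + c)) (lam * b + (1 - lam) / 3 * (a + b + c))
      (lam * c + (1 - lam) / 3 * (a + b + c)) = lam ^ 2 * A3 a b c := by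
  rw [hs]
  have hc' : c = 1 - a - b := by linarith
  subst hc'
  unfold A3
  ring

theorem C3_chan (lam a b c : ℝ) (hs : a + b + c = 1) :
    C3 (lam * a + (1 - lam) / 3 * (a + b + c)) (lam * b + (1 - lam) / 3 * (a + b + c))
      (lam * c + (1 - lam) / 3 * (a + b + c)) = lam ^ 3 * C3 a b c := by
  rw [hs]
  have hc' : c = 1 - a - b := by linarith
  subst hc'
  unfold C3 A3
  ring

/-- `1 - 9 K` in the invariants. -/
theorem one_sub_nineK (a b c : ℝ) (hs : a + b + c = 1) (h2 : 0 < a * b + b * c + c * a) :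
    1 - 9 * K3 a b c = (2 * A3 a b c - C3 a b c) / (1 - A3 a b c) := by
  have h1 : 1 - A3 a b c = 3 * (a * b + b * c + c * a) := by unfold A3; ring
  have h3 : 2 * A3 a b c - C3 a b c = 3 * (a * b + b * c + c * a) - 27 * (a * b * c) := by
    unfold C3 A3; ring
  rw [h1, h3]
  unfold K3
  generalize a * b + b * c + c * a = e at h2
  generalize a * b * c = E
  field_simp
  ring

/-- Abstract inequality behind the channel bound on `K`. -/
theorem chan_abs (lam A C : ℝ) (h0 : 0 ≤ lam) (h1 : lam ≤ 1) (hA0 : 0 ≤ A) (hA1 : A < 1)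
    (hC : C ≤ A + A ^ 2) :
    (2 * (lam ^ 2 * A) - lam ^ 3 * C) / (1 - lam ^ 2 * A)
      ≤ 3 * lam ^ 2 * (1 - lam) * ((2 / 3) * A) + lam ^ 3 * ((2 * A - C) / (1 - A)) := by
  have hu : 0 < 1 - A := by linarith
  have hl2 : lam ^ 2 ≤ 1 := by nlinarith
  have hv : 0 < 1 - lam ^ 2 * A := by nlinarith [sq_nonneg lam]
  rw [div_le_iff₀ hv]
  have key : (3 * lam ^ 2 * (1 - lam) * ((2 / 3) * A) + lam ^ 3 * ((2 * A - C) / (1 - A))) * (1 - lam ^ 2 * A)
      - (2 * (lam ^ 2 * A) - lam ^ 3 * C)
      = lam ^ 3 * A * (1 - lam) * (2 * A * (1 + lam * A) - C * (1 + lam)) / (1 - A) := by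
    field_simp
    ring
  have h3 : 0 ≤ 2 * A * (1 + lam * A) - C * (1 + lam) := by
    have : C * (1 + lam) ≤ (A + A ^ 2) * (1 + lam) := mul_le_mul_of_nonneg_right hC (by linarith)
    have h5 : 0 ≤ A * (1 - lam) * (1 - A) := by
      apply mul_nonneg (mul_nonneg hA0 (by linarith)) hu.le
    nlinarith
  have h4 : 0 ≤ lam ^ 3 * A * (1 - lam) * (2 * A * (1 + lam * A) - C * (1 + lam)) / (1 - A) := by
    apply div_nonneg _ hu.le
    apply mul_nonneg (mul_nonneg (mul_nonneg (pow_nonneg h0 3) hA0) (by linarith)) h3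
  linarith

/-- Homogeneous channel bound on `K` for positive points. -/
theorem chan_K (lam a b c : ℝ) (h0 : 0 ≤ lam) (h1 : lam < 1) (ha : 0 < a) (hb : 0 < b) (hc : 0 < c) :
    (a + b + c) - 9 * K3 (lam * a + (1 - lam) / 3 * (a + b + c)) (lam * b + (1 - lam) / 3 * (a + b + c))
      (lam * c + (1 - lam) / 3 * (a + b + c))
      ≤ 3 * lam ^ 2 * (1 - lam) * fN a b c + lam ^ 3 * ((a + b + c) - 9 * K3 a b c) := by
  obtain ⟨N, a', b', c', hN0, hNe, ha', hb', hc', hs, hae, hbe, hce⟩ := norm_coord a b c ha hb hc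
  subst hae hbe hce
  have e1 : N * a' + N * b' + N * c' = N := by rw [← mul_add, ← mul_add, hs, mul_one]
  rw [e1]
  have n1 : lam * (N * a') + (1 - lam) / 3 * N = N * (lam * a' + (1 - lam) / 3 * (a' + b' + c')) := by
    rw [hs]; ring
  have n2 : lam * (N * b') + (1 - lam) / 3 * N = N * (lam * b' + (1 - lam) / 3 * (a' + b' + c')) := by
    rw [hs]; ring
  have n3 : lam * (N * c') + (1 - lam) / 3 * N = N * (lam * c' + (1 - lam) / 3 * (a' + b' + c')) := by
    rw [hs]; ring
  rw [n1, n2, n3, K3_smul N _ _ _ hN0.ne', K3_smul N _ _ _ hN0.ne']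
  have hf : fN (N * a') (N * b') (N * c') = N * ((2 / 3) * A3 a' b' c') := by
    unfold fN
    rw [F3_smul N _ _ _ hN0.ne', e1, F3_eq_of_sum _ _ _ hs]; ring
  rw [hf]
  have hpos1 : 0 < a' * b' + b' * c' + c' * a' := by positivity
  have hk1 := one_sub_nineK a' b' c' hs hpos1
  set a2 := lam * a' + (1 - lam) / 3 * (a' + b' + c') with ha2
  set b2 := lam * b' + (1 - lam) / 3 * (a' + b' + c') with hb2
  set c2 := lam * c' + (1 - lam) / 3 * (a' + b' + c') with hc2
  have hs2 : a2 + b2 + c2 = 1 := by rw [ha2, hb2, hc2, chan_sum, hs]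
  have hpa : 0 < a2 := by
    rw [ha2, hs]; have : 0 < (1 - lam) / 3 := by linarith
    have : 0 ≤ lam * a' := mul_nonneg h0 ha'.le
    linarith
  have hpb : 0 < b2 := by
    rw [hb2, hs]; have : 0 < (1 - lam) / 3 := by linarith
    have : 0 ≤ lam * b' := mul_nonneg h0 hb'.le
    linarith
  have hpc : 0 < c2 := by
    rw [hc2, hs]; have : 0 < (1 - lam) / 3 := by linarith
    have : 0 ≤ lam * c' := mul_nonneg h0 hc'.le
    linarith
  have hpos2 : 0 < a2 * b2 + b2 * c2 + c2 * a2 := by positivity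
  have hk2 := one_sub_nineK a2 b2 c2 hs2 hpos2
  have hA := A3_chan lam a' b' c' hs
  have hC := C3_chan lam a' b' c' hs
  rw [← ha2, ← hb2, ← hc2] at hA hC
  rw [hA, hC] at hk2
  have hab := chan_abs lam (A3 a' b' c') (C3 a' b' c') h0 h1.le (A3_nonneg _ _ _ hs)
    (A3_lt_one ha' hb' hc') (C3_le _ _ _ hs)
  rw [← hk2, ← hk1] at hab
  have := mul_le_mul_of_nonneg_left hab hN0.le
  nlinarith [this]

end Vale.Agent.Lib.P154
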