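import Mathlib

/-!
Polynomial expressions for the three-state Potts recursion.
`achi`, `cchi`: the invariants A, C in chamber coordinates.
`polyJ`, `polyX`, `polyY`, `polyR`: polynomials in the invariants A, C of two points.
-/

noncomputable section

namespace Vale.Agent.Lib.P154

/-- The invariant `A = 1 - 3 e₂` in chamber coordinates. -/
def achi (t1 t2 : ℝ) : ℝ := (t1 / 2) ^ 2 + (t1 / 2) * t2 + t2 ^ 2

/-- The invariant `C = 27 e₃ - 1 + 3 A` in chamber coordinates. -/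
def cchi (t1 t2 : ℝ) : ℝ := (t1 + t2) * (t1 / 2 + 2 * t2) * (t2 - t1 / 2)

def polyJ (A1 C1 A2 C2 : ℝ) : ℝ :=
  1 - A1 - A2 - 2 * A1 * A2 + A1 * A2 * (A1 + A2) + A1 ^ 2 * A2 ^ 2 + C1 * A2 + C2 * A1
    - A1 ^ 2 * C2 - A2 ^ 2 * C1

def polyX (A1 C1 A2 C2 : ℝ) : ℝ := 1 - 3 * A1 * A2 + C1 * C2 / 2

/-- `(1 - A1) (1 - A2) Y` with `Y = 1 - A1 - A2 + (A2 g1 + A1 g2) / 2`, `g = (C - 2 A^2) / (1 - A)`. -/
def polyY (A1 C1 A2 C2 : ℝ) : ℝ :=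
  (1 - A1) * (1 - A2) * (1 - A1 - A2)
    + (A2 * (1 - A2) * (C1 - 2 * A1 ^ 2) + A1 * (1 - A1) * (C2 - 2 * A2 ^ 2)) / 2

def polyR (A1 C1 A2 C2 : ℝ) : ℝ :=
  (1 - A1) * (1 - A2) * polyJ A1 C1 A2 C2 - polyY A1 C1 A2 C2 * polyX A1 C1 A2 C2

/-- The strict variant with margin `1 / 10`. -/
def polyS (A1 C1 A2 C2 : ℝ) : ℝ :=
  polyR A1 C1 A2 C2 - (1 - A1) * (1 - A2) * (A1 * A2 / 10) * polyX A1 C1 A2 C2

end Vale.Agent.Lib.P154
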