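import Vale.Agent.Lib.P154.Point3

/-!
Signals for the three-state Potts recursion: functionals, products, powers and the channel.
-/

noncomputable section

open Finset

namespace Vale.Agent.Lib.P154

variable {ι κ : Type*} [Fintype ι] [Fintype κ]

/-- Sum of `F` over a signal. -/
def sumF (l : ι → Fin 3 → ℝ) : ℝ := ∑ t, F3 (l t 0) (l t 1) (l t 2)

/-- Sum of `K` over a signal. -/
def sumK (l : ι → Fin 3 → ℝ) : ℝ := ∑ t, K3 (l t 0) (l t 1) (l t 2)

/-- Averaged chi-square functional. -/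
def xx (l : ι → Fin 3 → ℝ) : ℝ := (1 / 3) * sumF l - 1 / 3

/-- Third-moment functional. -/
def BB (l : ι → Fin 3 → ℝ) : ℝ := 1 - 3 * sumK l

/-- A likelihood family for a three-valued root, with relabelling symmetry. -/
structure WSig (l : ι → Fin 3 → ℝ) : Prop where
  nonneg : ∀ t i, 0 ≤ l t i
  Npos : ∀ t, 0 < l t 0 + l t 1 + l t 2
  tot : ∀ i, ∑ t, l t i = 1
  sym : ∀ σ : Equiv.Perm (Fin 3), ∃ π : Equiv.Perm ι, ∀ t i, l (π t) i = l t (σ i)

/-- Same, with positive entries. -/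
structure IsSig (l : ι → Fin 3 → ℝ) : Prop where
  pos : ∀ t i, 0 < l t i
  tot : ∀ i, ∑ t, l t i = 1
  sym : ∀ σ : Equiv.Perm (Fin 3), ∃ π : Equiv.Perm ι, ∀ t i, l (π t) i = l t (σ i)

theorem IsSig.toW {l : ι → Fin 3 → ℝ} (h : IsSig l) : WSig l where
  nonneg := fun t i => (h.pos t i).le
  Npos := fun t => by
    have h0 := h.pos t 0
    have h1 := h.pos t 1
    have h2 := h.pos t 2
    positivity
  tot := h.tot
  sym := h.sym

/-- Every entry is at least a twelfth of the total. -/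
def Flat (l : ι → Fin 3 → ℝ) : Prop := ∀ t i, (1 / 12) * (l t 0 + l t 1 + l t 2) ≤ l t i

/-- Product of two signals. -/
def prodS (l : ι → Fin 3 → ℝ) (l' : κ → Fin 3 → ℝ) : ι × κ → Fin 3 → ℝ :=
  fun p i => l p.1 i * l' p.2 i

theorem sum_sigma {l' : κ → Fin 3 → ℝ} {σ : Equiv.Perm (Fin 3)} (h : ∃ π : Equiv.Perm κ, ∀ t i, l' (π t) i = l' t (σ i))
    (G : ℝ → ℝ → ℝ → ℝ) (a b c : ℝ) :
    ∑ t, G (a * l' t 0) (b * l' t 1) (c * l' t 2)
      = ∑ t, G (a * l' t (σ 0)) (b * l' t (σ 1)) (c * l' t (σ 2)) := by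
  obtain ⟨π, hπ⟩ := h
  rw [← Equiv.sum_comp π (fun t => G (a * l' t 0) (b * l' t 1) (c * l' t 2))]
  simp only [hπ]

/-- Rotations and transpositions of three letters. -/
def permR : Equiv.Perm (Fin 3) := ⟨![1, 2, 0], ![2, 0, 1], by decide, by decide⟩
def permR2 : Equiv.Perm (Fin 3) := ⟨![2, 0, 1], ![1, 2, 0], by decide, by decide⟩
def permS0 : Equiv.Perm (Fin 3) := ⟨![0, 2, 1], ![0, 2, 1], by decide, by decide⟩
def permS1 : Equiv.Perm (Fin 3) := ⟨![2, 1, 0], ![2, 1, 0], by decide, by decide⟩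
def permS2 : Equiv.Perm (Fin 3) := ⟨![1, 0, 2], ![1, 0, 2], by decide, by decide⟩

theorem six_sum {l' : κ → Fin 3 → ℝ} (h : WSig l') (G : ℝ → ℝ → ℝ → ℝ) (a b c : ℝ) :
    6 * ∑ t, G (a * l' t 0) (b * l' t 1) (c * l' t 2)
      = ∑ t, six G a b c (l' t 0) (l' t 1) (l' t 2) := by
  have e1 := sum_sigma (σ := permR) (h.sym permR) G a b c
  have e2 := sum_sigma (σ := permR2) (h.sym permR2) G a b c
  have e3 := sum_sigma (σ := permS0) (h.sym permS0) G a b c
  have e4 := sum_sigma (σ := permS1) (h.sym permS1) G a b c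
  have e5 := sum_sigma (σ := permS2) (h.sym permS2) G a b c
  change _ = ∑ t, G (a * l' t 1) (b * l' t 2) (c * l' t 0) at e1
  change _ = ∑ t, G (a * l' t 2) (b * l' t 0) (c * l' t 1) at e2
  change _ = ∑ t, G (a * l' t 0) (b * l' t 2) (c * l' t 1) at e3
  change _ = ∑ t, G (a * l' t 2) (b * l' t 1) (c * l' t 0) at e4
  change _ = ∑ t, G (a * l' t 1) (b * l' t 0) (c * l' t 2) at e5
  unfold six
  simp only [Finset.sum_add_distrib]
  rw [← e1, ← e2, ← e3, ← e4, ← e5]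
  ring

theorem sum_bilin (n f h : ι → ℝ) (m g k : κ → ℝ) (c : ℝ) :
    ∑ t, ∑ t', (2 / 3 * n t * m t' + 2 * m t' * f t + 2 * n t * g t' - g t' * h t - f t * k t'
        - c * (f t * g t'))
      = 2 / 3 * (∑ t, n t) * (∑ t', m t') + 2 * (∑ t', m t') * (∑ t, f t)
        + 2 * (∑ t, n t) * (∑ t', g t') - (∑ t', g t') * (∑ t, h t) - (∑ t, f t) * (∑ t', k t')
        - c * ((∑ t, f t) * (∑ t', g t')) := by
  simp only [Finset.sum_sub_distrib, Finset.sum_add_distrib, ← Finset.mul_sum, ← Finset.sum_mul]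

/-- Aggregate quantities. -/
theorem sum_N {l : ι → Fin 3 → ℝ} (tot : ∀ i, ∑ t, l t i = 1) :
    ∑ t, (l t 0 + l t 1 + l t 2) = 3 := by
  simp only [Finset.sum_add_distrib, tot]
  norm_num

theorem sum_f {l : ι → Fin 3 → ℝ} (tot : ∀ i, ∑ t, l t i = 1) :
    ∑ t, fN (l t 0) (l t 1) (l t 2) = 3 * xx l := by
  unfold fN xx sumF
  rw [Finset.sum_sub_distrib]
  have : ∑ t, (l t 0 + l t 1 + l t 2) / 3 = 1 := by
    rw [← Finset.sum_div, sum_N tot]; norm_num
  rw [this]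
  ring

theorem sum_h {l : ι → Fin 3 → ℝ} (tot : ∀ i, ∑ t, l t i = 1) :
    ∑ t, hN (l t 0) (l t 1) (l t 2) = 9 * xx l - 3 * BB l := by
  unfold hN xx BB sumF sumK
  rw [Finset.sum_add_distrib, Finset.sum_sub_distrib, ← Finset.mul_sum, ← Finset.mul_sum,
    ← Finset.mul_sum, sum_N tot]
  ring

theorem sumF_prod (l : ι → Fin 3 → ℝ) (l' : κ → Fin 3 → ℝ) :
    sumF (prodS l l') = ∑ t, ∑ t', F3 (l t 0 * l' t' 0) (l t 1 * l' t' 1) (l t 2 * l' t' 2) := by
  unfold sumF prodS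
  rw [Fintype.sum_prod_type]

theorem sumK_prod (l : ι → Fin 3 → ℝ) (l' : κ → Fin 3 → ℝ) :
    sumK (prodS l l') = ∑ t, ∑ t', K3 (l t 0 * l' t' 0) (l t 1 * l' t' 1) (l t 2 * l' t' 2) := by
  unfold sumK prodS
  rw [Fintype.sum_prod_type]

theorem six_sumF (l : ι → Fin 3 → ℝ) {l' : κ → Fin 3 → ℝ} (h' : WSig l') :
    6 * sumF (prodS l l') = ∑ t, ∑ t', six F3 (l t 0) (l t 1) (l t 2) (l' t' 0) (l' t' 1) (l' t' 2) := by
  rw [sumF_prod, Finset.mul_sum]
  refine Finset.sum_congr rfl fun t _ => ?_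
  exact six_sum h' F3 _ _ _

theorem six_sumK (l : ι → Fin 3 → ℝ) {l' : κ → Fin 3 → ℝ} (h' : WSig l') :
    6 * sumK (prodS l l') = ∑ t, ∑ t', six K3 (l t 0) (l t 1) (l t 2) (l' t' 0) (l' t' 1) (l' t' 2) := by
  rw [sumK_prod, Finset.mul_sum]
  refine Finset.sum_congr rfl fun t _ => ?_
  exact six_sum h' K3 _ _ _

omit [Fintype ι] in
theorem flat_of {l : ι → Fin 3 → ℝ} (h : Flat l) (t : ι) :
    ∀ x, x = l t 0 ∨ x = l t 1 ∨ x = l t 2 → (1 / 12) * (l t 0 + l t 1 + l t 2) ≤ x := by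
  intro x hx
  rcases hx with rfl | rfl | rfl
  · exact h t 0
  · exact h t 1
  · exact h t 2

/-- Bound on the chi-square functional of a product (arbitrary times flat). -/
theorem xx_prod_le {l : ι → Fin 3 → ℝ} {l' : κ → Fin 3 → ℝ} (h : IsSig l) (h' : IsSig l')
    (fl : Flat l') :
    xx (prodS l l') ≤ xx l + xx l' - 3 * (xx l * xx l') + (xx l' * BB l + xx l * BB l') / 2 := by
  have e := six_sumF l h'.toW
  have b : ∑ t, ∑ t', six F3 (l t 0) (l t 1) (l t 2) (l' t' 0) (l' t' 1) (l' t' 2)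
      ≤ ∑ t, ∑ t', (2 / 3 * (l t 0 + l t 1 + l t 2) * (l' t' 0 + l' t' 1 + l' t' 2)
        + 2 * (l' t' 0 + l' t' 1 + l' t' 2) * fN (l t 0) (l t 1) (l t 2)
        + 2 * (l t 0 + l t 1 + l t 2) * fN (l' t' 0) (l' t' 1) (l' t' 2)
        - fN (l' t' 0) (l' t' 1) (l' t' 2) * hN (l t 0) (l t 1) (l t 2)
        - fN (l t 0) (l t 1) (l t 2) * hN (l' t' 0) (l' t' 1) (l' t' 2)
        - 0 * (fN (l t 0) (l t 1) (l t 2) * fN (l' t' 0) (l' t' 1) (l' t' 2))) := by
    refine Finset.sum_le_sum fun t _ => Finset.sum_le_sum fun t' _ => ?_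
    have := hom1 (l t 0) (l t 1) (l t 2) (l' t' 0) (l' t' 1) (l' t' 2) (h.pos t 0) (h.pos t 1) (h.pos t 2)
      (h'.pos t' 0) (h'.pos t' 1) (h'.pos t' 2) (flat_of fl t')
    linarith
  rw [sum_bilin (fun t => l t 0 + l t 1 + l t 2) (fun t => fN (l t 0) (l t 1) (l t 2))
    (fun t => hN (l t 0) (l t 1) (l t 2)) (fun t' => l' t' 0 + l' t' 1 + l' t' 2)
    (fun t' => fN (l' t' 0) (l' t' 1) (l' t' 2)) (fun t' => hN (l' t' 0) (l' t' 1) (l' t' 2)) 0,
    sum_N h.tot, sum_N h'.tot, sum_f h.tot, sum_f h'.tot, sum_h h.tot, sum_h h'.tot, ← e] at b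
  have e2 : sumF (prodS l l') = 3 * xx (prodS l l') + 1 := by unfold xx; ring
  rw [e2] at b
  nlinarith [b]

/-- Bound on the chi-square functional of a product (flat times flat), with margin. -/
theorem xx_prod_le_margin {l : ι → Fin 3 → ℝ} {l' : κ → Fin 3 → ℝ} (h : IsSig l) (h' : IsSig l')
    (fl0 : Flat l) (fl : Flat l') :
    xx (prodS l l') ≤ xx l + xx l' - (3 + 3 / 20) * (xx l * xx l')
      + (xx l' * BB l + xx l * BB l') / 2 := by
  have e := six_sumF l h'.toW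
  have b : ∑ t, ∑ t', six F3 (l t 0) (l t 1) (l t 2) (l' t' 0) (l' t' 1) (l' t' 2)
      ≤ ∑ t, ∑ t', (2 / 3 * (l t 0 + l t 1 + l t 2) * (l' t' 0 + l' t' 1 + l' t' 2)
        + 2 * (l' t' 0 + l' t' 1 + l' t' 2) * fN (l t 0) (l t 1) (l t 2)
        + 2 * (l t 0 + l t 1 + l t 2) * fN (l' t' 0) (l' t' 1) (l' t' 2)
        - fN (l' t' 0) (l' t' 1) (l' t' 2) * hN (l t 0) (l t 1) (l t 2)
        - fN (l t 0) (l t 1) (l t 2) * hN (l' t' 0) (l' t' 1) (l' t' 2)
        - (3 / 10) * (fN (l t 0) (l t 1) (l t 2) * fN (l' t' 0) (l' t' 1) (l' t' 2))) := by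
    refine Finset.sum_le_sum fun t _ => Finset.sum_le_sum fun t' _ => ?_
    exact hom2 (l t 0) (l t 1) (l t 2) (l' t' 0) (l' t' 1) (l' t' 2) (h.pos t 0) (h.pos t 1) (h.pos t 2)
      (h'.pos t' 0) (h'.pos t' 1) (h'.pos t' 2) (flat_of fl0 t) (flat_of fl t')
  rw [sum_bilin (fun t => l t 0 + l t 1 + l t 2) (fun t => fN (l t 0) (l t 1) (l t 2))
    (fun t => hN (l t 0) (l t 1) (l t 2)) (fun t' => l' t' 0 + l' t' 1 + l' t' 2)
    (fun t' => fN (l' t' 0) (l' t' 1) (l' t' 2)) (fun t' => hN (l' t' 0) (l' t' 1) (l' t' 2)) (3 / 10),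
    sum_N h.tot, sum_N h'.tot, sum_f h.tot, sum_f h'.tot, sum_h h.tot, sum_h h'.tot, ← e] at b
  have e2 : sumF (prodS l l') = 3 * xx (prodS l l') + 1 := by unfold xx; ring
  rw [e2] at b
  nlinarith [b]

/-- Bound on the third-moment functional of a product. -/
theorem BB_prod_le {l : ι → Fin 3 → ℝ} {l' : κ → Fin 3 → ℝ} (h : IsSig l) (h' : IsSig l') :
    BB (prodS l l') ≤ BB l + BB l' - BB l * BB l' := by
  have e := six_sumK l h'.toW
  have b : ∑ t, ∑ t', 18 * (K3 (l t 0) (l t 1) (l t 2) * K3 (l' t' 0) (l' t' 1) (l' t' 2))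
      ≤ ∑ t, ∑ t', six K3 (l t 0) (l t 1) (l t 2) (l' t' 0) (l' t' 1) (l' t' 2) := by
    refine Finset.sum_le_sum fun t _ => Finset.sum_le_sum fun t' _ => ?_
    exact jensenK _ _ _ _ _ _ (h.pos t 0) (h.pos t 1) (h.pos t 2) (h'.pos t' 0) (h'.pos t' 1) (h'.pos t' 2)
  have e3 : ∑ t, ∑ t', 18 * (K3 (l t 0) (l t 1) (l t 2) * K3 (l' t' 0) (l' t' 1) (l' t' 2))
      = 18 * (sumK l * sumK l') := by
    unfold sumK
    rw [Finset.sum_mul_sum, Finset.mul_sum]
    refine Finset.sum_congr rfl fun t _ => ?_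
    rw [Finset.mul_sum]
  rw [e3, ← e] at b
  unfold BB
  nlinarith [b]

/-! ### Elementary bounds on the functionals -/

theorem xx_nonneg {l : ι → Fin 3 → ℝ} (h : WSig l) : 0 ≤ xx l := by
  unfold xx sumF
  have : ∑ t, (l t 0 + l t 1 + l t 2) / 3 ≤ ∑ t, F3 (l t 0) (l t 1) (l t 2) :=
    Finset.sum_le_sum fun t _ => F3_ge _ _ _ (h.Npos t)
  rw [← Finset.sum_div, sum_N h.tot] at this
  linarith

theorem BB_nonneg {l : ι → Fin 3 → ℝ} (h : IsSig l) : 0 ≤ BB l := by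
  unfold BB sumK
  have : ∑ t, K3 (l t 0) (l t 1) (l t 2) ≤ ∑ t, (l t 0 + l t 1 + l t 2) / 9 :=
    Finset.sum_le_sum fun t _ => K3_le (h.pos t 0) (h.pos t 1) (h.pos t 2)
  rw [← Finset.sum_div, sum_N h.tot] at this
  linarith

theorem BB_le_one {l : ι → Fin 3 → ℝ} (h : WSig l) : BB l ≤ 1 := by
  unfold BB sumK
  have : 0 ≤ ∑ t, K3 (l t 0) (l t 1) (l t 2) :=
    Finset.sum_nonneg fun t _ => K3_nonneg (h.nonneg t 0) (h.nonneg t 1) (h.nonneg t 2)
  linarith

/-- The Lyapunov bound. -/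
structure Bd (y : ℝ) (l : ι → Fin 3 → ℝ) : Prop where
  x_le : xx l ≤ y
  B_le : BB l ≤ 3 * y

theorem Bd.mono {y y' : ℝ} {l : ι → Fin 3 → ℝ} (h : Bd y l) (hy : y ≤ y') : Bd y' l :=
  ⟨h.x_le.trans hy, h.B_le.trans (by linarith)⟩

/-- Subadditivity of the Lyapunov bound. -/
theorem Bd.prod {l : ι → Fin 3 → ℝ} {l' : κ → Fin 3 → ℝ} {y1 y2 : ℝ} (h : IsSig l) (h' : IsSig l')
    (fl : Flat l') (b1 : Bd y1 l) (b2 : Bd y2 l') (hy1 : y1 ≤ 2 / 3) (hy2 : y2 ≤ 2 / 3) :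
    Bd (y1 + y2) (prodS l l') := by
  have hx1 := xx_nonneg h.toW
  have hx2 := xx_nonneg h'.toW
  have hB1 := BB_nonneg h
  have hB2 := BB_nonneg h'
  constructor
  · have key := xx_prod_le h h' fl
    have b1x := b1.x_le
    have b2x := b2.x_le
    have b1B := b1.B_le
    have b2B := b2.B_le
    set x1 := xx l
    set x2 := xx l'
    set B1 := BB l
    set B2 := BB l'
    have t1 : x2 * B1 ≤ x2 * (3 * y1) := mul_le_mul_of_nonneg_left b1B hx2
    have t2 : x1 * B2 ≤ x1 * (3 * y2) := mul_le_mul_of_nonneg_left b2B hx1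
    have t3 : 0 ≤ (y1 - x1) * (1 - 3 / 2 * y2) := mul_nonneg (by linarith) (by linarith)
    have t4 : 0 ≤ (y2 - x2) * (1 - 3 / 2 * x1) :=
      mul_nonneg (by linarith) (by linarith)
    have t5 : 0 ≤ (y2 - x2) * x1 := mul_nonneg (by linarith) hx1
    nlinarith [key, t1, t2, t3, t4, t5]
  · have key := BB_prod_le h h'
    have : 0 ≤ BB l * BB l' := mul_nonneg hB1 hB2
    have b1B := b1.B_le
    have b2B := b2.B_le
    linarith

/-- The gain at the first product of two flat signals. -/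
theorem Bd.prod_gain {l : ι → Fin 3 → ℝ} {l' : κ → Fin 3 → ℝ} {y : ℝ} (h : IsSig l) (h' : IsSig l')
    (fl0 : Flat l) (fl : Flat l') (b1 : Bd y l) (b2 : Bd y l') (hy : y ≤ 1 / 3) :
    Bd (y + y - 3 / 20 * (y * y)) (prodS l l') := by
  have hx1 := xx_nonneg h.toW
  have hx2 := xx_nonneg h'.toW
  have hB1 := BB_nonneg h
  have hB2 := BB_nonneg h'
  have hy0 : 0 ≤ y := hx1.trans b1.x_le
  constructor
  · have key := xx_prod_le_margin h h' fl0 fl
    have b1x := b1.x_le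
    have b2x := b2.x_le
    have b1B := b1.B_le
    have b2B := b2.B_le
    set x1 := xx l
    set x2 := xx l'
    set B1 := BB l
    set B2 := BB l'
    have t1 : x2 * B1 ≤ x2 * (3 * y) := mul_le_mul_of_nonneg_left b1B hx2
    have t2 : x1 * B2 ≤ x1 * (3 * y) := mul_le_mul_of_nonneg_left b2B hx1
    -- coefficient of `x1` stays nonnegative
    have t3 : 0 ≤ (y - x1) * (1 + 3 / 2 * y - (3 + 3 / 20) * x2) := by
      apply mul_nonneg (by linarith)
      nlinarith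
    have t4 : 0 ≤ (y - x2) * (1 + 3 / 2 * y - (3 + 3 / 20) * y) := by
      apply mul_nonneg (by linarith)
      nlinarith
    nlinarith [key, t1, t2, t3, t4]
  · have key := BB_prod_le h h'
    have b1B := b1.B_le
    have b2B := b2.B_le
    have hB1le := BB_le_one h.toW
    have t1 : 0 ≤ (3 * y - BB l) * (1 - BB l') := mul_nonneg (by linarith) (by linarith [BB_le_one h'.toW])
    have t2 : 0 ≤ (3 * y - BB l') * (1 - 3 * y) := mul_nonneg (by linarith) (by linarith)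
    have t3 : 0 ≤ y * y := mul_self_nonneg y
    nlinarith [key, t1, t2, t3]

/-- Exchange of factors. -/
theorem xx_prod_comm (l : ι → Fin 3 → ℝ) (l' : κ → Fin 3 → ℝ) : xx (prodS l l') = xx (prodS l' l) := by
  unfold xx sumF prodS
  congr 2
  rw [← Equiv.sum_comp (Equiv.prodComm ι κ)]
  refine Finset.sum_congr rfl fun p _ => ?_
  simp only [Equiv.prodComm_apply, Prod.fst_swap, Prod.snd_swap, mul_comm]

theorem BB_prod_comm (l : ι → Fin 3 → ℝ) (l' : κ → Fin 3 → ℝ) : BB (prodS l l') = BB (prodS l' l) := by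
  unfold BB sumK prodS
  congr 2
  rw [← Equiv.sum_comp (Equiv.prodComm ι κ)]
  refine Finset.sum_congr rfl fun p _ => ?_
  simp only [Equiv.prodComm_apply, Prod.fst_swap, Prod.snd_swap, mul_comm]

theorem Bd.of_comm {y : ℝ} {l : ι → Fin 3 → ℝ} {l' : κ → Fin 3 → ℝ} (h : Bd y (prodS l' l)) :
    Bd y (prodS l l') :=
  ⟨by rw [xx_prod_comm]; exact h.x_le, by rw [BB_prod_comm]; exact h.B_le⟩

/-! ### The channel -/

/-- The channel map on a signal. -/
def chan (lam : ℝ) (l : ι → Fin 3 → ℝ) : ι → Fin 3 → ℝ :=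
  fun t i => lam * l t i + (1 - lam) / 3 * (l t 0 + l t 1 + l t 2)

theorem chan_isSig {l : ι → Fin 3 → ℝ} (h : WSig l) {lam : ℝ} (h0 : 0 ≤ lam) (h1 : lam < 1) :
    IsSig (chan lam l) where
  pos := fun t i => by
    unfold chan
    have h2 : 0 ≤ lam * l t i := mul_nonneg h0 (h.nonneg t i)
    have h3 : 0 < (1 - lam) / 3 * (l t 0 + l t 1 + l t 2) :=
      mul_pos (by linarith) (h.Npos t)
    linarith
  tot := fun i => by
    unfold chan
    rw [Finset.sum_add_distrib, ← Finset.mul_sum, ← Finset.mul_sum, h.tot, sum_N h.tot]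
    ring
  sym := fun σ => by
    obtain ⟨π, hπ⟩ := h.sym σ
    refine ⟨π, fun t i => ?_⟩
    unfold chan
    rw [hπ, hπ, hπ, hπ]
    have : l t (σ 0) + l t (σ 1) + l t (σ 2) = l t 0 + l t 1 + l t 2 := by
      have := Equiv.sum_comp σ (fun j => l t j)
      simpa only [Fin.sum_univ_three] using this
    rw [this]

theorem chan_flat {l : ι → Fin 3 → ℝ} (h : WSig l) {lam : ℝ} (h0 : 0 ≤ lam) (h1 : lam ≤ 3 / 4) :
    Flat (chan lam l) := by
  intro t i
  unfold chan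
  have e := chan_sum lam (l t 0) (l t 1) (l t 2)
  rw [e]
  have h2 : 0 ≤ lam * l t i := mul_nonneg h0 (h.nonneg t i)
  have hN := h.Npos t
  have h3 : (1 / 12) * (l t 0 + l t 1 + l t 2) ≤ (1 - lam) / 3 * (l t 0 + l t 1 + l t 2) :=
    mul_le_mul_of_nonneg_right (by linarith) hN.le
  linarith

theorem xx_chan {l : ι → Fin 3 → ℝ} (h : WSig l) (lam : ℝ) : xx (chan lam l) = lam ^ 2 * xx l := by
  have h1 : ∑ t, fN (chan lam l t 0) (chan lam l t 1) (chan lam l t 2) = lam ^ 2 * ∑ t, fN (l t 0) (l t 1) (l t 2) := by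
    rw [Finset.mul_sum]
    refine Finset.sum_congr rfl fun t _ => ?_
    exact chan_F lam _ _ _ (h.Npos t)
  have tot' : ∀ i, ∑ t, chan lam l t i = 1 := fun i => by
    unfold chan
    rw [Finset.sum_add_distrib, ← Finset.mul_sum, ← Finset.mul_sum, h.tot, sum_N h.tot]
    ring
  rw [sum_f tot', sum_f h.tot] at h1
  linarith

theorem BB_chan {l : ι → Fin 3 → ℝ} (h : IsSig l) {lam : ℝ} (h0 : 0 ≤ lam) (h1 : lam < 1) :
    BB (chan lam l) ≤ 3 * lam ^ 2 * (1 - lam) * xx l + lam ^ 3 * BB l := by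
  have key : ∑ t, ((l t 0 + l t 1 + l t 2)
        - 9 * K3 (chan lam l t 0) (chan lam l t 1) (chan lam l t 2))
      ≤ ∑ t, (3 * lam ^ 2 * (1 - lam) * fN (l t 0) (l t 1) (l t 2)
        + lam ^ 3 * ((l t 0 + l t 1 + l t 2) - 9 * K3 (l t 0) (l t 1) (l t 2))) :=
    Finset.sum_le_sum fun t _ => chan_K lam _ _ _ h0 h1 (h.pos t 0) (h.pos t 1) (h.pos t 2)
  rw [Finset.sum_add_distrib, Finset.sum_sub_distrib, ← Finset.mul_sum, ← Finset.mul_sum,
    ← Finset.mul_sum, Finset.sum_sub_distrib, ← Finset.mul_sum, sum_N h.tot, sum_f h.tot] at key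
  unfold BB sumK
  linarith [key]

theorem Bd.chan {l : ι → Fin 3 → ℝ} (h : IsSig l) {lam y : ℝ} (h0 : 0 ≤ lam) (h1 : lam < 1)
    (b : Bd y l) : Bd (lam ^ 2 * y) (chan lam l) := by
  constructor
  · rw [xx_chan h.toW]
    exact mul_le_mul_of_nonneg_left b.x_le (by positivity)
  · have key := BB_chan h h0 h1
    have t1 : 3 * lam ^ 2 * (1 - lam) * xx l ≤ 3 * lam ^ 2 * (1 - lam) * y :=
      mul_le_mul_of_nonneg_left b.x_le (mul_nonneg (by positivity) (by linarith))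
    have t2 : lam ^ 3 * BB l ≤ lam ^ 3 * (3 * y) :=
      mul_le_mul_of_nonneg_left b.B_le (by positivity)
    nlinarith [key, t1, t2]

/-! ### Powers -/

/-- The `k`-fold power of a signal. -/
def powS (k : ℕ) (l : ι → Fin 3 → ℝ) : (Fin k → ι) → Fin 3 → ℝ := fun τ i => ∏ c, l (τ c) i

theorem powS_isSig {l : ι → Fin 3 → ℝ} (h : IsSig l) (k : ℕ) : IsSig (powS k l) where
  pos := fun τ i => Finset.prod_pos fun c _ => h.pos _ _
  tot := fun i => by
    unfold powS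
    have := Finset.prod_univ_sum (fun _ : Fin k => (Finset.univ : Finset ι)) (fun _ t => l t i)
    rw [Fintype.piFinset_univ] at this
    rw [← this]
    simp [h.tot]
  sym := fun σ => by
    obtain ⟨π, hπ⟩ := h.sym σ
    refine ⟨Equiv.arrowCongr (Equiv.refl _) π, fun τ i => ?_⟩
    unfold powS
    refine Finset.prod_congr rfl fun c _ => ?_
    exact hπ (τ c) i

/-- Decomposition of a sum over a power. -/
theorem sum_powS_succ (G : ℝ → ℝ → ℝ → ℝ) (k : ℕ) (l : ι → Fin 3 → ℝ) :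
    ∑ τ, G (powS (k + 1) l τ 0) (powS (k + 1) l τ 1) (powS (k + 1) l τ 2)
      = ∑ p, G (prodS l (powS k l) p 0) (prodS l (powS k l) p 1) (prodS l (powS k l) p 2) := by
  rw [← Equiv.sum_comp (Fin.consEquiv (fun _ : Fin (k + 1) => ι))]
  refine Finset.sum_congr rfl fun p _ => ?_
  have e : ∀ i, powS (k + 1) l (Fin.consEquiv (fun _ : Fin (k + 1) => ι) p) i
      = prodS l (powS k l) p i := by
    intro i
    unfold powS prodS
    rw [Fin.prod_univ_succ]
    rfl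
  rw [e, e, e]

theorem xx_powS_succ (k : ℕ) (l : ι → Fin 3 → ℝ) : xx (powS (k + 1) l) = xx (prodS l (powS k l)) := by
  unfold xx sumF
  rw [sum_powS_succ F3]

theorem BB_powS_succ (k : ℕ) (l : ι → Fin 3 → ℝ) : BB (powS (k + 1) l) = BB (prodS l (powS k l)) := by
  unfold BB sumK
  rw [sum_powS_succ K3]

theorem Bd_powS_succ {k : ℕ} {l : ι → Fin 3 → ℝ} {y : ℝ} (h : Bd y (prodS l (powS k l))) :
    Bd y (powS (k + 1) l) :=
  ⟨by rw [xx_powS_succ]; exact h.x_le, by rw [BB_powS_succ]; exact h.B_le⟩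

theorem Bd_powS_zero (l : ι → Fin 3 → ℝ) : Bd 0 (powS 0 l) := by
  constructor
  · unfold xx sumF powS
    simp [F3]
    norm_num
  · unfold BB sumK powS
    simp [K3]
    norm_num

/-- Powers of a flat signal obey the Lyapunov bound additively. -/
theorem Bd_powS {l : ι → Fin 3 → ℝ} {y : ℝ} (h : IsSig l) (fl : Flat l) (b : Bd y l) (k : ℕ)
    (hy0 : 0 ≤ y) (hk : k * y ≤ 2 / 3) : Bd (k * y) (powS k l) := by
  induction k with
  | zero => simpa using Bd_powS_zero l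
  | succ k ih =>
    have hk' : (k : ℝ) * y ≤ 2 / 3 := by
      push_cast at hk
      nlinarith
    have hy : y ≤ 2 / 3 := by
      push_cast at hk
      nlinarith [mul_nonneg (Nat.cast_nonneg k : (0 : ℝ) ≤ k) hy0]
    have := (Bd.prod (powS_isSig h k) h fl (ih hk') b hk' hy).of_comm
    apply Bd_powS_succ
    convert this using 1
    push_cast
    ring

omit [Fintype ι] in
theorem flat_powS_one {l : ι → Fin 3 → ℝ} (fl : Flat l) : Flat (powS 1 l) := by
  intro τ i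
  unfold powS
  simpa using fl (τ 0) i

theorem Bd_powS_one {l : ι → Fin 3 → ℝ} {y : ℝ} (b : Bd y l) : Bd y (powS 1 l) := by
  have e : ∀ (G : ℝ → ℝ → ℝ → ℝ), ∑ τ, G (powS 1 l τ 0) (powS 1 l τ 1) (powS 1 l τ 2)
      = ∑ t, G (l t 0) (l t 1) (l t 2) := by
    intro G
    have h := Equiv.sum_comp (Equiv.funUnique (Fin 1) ι).symm (fun τ => G (powS 1 l τ 0) (powS 1 l τ 1) (powS 1 l τ 2))
    rw [← h]
    refine Finset.sum_congr rfl fun t _ => ?_
    simp [powS]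
  constructor
  · have := b.x_le
    unfold xx sumF at *
    rw [e F3]; exact this
  · have := b.B_le
    unfold BB sumK at *
    rw [e K3]; exact this

/-- The full step: a power with `d ≥ 2` factors. -/
theorem Bd_step {l : ι → Fin 3 → ℝ} {y : ℝ} (h : IsSig l) (fl : Flat l) (b : Bd y l) (k : ℕ)
    (hy0 : 0 ≤ y) (hk : (k + 2 : ℝ) * y ≤ 2 / 3) :
    Bd ((k + 2 : ℝ) * y - 3 / 20 * (y * y)) (powS (k + 2) l) := by
  induction k with
  | zero =>
    have hy : y ≤ 1 / 3 := by norm_num at hk; linarith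
    have h1 := Bd.prod_gain h (powS_isSig h 1) fl (flat_powS_one fl) b (Bd_powS_one b) hy
    have := Bd_powS_succ h1
    convert this using 1
    push_cast
    ring
  | succ k ih =>
    have hk' : (k + 2 : ℝ) * y ≤ 2 / 3 := by
      push_cast at hk
      nlinarith
    have hy : y ≤ 2 / 3 := by
      push_cast at hk
      nlinarith [mul_nonneg (Nat.cast_nonneg k : (0 : ℝ) ≤ k) hy0]
    have hyy : 0 ≤ y * y := mul_self_nonneg y
    have hk'' : (k + 2 : ℝ) * y - 3 / 20 * (y * y) ≤ 2 / 3 := by nlinarith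
    have := (Bd.prod (powS_isSig h (k + 2)) h fl (ih hk') b hk'' hy).of_comm
    apply Bd_powS_succ
    convert this using 1
    push_cast
    ring

end Vale.Agent.Lib.P154
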