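import Vale.Agent.Lib.P154.Defs
import Vale.Agent.Lib.P154.Signal

/-!
The likelihoods of the tree form a signal, level by level.
-/

noncomputable section

open Finset Filter Topology

namespace Vale.Agent.Lib.P154

/-- The likelihood family at level `n`. -/
def lev (d : ℕ) (lam : ℝ) (n : ℕ) : LeafSpins d 3 n → Fin 3 → ℝ :=
  fun τ i => leafLik d 3 lam n i τ

theorem sum_potts (lam : ℝ) (i : Fin 3) (v : Fin 3 → ℝ) :
    ∑ j : Fin 3, potts 3 lam i j * v j = lam * v i + (1 - lam) / 3 * (v 0 + v 1 + v 2) := by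
  unfold potts
  simp only [Fin.sum_univ_three]
  push_cast
  fin_cases i <;> simp <;> ring

theorem lev_succ (d : ℕ) (lam : ℝ) (n : ℕ) : lev d lam (n + 1) = powS d (chan lam (lev d lam n)) := by
  funext τ i
  unfold lev powS chan
  change ∏ c : Fin d, ∑ j : Fin 3, potts 3 lam i j * leafLik d 3 lam n j (τ c) = _
  refine Finset.prod_congr rfl fun c _ => ?_
  rw [sum_potts]

theorem lev_zero_wsig (d : ℕ) (lam : ℝ) : WSig (lev d lam 0) where
  nonneg := fun t i => by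
    change 0 ≤ (if i = spinAtZero t then (1 : ℝ) else 0)
    split_ifs <;> norm_num
  Npos := fun t => by
    change 0 < (if (0 : Fin 3) = spinAtZero t then (1 : ℝ) else 0)
      + (if (1 : Fin 3) = spinAtZero t then (1 : ℝ) else 0)
      + (if (2 : Fin 3) = spinAtZero t then (1 : ℝ) else 0)
    have : ∀ t : Fin 3, 0 < (if (0 : Fin 3) = t then (1 : ℝ) else 0)
      + (if (1 : Fin 3) = t then (1 : ℝ) else 0)
      + (if (2 : Fin 3) = t then (1 : ℝ) else 0) := by
      intro t; fin_cases t <;> simp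
    exact this (spinAtZero t)
  tot := fun i => by
    change ∑ t : Fin 3, (if i = t then (1 : ℝ) else 0) = 1
    simp
  sym := fun σ => by
    refine ⟨σ.symm, fun t i => ?_⟩
    change (if i = σ.symm (spinAtZero t) then (1 : ℝ) else 0) = (if σ i = spinAtZero t then (1 : ℝ) else 0)
    have : i = σ.symm (spinAtZero t) ↔ σ i = spinAtZero t := by
      rw [Equiv.eq_symm_apply]
    simp only [this]

/-- Level `0` passed through the channel. -/
theorem K3_vertex {lam : ℝ} (h0 : 0 ≤ lam) (h1 : lam < 1) :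
    K3 (lam + (1 - lam) / 3) ((1 - lam) / 3) ((1 - lam) / 3)
      = (1 + 2 * lam) * (1 - lam) / (9 * (1 + lam)) := by
  have h2 : 0 < 1 - lam := by linarith
  have h3 : 0 < 1 + lam := by linarith
  unfold K3
  have e : (lam + (1 - lam) / 3) * ((1 - lam) / 3) + (1 - lam) / 3 * ((1 - lam) / 3)
      + (1 - lam) / 3 * (lam + (1 - lam) / 3) = (1 - lam) * (1 + lam) / 3 := by ring
  rw [e]
  field_simp
  ring

theorem K3_perm1 (a b c : ℝ) : K3 a b c = K3 b a c := by
  unfold K3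
  have e : a * b + b * c + c * a = b * a + a * c + c * b := by ring
  rw [e]
  ring_nf

theorem K3_perm2 (a b c : ℝ) : K3 a b c = K3 c b a := by
  unfold K3
  have e : a * b + b * c + c * a = c * b + b * a + a * c := by ring
  rw [e]
  ring_nf

theorem Bd_chan_zero (d : ℕ) {lam : ℝ} (h0 : 0 ≤ lam) (h1 : lam < 1) :
    Bd (lam ^ 2 * (2 / 3)) (chan lam (lev d lam 0)) := by
  have hW := lev_zero_wsig d lam
  constructor
  · rw [xx_chan hW]
    have : xx (lev d lam 0) = 2 / 3 := by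
      unfold xx sumF
      change 1 / 3 * ∑ t : Fin 3, F3 (if (0 : Fin 3) = t then (1 : ℝ) else 0)
        (if (1 : Fin 3) = t then (1 : ℝ) else 0) (if (2 : Fin 3) = t then (1 : ℝ) else 0) - 1 / 3 = 2 / 3
      simp [Fin.sum_univ_three, F3]
      norm_num
    rw [this]
  · unfold BB sumK
    have e : ∑ t, K3 (chan lam (lev d lam 0) t 0) (chan lam (lev d lam 0) t 1) (chan lam (lev d lam 0) t 2)
        = 3 * K3 (lam + (1 - lam) / 3) ((1 - lam) / 3) ((1 - lam) / 3) := by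
      change ∑ t : Fin 3, K3
        (lam * (if (0 : Fin 3) = t then (1 : ℝ) else 0) + (1 - lam) / 3 * ((if (0 : Fin 3) = t then (1 : ℝ) else 0)
          + (if (1 : Fin 3) = t then (1 : ℝ) else 0) + (if (2 : Fin 3) = t then (1 : ℝ) else 0)))
        (lam * (if (1 : Fin 3) = t then (1 : ℝ) else 0) + (1 - lam) / 3 * ((if (0 : Fin 3) = t then (1 : ℝ) else 0)
          + (if (1 : Fin 3) = t then (1 : ℝ) else 0) + (if (2 : Fin 3) = t then (1 : ℝ) else 0)))
        (lam * (if (2 : Fin 3) = t then (1 : ℝ) else 0) + (1 - lam) / 3 * ((if (0 : Fin 3) = t then (1 : ℝ) else 0)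
          + (if (1 : Fin 3) = t then (1 : ℝ) else 0) + (if (2 : Fin 3) = t then (1 : ℝ) else 0))) = _
      rw [Fin.sum_univ_three]
      simp only [Fin.isValue, if_true, if_false, Fin.reduceEq, mul_one, mul_zero, add_zero, zero_add]
      rw [(K3_perm1 (lam + (1 - lam) / 3) ((1 - lam) / 3) ((1 - lam) / 3)).symm,
        (K3_perm2 (lam + (1 - lam) / 3) ((1 - lam) / 3) ((1 - lam) / 3)).symm]
      ring
    rw [e, K3_vertex h0 h1]
    have h3 : 0 < 1 + lam := by linarith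
    have h4 : 1 - 3 * (3 * ((1 + 2 * lam) * (1 - lam) / (9 * (1 + lam)))) = 2 * lam ^ 2 / (1 + lam) := by
      field_simp
      ring
    rw [h4, div_le_iff₀ h3]
    nlinarith [mul_nonneg h0 (sq_nonneg lam), sq_nonneg lam]

/-! ### The Lyapunov sequence -/

/-- The sequence bounding the functionals. -/
def yseq (d : ℕ) (lam : ℝ) : ℕ → ℝ
  | 0 => 2 / 3
  | n + 1 => (d : ℝ) * (lam ^ 2 * yseq d lam n)
      - 3 / 20 * ((lam ^ 2 * yseq d lam n) * (lam ^ 2 * yseq d lam n))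

theorem yseq_bounds {d : ℕ} (hd : 2 ≤ d) {lam : ℝ} (hKS : (d : ℝ) * lam ^ 2 ≤ 1) (n : ℕ) :
    0 ≤ yseq d lam n ∧ yseq d lam n ≤ 2 / 3 := by
  have hd' : (2 : ℝ) ≤ d := by exact_mod_cast hd
  induction n with
  | zero => constructor <;> norm_num [yseq]
  | succ n ih =>
    obtain ⟨h0, h1⟩ := ih
    change 0 ≤ (d : ℝ) * (lam ^ 2 * yseq d lam n)
      - 3 / 20 * ((lam ^ 2 * yseq d lam n) * (lam ^ 2 * yseq d lam n))
      ∧ (d : ℝ) * (lam ^ 2 * yseq d lam n)
      - 3 / 20 * ((lam ^ 2 * yseq d lam n) * (lam ^ 2 * yseq d lam n)) ≤ 2 / 3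
    set y := yseq d lam n
    have hl : 0 ≤ lam ^ 2 := sq_nonneg lam
    have hz0 : 0 ≤ lam ^ 2 * y := mul_nonneg hl h0
    have hl2 : lam ^ 2 ≤ 1 / 2 := by nlinarith
    have hz1 : lam ^ 2 * y ≤ 1 / 3 := by nlinarith
    have hz2 : (d : ℝ) * (lam ^ 2 * y) ≤ y := by
      have := mul_le_mul_of_nonneg_right hKS h0
      nlinarith
    have hzz : 0 ≤ (lam ^ 2 * y) * (lam ^ 2 * y) := mul_self_nonneg _
    constructor
    · have : 2 * (lam ^ 2 * y) ≤ (d : ℝ) * (lam ^ 2 * y) := mul_le_mul_of_nonneg_right hd' hz0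
      nlinarith
    · nlinarith

theorem yseq_succ_le {d : ℕ} (hd : 2 ≤ d) {lam : ℝ} (hKS : (d : ℝ) * lam ^ 2 ≤ 1) (n : ℕ) :
    yseq d lam (n + 1) ≤ yseq d lam n - 3 / 20 * lam ^ 4 * yseq d lam n ^ 2 := by
  change (d : ℝ) * (lam ^ 2 * yseq d lam n)
      - 3 / 20 * ((lam ^ 2 * yseq d lam n) * (lam ^ 2 * yseq d lam n)) ≤ _
  obtain ⟨h0, h1⟩ := yseq_bounds hd hKS n
  have := mul_le_mul_of_nonneg_right hKS h0
  nlinarith

theorem yseq_tendsto {d : ℕ} (hd : 2 ≤ d) {lam : ℝ} (h0 : 0 ≤ lam) (hKS : (d : ℝ) * lam ^ 2 ≤ 1) :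
    Tendsto (yseq d lam) atTop (𝓝 0) := by
  rcases h0.eq_or_lt with rfl | hpos
  · -- the trivial channel
    have : ∀ n, yseq d 0 (n + 1) = 0 := by
      intro n
      change (d : ℝ) * ((0 : ℝ) ^ 2 * yseq d 0 n)
        - 3 / 20 * (((0 : ℝ) ^ 2 * yseq d 0 n) * ((0 : ℝ) ^ 2 * yseq d 0 n)) = 0
      ring
    rw [← tendsto_add_atTop_iff_nat 1]
    simp only [this]
    exact tendsto_const_nhds
  · have hanti : Antitone (yseq d lam) := by
      apply antitone_nat_of_succ_le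
      intro n
      have := yseq_succ_le hd hKS n
      have h2 : 0 ≤ 3 / 20 * lam ^ 4 * yseq d lam n ^ 2 := by positivity
      linarith
    have hbdd : BddBelow (Set.range (yseq d lam)) := by
      refine ⟨0, ?_⟩
      rintro _ ⟨n, rfl⟩
      exact (yseq_bounds hd hKS n).1
    have hlim := tendsto_atTop_ciInf hanti hbdd
    set L := ⨅ i, yseq d lam i with hL
    have hlim1 : Tendsto (fun n => yseq d lam (n + 1)) atTop (𝓝 L) :=
      (tendsto_add_atTop_iff_nat 1).2 hlim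
    have hlim2 : Tendsto (fun n => yseq d lam n - 3 / 20 * lam ^ 4 * yseq d lam n ^ 2) atTop
        (𝓝 (L - 3 / 20 * lam ^ 4 * L ^ 2)) :=
      hlim.sub ((hlim.pow 2).const_mul _)
    have hle : L ≤ L - 3 / 20 * lam ^ 4 * L ^ 2 :=
      le_of_tendsto_of_tendsto' hlim1 hlim2 (fun n => yseq_succ_le hd hKS n)
    have hpos4 : 0 < 3 / 20 * lam ^ 4 := by positivity
    have hL2 : L ^ 2 ≤ 0 := by
      by_contra hneg
      push Not at hneg
      have : 0 < 3 / 20 * lam ^ 4 * L ^ 2 := mul_pos hpos4 hneg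
      linarith
    have hL0 : L = 0 := by
      have := sq_nonneg L
      have h3 : L ^ 2 = 0 := le_antisymm hL2 this
      exact pow_eq_zero_iff (by norm_num) |>.1 h3
    rw [hL0] at hlim
    exact hlim

/-! ### All levels -/

theorem lev_main {d : ℕ} (hd : 2 ≤ d) {lam : ℝ} (h0 : 0 ≤ lam) (hKS : (d : ℝ) * lam ^ 2 ≤ 1) (n : ℕ) :
    IsSig (lev d lam (n + 1)) ∧ Bd (yseq d lam (n + 1)) (lev d lam (n + 1)) := by
  have hd' : (2 : ℝ) ≤ d := by exact_mod_cast hd
  have hl34 : lam ≤ 3 / 4 := by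
    have : lam ^ 2 ≤ 1 / 2 := by nlinarith [sq_nonneg lam]
    nlinarith
  have hl1 : lam < 1 := by linarith
  -- one step from a level whose channel output is controlled
  have step : ∀ m : ℕ, WSig (lev d lam m) → Bd (lam ^ 2 * yseq d lam m) (chan lam (lev d lam m)) →
      IsSig (lev d lam (m + 1)) ∧ Bd (yseq d lam (m + 1)) (lev d lam (m + 1)) := by
    intro m hW hB
    have hS := chan_isSig hW h0 hl1
    have hF := chan_flat hW h0 hl34
    obtain ⟨hy0, hy1⟩ := yseq_bounds hd hKS m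
    obtain ⟨k, rfl⟩ : ∃ k, d = k + 2 := ⟨d - 2, by omega⟩
    rw [lev_succ]
    refine ⟨powS_isSig hS _, ?_⟩
    have hz0 : 0 ≤ lam ^ 2 * yseq (k + 2) lam m := mul_nonneg (sq_nonneg lam) hy0
    have hk : ((k : ℝ) + 2) * (lam ^ 2 * yseq (k + 2) lam m) ≤ 2 / 3 := by
      have h3 := mul_le_mul_of_nonneg_right hKS hy0
      push_cast at h3
      nlinarith
    have := Bd_step hS hF hB k hz0 hk
    have e : yseq (k + 2) lam (m + 1) = ((k : ℝ) + 2) * (lam ^ 2 * yseq (k + 2) lam m)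
        - 3 / 20 * ((lam ^ 2 * yseq (k + 2) lam m) * (lam ^ 2 * yseq (k + 2) lam m)) := by
      change ((k + 2 : ℕ) : ℝ) * _ - _ = _
      push_cast
      ring
    rw [e]
    exact this
  induction n with
  | zero =>
    exact step 0 (lev_zero_wsig d lam) (Bd_chan_zero d h0 hl1)
  | succ n ih =>
    exact step (n + 1) ih.1.toW (Bd.chan ih.1 h0 hl1 ih.2)

/-! ### From the functional to the advantage -/

theorem abs_le_tangent (z δ : ℝ) (hδ : 0 < δ) : |z| ≤ δ / 2 + z ^ 2 / (2 * δ) := by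
  have h : z ^ 2 / (2 * δ) = |z| ^ 2 / (2 * δ) := by rw [sq_abs]
  rw [h, div_add_div _ _ (by norm_num) (by positivity), le_div_iff₀ (by positivity)]
  nlinarith [sq_nonneg (|z| - δ), mul_pos hδ hδ]

theorem point_adv (a b c δ : ℝ) (hN : 0 < a + b + c) (hδ : 0 < δ) :
    (a + b + c) / 3 * ((1 / 2) * (|a / (a + b + c) - 1 / 3| + |b / (a + b + c) - 1 / 3|
        + |c / (a + b + c) - 1 / 3|))
      ≤ (a + b + c) / 3 * (3 * δ / 4) + (1 / 3) * fN a b c / (4 * δ) := by
  set N := a + b + c with hNe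
  have t1 := abs_le_tangent (a / N - 1 / 3) δ hδ
  have t2 := abs_le_tangent (b / N - 1 / 3) δ hδ
  have t3 := abs_le_tangent (c / N - 1 / 3) δ hδ
  have hsum : (1 / 2) * (|a / N - 1 / 3| + |b / N - 1 / 3| + |c / N - 1 / 3|)
      ≤ 3 * δ / 4 + ((a / N - 1 / 3) ^ 2 + (b / N - 1 / 3) ^ 2 + (c / N - 1 / 3) ^ 2) / (4 * δ) := by
    have e : (a / N - 1 / 3) ^ 2 / (2 * δ) + (b / N - 1 / 3) ^ 2 / (2 * δ) + (c / N - 1 / 3) ^ 2 / (2 * δ)
        = 2 * (((a / N - 1 / 3) ^ 2 + (b / N - 1 / 3) ^ 2 + (c / N - 1 / 3) ^ 2) / (4 * δ)) := by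
      field_simp
      ring
    linarith
  have hf : N / 3 * (((a / N - 1 / 3) ^ 2 + (b / N - 1 / 3) ^ 2 + (c / N - 1 / 3) ^ 2) / (4 * δ))
      = (1 / 3) * fN a b c / (4 * δ) := by
    unfold fN F3
    rw [← hNe]
    have hc : c = N - a - b := by rw [hNe]; ring
    rw [hc]
    field_simp
    ring
  have hN3 : 0 ≤ N / 3 := by positivity
  have := mul_le_mul_of_nonneg_left hsum hN3
  have e3 : N / 3 * (3 * δ / 4 + ((a / N - 1 / 3) ^ 2 + (b / N - 1 / 3) ^ 2 + (c / N - 1 / 3) ^ 2) / (4 * δ))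
      = N / 3 * (3 * δ / 4) + N / 3 * (((a / N - 1 / 3) ^ 2 + (b / N - 1 / 3) ^ 2 + (c / N - 1 / 3) ^ 2) / (4 * δ)) := by
    ring
  rw [e3, hf] at this
  exact this

theorem advantage_le {d : ℕ} {lam : ℝ} {n : ℕ} (hW : WSig (lev d lam n)) (δ : ℝ) (hδ : 0 < δ) :
    advantage d 3 lam n ≤ 3 * δ / 4 + xx (lev d lam n) / (4 * δ) := by
  have key : advantage d 3 lam n ≤ ∑ τ, ((lev d lam n τ 0 + lev d lam n τ 1 + lev d lam n τ 2) / 3 * (3 * δ / 4)
      + (1 / 3) * fN (lev d lam n τ 0) (lev d lam n τ 1) (lev d lam n τ 2) / (4 * δ)) := by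
    unfold advantage
    refine Finset.sum_le_sum fun τ _ => ?_
    have hp := point_adv (lev d lam n τ 0) (lev d lam n τ 1) (lev d lam n τ 2) δ (hW.Npos τ) hδ
    have e1 : leafProb d 3 lam n τ = (lev d lam n τ 0 + lev d lam n τ 1 + lev d lam n τ 2) / 3 := by
      unfold leafProb lev
      rw [Fin.sum_univ_three]
      push_cast
      ring
    have e2 : ∀ i : Fin 3, rootPost d 3 lam n i τ
        = lev d lam n τ i / (lev d lam n τ 0 + lev d lam n τ 1 + lev d lam n τ 2) := by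
      intro i
      unfold rootPost
      rw [e1]
      have hN := hW.Npos τ
      unfold lev at hN ⊢
      push_cast
      field_simp
    rw [e1, Fin.sum_univ_three]
    simp only [e2]
    push_cast
    exact hp
  refine key.trans ?_
  rw [Finset.sum_add_distrib, ← Finset.sum_mul, ← Finset.sum_div, ← Finset.sum_div, ← Finset.mul_sum,
    sum_N hW.tot, sum_f hW.tot]
  have : 3 / 3 * (3 * δ / 4) + 1 / 3 * (3 * xx (lev d lam n)) / (4 * δ) = 3 * δ / 4 + xx (lev d lam n) / (4 * δ) := by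
    ring
  rw [this]

theorem advantage_nonneg {d : ℕ} {lam : ℝ} {n : ℕ} (hW : WSig (lev d lam n)) :
    0 ≤ advantage d 3 lam n := by
  unfold advantage
  refine Finset.sum_nonneg fun τ _ => mul_nonneg ?_ ?_
  · unfold leafProb
    refine Finset.sum_nonneg fun i _ => mul_nonneg (by positivity) ?_
    exact hW.nonneg τ i
  · exact mul_nonneg (by norm_num) (Finset.sum_nonneg fun i _ => abs_nonneg _)

/-- Main theorem: nonreconstruction for the ferromagnetic three-state Potts channel on the `d`-ary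
tree, at and below the Kesten-Stigum bound. -/
theorem advantage_tendsto {d : ℕ} (hd : 2 ≤ d) {lam : ℝ} (h0 : 0 ≤ lam) (hKS : (d : ℝ) * lam ^ 2 ≤ 1) :
    Tendsto (advantage d 3 lam) atTop (𝓝 0) := by
  have hy := yseq_tendsto hd h0 hKS
  rw [Metric.tendsto_atTop]
  intro ε hε
  have hev := (tendsto_order.1 hy).2 (ε ^ 2) (by positivity)
  obtain ⟨N, hN⟩ := Filter.eventually_atTop.1 hev
  refine ⟨N + 1, fun n hn => ?_⟩
  obtain ⟨m, rfl⟩ : ∃ m, n = m + 1 := ⟨n - 1, by omega⟩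
  obtain ⟨hS, hB⟩ := lev_main hd h0 hKS m
  have h1 := advantage_le hS.toW (ε / 2) (by positivity)
  have h2 := advantage_nonneg hS.toW
  have h3 := hN (m + 1) (by omega)
  have h4 : xx (lev d lam (m + 1)) < ε ^ 2 := lt_of_le_of_lt hB.x_le h3
  have h5 : xx (lev d lam (m + 1)) / (4 * (ε / 2)) < ε / 2 := by
    rw [div_lt_iff₀ (by positivity)]
    nlinarith
  rw [Real.dist_eq, sub_zero, abs_of_nonneg h2]
  nlinarith

end Vale.Agent.Lib.P154
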